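import Vale.Agent.P150.Gauss

/-!
Linear images of independent standard Gaussians with the same covariance have the same law, and
the translation formula for such vectors. Used for P150 (fast mixing, module M3).
-/

open MeasureTheory ProbabilityTheory Real Finset

namespace Vale.Agent.P150.Fast.Dom

variable {ι ι' κ : Type*} [Fintype ι] [Fintype ι'] [Fintype κ]

/-- The linear map given by an array. -/
noncomputable def arrMap (T : κ → ι → ℝ) : (ι → ℝ) →L[ℝ] κ → ℝ :=
  LinearMap.toContinuousLinearMap
    { toFun := fun x k => ∑ i, T k i * x i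
      map_add' := fun x y => by
        funext k; simp only [Pi.add_apply, mul_add, sum_add_distrib]
      map_smul' := fun a x => by
        funext k; simp only [Pi.smul_apply, smul_eq_mul, RingHom.id_apply, mul_sum]
        exact sum_congr rfl fun i _ => by ring }

theorem arrMap_apply (T : κ → ι → ℝ) (x : ι → ℝ) (k : κ) : arrMap T x k = ∑ i, T k i * x i := rfl

theorem dual_pi_eq [DecidableEq ι] (L : StrongDual ℝ (ι → ℝ)) (x : ι → ℝ) :
    L x = ∑ i, x i * L (Pi.single i 1) := by
  conv_lhs => rw [pi_eq_sum_univ' x]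
  simp [map_sum, mul_comm]

theorem charFunDual_gp (L : StrongDual ℝ (ι → ℝ)) [DecidableEq ι] :
    charFunDual (gp ι) L = Complex.exp (-(∑ i, L (Pi.single i 1) ^ 2 : ℝ) / 2) := by
  have e : ∀ x : ι → ℝ, Complex.exp ((L x : ℂ) * Complex.I)
      = ∏ i, Complex.exp (((x i * L (Pi.single i 1) : ℝ) : ℂ) * Complex.I) := fun x => by
    rw [← Complex.exp_sum, ← sum_mul, dual_pi_eq L x]
    push_cast
    rfl
  rw [charFunDual_apply, integral_congr_ae (ae_of_all _ e), gp,
    integral_fintype_prod_eq_prod (f := fun i (t : ℝ) =>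
      Complex.exp (((t * L (Pi.single i 1) : ℝ) : ℂ) * Complex.I))]
  have h1 : ∀ a : ℝ, ∫ t : ℝ, Complex.exp (((t * a : ℝ) : ℂ) * Complex.I) ∂gaussianReal 0 1
      = Complex.exp (-((a : ℂ) ^ 2) / 2) := fun a => by
    have h := charFun_gaussianReal (μ := 0) (v := 1) a
    rw [charFun_apply_real] at h
    simp only [Complex.ofReal_zero, mul_zero, zero_mul, NNReal.coe_one, Complex.ofReal_one, one_mul,
      zero_sub] at h
    rw [← neg_div] at h
    refine (integral_congr_ae (ae_of_all _ fun t => ?_)).trans h
    push_cast; ring_nf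
  simp only [h1, ← Complex.exp_sum]
  congr 1
  push_cast
  rw [← Finset.sum_div, Finset.sum_neg_distrib]

/-- Two linear images with the same covariance have the same law. -/
theorem map_gp_eq (T : κ → ι → ℝ) (T' : κ → ι' → ℝ)
    (h : ∀ u : κ → ℝ, ∑ i, (∑ k, u k * T k i) ^ 2 = ∑ j, (∑ k, u k * T' k j) ^ 2) :
    (gp ι).map (arrMap T) = (gp ι').map (arrMap T') := by
  classical
  haveI : IsProbabilityMeasure ((gp ι).map (arrMap T)) :=
    Measure.isProbabilityMeasure_map (arrMap T).continuous.aemeasurable
  haveI : IsProbabilityMeasure ((gp ι').map (arrMap T')) :=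
    Measure.isProbabilityMeasure_map (arrMap T').continuous.aemeasurable
  apply Measure.ext_of_charFunDual
  ext L
  have e1 : ∀ i, (L.comp (arrMap T)) (Pi.single i 1) = ∑ k, L (Pi.single k 1) * T k i := fun i => by
    rw [ContinuousLinearMap.comp_apply, dual_pi_eq L]
    simp [arrMap_apply, Pi.single_apply, mul_comm]
  have e2 : ∀ i, (L.comp (arrMap T')) (Pi.single i 1) = ∑ k, L (Pi.single k 1) * T' k i := fun i => by
    rw [ContinuousLinearMap.comp_apply, dual_pi_eq L]
    simp [arrMap_apply, Pi.single_apply, mul_comm]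
  rw [charFunDual_map, charFunDual_map, charFunDual_gp, charFunDual_gp]
  simp only [e1, e2]
  rw [h]

end Vale.Agent.P150.Fast.Dom
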