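import Vale.Agent.P150.Fast.Dom.Shift

/-!
Standard Gaussian arrays: reindexing, splitting off one row, and products over rows. Used for P150
(module M3).
-/

open MeasureTheory ProbabilityTheory Real Finset
open scoped ENNReal

namespace Vale.Agent.P150.Fast.Dom

variable {ι κ : Type*} [Fintype ι] [Fintype κ]

theorem mp_reindex (e : ι ≃ κ) :
    MeasurePreserving (fun g : κ → ℝ => fun i => g (e i)) (gp κ) (gp ι) := by
  have h := measurePreserving_arrowCongr' e (MeasurableEquiv.refl ℝ)
    (μ := fun _ : ι => gaussianReal 0 1) (ν := fun _ : κ => gaussianReal 0 1)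
    fun _ => MeasurePreserving.id _
  exact h.symm

/-- The first row and the other rows. -/
def rowSplit {r : ℕ} : (Fin (r + 1) × κ → ℝ) → (κ → ℝ) × (Fin r × κ → ℝ) :=
  fun g => (fun k => g (0, k), fun p => g (p.1.succ, p.2))

theorem mp_rowSplit (r : ℕ) : MeasurePreserving (rowSplit (κ := κ) (r := r))
    (gp (Fin (r + 1) × κ)) ((gp κ).prod (gp (Fin r × κ))) := by
  let e : κ ⊕ (Fin r × κ) ≃ Fin (r + 1) × κ :=
    { toFun := Sum.elim (fun k => (0, k)) fun p => (p.1.succ, p.2)
      invFun := fun p => Fin.cases (Sum.inl p.2) (fun t => Sum.inr (t, p.2)) p.1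
      left_inv := fun s => by rcases s with k | ⟨t, k⟩ <;> simp
      right_inv := fun p => by
        obtain ⟨b, k⟩ := p
        cases b using Fin.cases <;> simp }
  exact (measurePreserving_sumPiEquivProdPi fun _ : κ ⊕ (Fin r × κ) => gaussianReal 0 1).comp
    (mp_reindex e)

theorem integral_rowSplit {r : ℕ} {F : (κ → ℝ) × (Fin r × κ → ℝ) → ℝ}
    (hF : Integrable F ((gp κ).prod (gp (Fin r × κ)))) :
    ∫ g, F (rowSplit g) ∂gp (Fin (r + 1) × κ) = ∫ a, ∫ b, F (a, b) ∂gp (Fin r × κ) ∂gp κ := by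
  rw [← integral_prod F hF, ← (mp_rowSplit r).map_eq,
    integral_map (mp_rowSplit r).measurable.aemeasurable]
  rw [(mp_rowSplit r).map_eq]
  exact hF.aestronglyMeasurable

/-- A product of functions of the rows integrates to the product. -/
theorem lintegral_rows (m : ℕ) : ∀ (h : Fin m → (κ → ℝ) → ℝ≥0∞), (∀ i, Measurable (h i)) →
    ∫⁻ g, ∏ i, h i (fun k => g (i, k)) ∂gp (Fin m × κ) = ∏ i, ∫⁻ a, h i a ∂gp κ := by
  induction m with
  | zero => intro h _; simp
  | succ m ih =>
    intro h hm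
    have e : ∀ g : Fin (m + 1) × κ → ℝ, ∏ i, h i (fun k => g (i, k))
        = h 0 (rowSplit g).1 * ∏ i : Fin m, h i.succ (fun k => (rowSplit g).2 (i, k)) :=
      fun g => Fin.prod_univ_succ _
    simp only [e]
    rw [(mp_rowSplit m).lintegral_comp (f := fun p => h 0 p.1
      * ∏ i : Fin m, h i.succ (fun k => p.2 (i, k)))
      (((hm 0).comp measurable_fst).mul (Finset.measurable_prod _ fun i _ =>
        (hm i.succ).comp (by fun_prop)))]
    rw [lintegral_prod_mul (hm 0).aemeasurable (g := fun b : Fin m × κ → ℝ =>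
      ∏ i : Fin m, h i.succ fun k => b (i, k))
      (Finset.measurable_prod _ fun i _ => (hm i.succ).comp (by fun_prop)).aemeasurable,
      ih _ fun i => hm i.succ, Fin.prod_univ_succ]

/-- A product over columns integrates to the product. -/
theorem lintegral_cols {m : ℕ} (h : Fin m → (κ → ℝ) → ℝ≥0∞) (hm : ∀ i, Measurable (h i)) :
    ∫⁻ g, ∏ i, h i (fun k => g (k, i)) ∂gp (κ × Fin m) = ∏ i, ∫⁻ a, h i a ∂gp κ := by
  rw [← lintegral_rows m h hm,
    ← (mp_reindex (Equiv.prodComm (Fin m) κ)).lintegral_comp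
      (f := fun g => ∏ i, h i (fun k => g (i, k)))
      (Finset.measurable_prod _ fun i _ => (hm i).comp (by fun_prop))]
  rfl

end Vale.Agent.P150.Fast.Dom
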