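import Vale.Agent.P150.Fast.Dom.LinLaw

/-!
Translation of independent standard Gaussians. Used for P150 (module M3).
-/

open MeasureTheory ProbabilityTheory Real Finset
open scoped ENNReal

namespace Vale.Agent.P150.Fast.Dom

variable {ι : Type*} [Fintype ι]

theorem gauss_shift (c : ℝ) : (gaussianReal 0 1).map (· + c)
    = (gaussianReal 0 1).withDensity fun x => ENNReal.ofReal (exp (c * x - c ^ 2 / 2)) := by
  rw [gaussianReal_map_add_const, zero_add, gaussianReal_of_var_ne_zero c one_ne_zero,
    gaussianReal_of_var_ne_zero 0 one_ne_zero, ← withDensity_mul _ (measurable_gaussianPDF 0 1)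
      (by fun_prop)]
  congr 1
  funext x
  simp only [Pi.mul_apply, gaussianPDF_def]
  rw [← ENNReal.ofReal_mul (gaussianPDFReal_nonneg _ _ _), gaussianPDFReal, gaussianPDFReal,
    mul_assoc ((√(2 * π * ((1 : NNReal) : ℝ)))⁻¹), ← exp_add]
  congr 3
  simp only [NNReal.coe_one, sub_zero]
  ring

theorem lintegral_gp_prod (f : ι → ℝ → ℝ≥0∞) (hf : ∀ i, Measurable (f i)) :
    ∫⁻ x, ∏ i, f i (x i) ∂gp ι = ∏ i, ∫⁻ t, f i t ∂gaussianReal 0 1 := by
  classical
  rw [gp]
  refine (lintegral_prod_eq_prod_lintegral_of_indepFun univ (fun i (x : ι → ℝ) => f i (x i)) ?_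
    fun i => (hf i).comp (measurable_pi_apply i)).trans ?_
  · exact iIndepFun_pi fun i => (hf i).aemeasurable
  · refine prod_congr rfl fun i _ => ?_
    exact (measurePreserving_eval (fun _ : ι => gaussianReal 0 1) i).lintegral_comp (hf i)

/-- Translation of a standard Gaussian vector. -/
theorem gp_shift (c : ι → ℝ) : (gp ι).map (fun x => x + c)
    = (gp ι).withDensity fun x => ENNReal.ofReal (exp (∑ i, (c i * x i - c i ^ 2 / 2))) := by
  classical
  have h := Measure.pi_map_pi (μ := fun _ : ι => gaussianReal 0 1) (f := fun i t => t + c i)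
    fun i => (measurable_add_const (c i)).aemeasurable
  rw [show (fun x : ι → ℝ => x + c) = fun x i => x i + c i from rfl, gp, h]
  refine Measure.pi_eq fun s hs => ?_
  rw [withDensity_apply _ (MeasurableSet.univ_pi hs),
    ← lintegral_indicator (MeasurableSet.univ_pi hs)]
  have e : ∀ x : ι → ℝ, (Set.univ.pi s).indicator
      (fun x => ENNReal.ofReal (exp (∑ i, (c i * x i - c i ^ 2 / 2)))) x
      = ∏ i, (s i).indicator (fun t => ENNReal.ofReal (exp (c i * t - c i ^ 2 / 2))) (x i) := by
    intro x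
    by_cases hx : x ∈ Set.univ.pi s
    · rw [Set.indicator_of_mem hx, exp_sum, ENNReal.ofReal_prod_of_nonneg fun i _ => (exp_pos _).le]
      exact prod_congr rfl fun i _ => by rw [Set.indicator_of_mem (hx i trivial)]
    · rw [Set.indicator_of_notMem hx]
      obtain ⟨i, hi⟩ : ∃ i, x i ∉ s i := by simpa [Set.mem_pi] using hx
      rw [prod_eq_zero (mem_univ i) (Set.indicator_of_notMem hi _)]
  simp only [e]
  rw [← gp, lintegral_gp_prod _ fun i => (by fun_prop : Measurable _).indicator (hs i)]
  refine prod_congr rfl fun i _ => ?_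
  rw [gauss_shift, withDensity_apply _ (hs i), lintegral_indicator (hs i)]

theorem lintegral_shift (c : ι → ℝ) {F : (ι → ℝ) → ℝ≥0∞} (hF : Measurable F) :
    ∫⁻ x, F (x + c) ∂gp ι
      = ∫⁻ x, ENNReal.ofReal (exp (∑ i, (c i * x i - c i ^ 2 / 2))) * F x ∂gp ι := by
  rw [← lintegral_map hF (measurable_add_const c), gp_shift,
    lintegral_withDensity_eq_lintegral_mul _ (by fun_prop) hF]
  rfl

end Vale.Agent.P150.Fast.Dom
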