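import Vale.Agent.P150.Fast.Dom.Stmt
import Vale.Agent.P150.Fast.Dom.Shift
import Vale.Agent.P150.Fast.GoeConj
import Vale.Agent.P150.Fast.Chan
import Vale.Agent.P150.Fast.LogDetMat
import Vale.Agent.P150.Fast.LLQuad

/-!
The annealed upper bound on the log-determinant of the shifted coupling matrix (P150, module M3):
the Gaussian integral that unfolds the determinant is restricted to a shell, and on the shell the
exponential weight is a translation of the disorder by a matrix of rank one.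
-/

open MeasureTheory ProbabilityTheory Real Finset Filter
open scoped Matrix ENNReal Topology

namespace Vale.Agent.P150.Fast.Dom

variable {n : ℕ}

theorem posDef_of_margin {β ν : ℝ} (hν : 0 < ν) {d : Dis n}
    (h : ∀ v, ν * ∑ j, v j ^ 2 ≤ v ⬝ᵥ aop n β d *ᵥ v) : (aop n β d).PosDef :=
  posDef_of_qform ((kmat_isSymm β d).add (Matrix.isSymm_one.smul _)) hν h

theorem aop_dot (β : ℝ) (d : Dis n) (v : Fin n → ℝ) :
    v ⬝ᵥ aop n β d *ᵥ v = Ent.qform (kmat n β d) v + shift β * ∑ j, v j ^ 2 := by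
  rw [aop, Matrix.add_mulVec, Matrix.smul_mulVec, Matrix.one_mulVec, dotProduct_add, dotProduct_smul]
  simp [Ent.qform, dotProduct, Matrix.mulVec, mul_sum, mul_assoc, pow_two]

/-- The density of the unfolded determinant against a standard Gaussian vector. -/
noncomputable def unfDens (n : ℕ) (β w : ℝ) (d : Dis n) (g : Fin n → ℝ) : ℝ :=
  √(w • aop n β d).det * exp ((g ⬝ᵥ g - w * (g ⬝ᵥ aop n β d *ᵥ g)) / 2)

theorem continuous_kmat (β : ℝ) : Continuous fun d : Dis n => kmat n β d := by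
  refine continuous_matrix fun i j => ?_
  simp only [kmat]
  split
  · fun_prop
  · split <;> fun_prop

theorem continuous_aop (β : ℝ) : Continuous fun d : Dis n => aop n β d := by
  unfold aop
  exact (continuous_kmat β).add continuous_const

theorem continuous_unfDens (β w : ℝ) :
    Continuous fun p : Dis n × (Fin n → ℝ) => unfDens n β w p.1 p.2 := by
  have hA : Continuous fun p : Dis n × (Fin n → ℝ) => aop n β p.1 :=
    (continuous_aop β).comp continuous_fst
  unfold unfDens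
  refine ((hA.const_smul w).matrix_det.sqrt).mul (continuous_exp.comp ?_)
  exact ((continuous_snd.dotProduct continuous_snd).sub
    ((continuous_snd.dotProduct (hA.matrix_mulVec continuous_snd)).const_mul w)).div_const 2

/-- The unfolded determinant has total mass one. -/
theorem unfDens_mass {β w : ℝ} (hw : 0 < w) {d : Dis n} (hA : (aop n β d).PosDef) :
    ∫⁻ g, ENNReal.ofReal (unfDens n β w d g) ∂gp (Fin n) = 1 := by
  set B := w • aop n β d with hB
  have hBp : B.PosDef := hA.smul hw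
  have hBi : B⁻¹.PosDef := hBp.inv
  have hcont : Continuous fun g => unfDens n β w d g := by
    simpa only [Function.comp_def] using (continuous_unfDens β w).comp (Continuous.prodMk_right d)
  have key : ∀ g, ENNReal.ofReal (∏ i, gaussianPDFReal 0 1 (g i)) * ENNReal.ofReal (unfDens n β w d g)
      = ENNReal.ofReal (chanV B⁻¹ 0 g) := fun g => by
    rw [← ENNReal.ofReal_mul (prod_nonneg fun i _ => gaussianPDFReal_nonneg 0 1 _), prod_pdf, chanV,
      sub_zero, Matrix.nonsing_inv_nonsing_inv _ (Ne.isUnit hBp.det_pos.ne'), Matrix.det_nonsing_inv,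
      Ring.inverse_eq_inv', unfDens, ← hB, sqrt_mul (by positivity), sqrt_inv, hB, Matrix.smul_mulVec,
      dotProduct_smul, smul_eq_mul]
    congr 1
    rw [show exp (-(w * (g ⬝ᵥ aop n β d *ᵥ g) / 2)) = exp (-((g ⬝ᵥ g) / 2))
        * exp ((g ⬝ᵥ g - w * (g ⬝ᵥ aop n β d *ᵥ g)) / 2) by rw [← exp_add]; congr 1; ring]
    have h1 : 0 < √((2 * π) ^ n) := sqrt_pos.2 (by positivity)
    field_simp
  rw [gp_density, lintegral_withDensity_eq_lintegral_mul _ (by fun_prop) (by fun_prop)]
  simp only [Pi.mul_apply, key]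
  rw [← ofReal_integral_eq_lintegral_ofReal (chanV_integrable hBi 0)
    (ae_of_all _ fun g => (chanV_pos hBi 0 g).le), chanV_mass hBi, ENNReal.ofReal_one]

/-- The translation that lowers the coupling matrix along `g`. -/
noncomputable def lowerDir (n : ℕ) (β w : ℝ) (g : Fin n → ℝ) : Dis n :=
  -(β * w / (2 * √n)) • coef g

theorem goe_coef (g : Fin n → ℝ) (i j : Fin n) : goe n (coef g) i j = 2 * (g i * g j) := by
  rcases lt_trichotomy i j with h | h | h
  · simp [goe, h, coef]
  · subst h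
    simp only [goe_diag, coef, Sum.elim_inr]
    rw [← mul_assoc, mul_self_sqrt zero_le_two, pow_two]
  · simp [goe, h, h.not_gt, coef, mul_comm (g i)]

theorem aop_lower (hn : 0 < n) (β w : ℝ) (d : Dis n) (g : Fin n → ℝ) :
    aop n β (d + lowerDir n β w g) = aop n β d - (β ^ 2 * w / n) • Matrix.vecMulVec g g := by
  have hs : √(n : ℝ) * √(n : ℝ) = n := mul_self_sqrt (Nat.cast_nonneg n)
  have hs0 : (√(n : ℝ)) ≠ 0 := (sqrt_pos.2 (Nat.cast_pos.2 hn)).ne'
  ext i j
  simp only [aop, kmat_eq, lowerDir, goe_add, goe_smul, Matrix.add_apply, Matrix.smul_apply,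
    Matrix.sub_apply, Matrix.vecMulVec_apply, smul_eq_mul, goe_coef]
  have : β / √(n : ℝ) * (-(β * w / (2 * √(n : ℝ))) * (2 * (g i * g j)))
      = -(β ^ 2 * w / n * (g i * g j)) := by
    conv_rhs => rw [← hs]
    field_simp
  linear_combination this

theorem lower_exp (β w : ℝ) (d : Dis n) (g : Fin n → ℝ) :
    ∑ k, (lowerDir n β w g k * d k - lowerDir n β w g k ^ 2 / 2)
      = -(w / 2) * Ent.qform (kmat n β d) g - β ^ 2 * w ^ 2 * (g ⬝ᵥ g) ^ 2 / (4 * n) := by
  have hs : √(n : ℝ) ^ 2 = n := sq_sqrt (Nat.cast_nonneg n)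
  rw [qform_kmat_eq, qform_goe, lin, sum_sub_distrib, ← sum_div]
  simp only [lowerDir, Pi.smul_apply, smul_eq_mul, mul_pow, mul_assoc, ← mul_sum, neg_sq]
  rw [coef_norm, show g ⬝ᵥ g = ∑ i, g i ^ 2 by simp [dotProduct, pow_two]]
  have hc : (∑ k, coef g k * d k) = ∑ k, d k * coef g k := sum_congr rfl fun k _ => mul_comm _ _
  rw [hc, div_pow, mul_pow 2, hs]
  ring

/-- The shell carries at least half of the mass. -/
theorem shell_mass {t : ℝ} (ht : 0 < t) :
    ∀ᶠ n : ℕ in atTop, (1 / 2 : ℝ≥0∞) ≤ gp (Fin n) {g | |g ⬝ᵥ g - n| ≤ t * n} := by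
  filter_upwards [eventually_gt_atTop 0, (tendsto_natCast_atTop_atTop (R := ℝ)).eventually_ge_atTop
    (4 / t ^ 2)] with n hn hbig
  have hn' : (0 : ℝ) < n := Nat.cast_pos.2 hn
  obtain ⟨hi, he⟩ := LL.quad_var (1 : Matrix (Fin n) (Fin n) ℝ) Matrix.transpose_one
  have hsum : ∑ i : Fin n, ∑ j : Fin n, (1 : Matrix (Fin n) (Fin n) ℝ) i j ^ 2 = n := by
    simp [Matrix.one_apply, ite_pow]
  rw [hsum] at he
  simp only [Matrix.one_mulVec, Matrix.trace_one, Fintype.card_fin] at hi he
  set S := {g : Fin n → ℝ | |g ⬝ᵥ g - n| ≤ t * n}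
  have hS : MeasurableSet S := (isClosed_le (by fun_prop) continuous_const).measurableSet
  have hmk := mul_meas_ge_le_integral_of_nonneg (ae_of_all _ fun g => sq_nonneg _) hi ((t * n) ^ 2)
  rw [he] at hmk
  have hc : (gp (Fin n)).real Sᶜ ≤ 1 / 2 := by
    refine (measureReal_mono (fun g hg => ?_)).trans (b := (gp (Fin n)).real
      {g | (t * n) ^ 2 ≤ (g ⬝ᵥ g - n) ^ 2}) ?_
    · simp only [Set.mem_compl_iff, S, Set.mem_ofPred_eq, not_le] at hg ⊢
      rw [← sq_abs (g ⬝ᵥ g - n)]
      exact pow_le_pow_left₀ (by positivity) hg.le 2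
    · have h4 : 4 ≤ t ^ 2 * n := by
        rw [div_le_iff₀ (by positivity)] at hbig; linarith
      by_contra hlt
      nlinarith [mul_lt_mul_of_pos_left (not_le.1 hlt) (pow_pos (mul_pos ht hn') 2)]
  have hr : 1 / 2 ≤ (gp (Fin n)).real S := by
    rw [probReal_compl_eq_one_sub hS] at hc; linarith
  calc (1 / 2 : ℝ≥0∞) = ENNReal.ofReal (1 / 2) := by
        rw [ENNReal.ofReal_div_of_pos two_pos]; simp
    _ ≤ _ := (ENNReal.ofReal_le_iff_le_toReal (measure_ne_top _ _)).2 hr

/-- Matrices with a margin and a large log-determinant. -/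
def bigDet (n : ℕ) (β ν thr : ℝ) : Set (Dis n) :=
  {d | (∀ v, ν * ∑ j, v j ^ 2 ≤ v ⬝ᵥ aop n β d *ᵥ v) ∧ thr < log (aop n β d).det}

theorem measurableSet_bigDet (β ν thr : ℝ) : MeasurableSet (bigDet n β ν thr) := by
  refine MeasurableSet.inter ?_ (measurableSet_lt measurable_const
    (measurable_log.comp (continuous_aop β).matrix_det.measurable))
  have : IsClosed {d : Dis n | ∀ v, ν * ∑ j, v j ^ 2 ≤ v ⬝ᵥ aop n β d *ᵥ v} := by
    simp only [Set.ofPred_forall]
    exact isClosed_iInter fun v => isClosed_le continuous_const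
      (continuous_const.dotProduct ((continuous_aop β).matrix_mulVec continuous_const))
  exact this.measurableSet

/-- Lowering along a vector of the shell keeps the margin and costs a constant. -/
theorem lower_mem {β η t w thr : ℝ} (hn : 0 < n) (hη : 0 < η) (ht : t ≤ η / 2) (hη4 : η ≤ 1 / 4)
    (hw : 0 ≤ w) (hb : β ^ 2 * w ≤ 1 - 2 * η) {d : Dis n} (hd : NormOK n β η d)
    (hdet : thr + 4 / η < log (aop n β d).det) {g : Fin n → ℝ} (hg : |g ⬝ᵥ g - n| ≤ t * n) :
    d + lowerDir n β w g ∈ bigDet n β (η / 2) thr := by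
  have hn' : (0 : ℝ) < n := Nat.cast_pos.2 hn
  set b := β ^ 2 * w / n with hbdef
  have hb0 : 0 ≤ b := by rw [hbdef]; positivity
  have hgg : g ⬝ᵥ g = ∑ j, g j ^ 2 := by simp [dotProduct, pow_two]
  have hG := (abs_le.1 hg).2
  have hbw : 0 ≤ β ^ 2 * w := by positivity
  have hbg : b * (g ⬝ᵥ g) ≤ 1 - 3 / 2 * η := by
    rw [hbdef, div_mul_eq_mul_div, div_le_iff₀ hn']
    have h1 := mul_le_mul_of_nonneg_left (mul_le_mul_of_nonneg_right ht hn'.le) hbw
    have h2 := mul_le_mul_of_nonneg_right (show β ^ 2 * w ≤ 1 by linarith)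
      (show (0 : ℝ) ≤ η / 2 * n by positivity)
    linarith [mul_le_mul_of_nonneg_left hG hbw, mul_le_mul_of_nonneg_right hb hn'.le]
  set A := aop n β d
  set A' := aop n β (d + lowerDir n β w g) with hA'
  have hAA : A' = A - b • Matrix.vecMulVec g g := aop_lower hn β w d g
  have low : ∀ v, (1 - η) * ∑ j, v j ^ 2 ≤ v ⬝ᵥ A *ᵥ v := fun v => by
    rw [aop_dot]; simp only [shift]; linarith [(abs_le.1 (hd v)).1]
  have low' : ∀ v, η / 2 * ∑ j, v j ^ 2 ≤ v ⬝ᵥ A' *ᵥ v := fun v => by
    have hcs : (g ⬝ᵥ v) ^ 2 ≤ (g ⬝ᵥ g) * ∑ j, v j ^ 2 := by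
      rw [hgg]; exact sum_mul_sq_le_sq_mul_sq univ g v
    have hN : 0 ≤ ∑ j, v j ^ 2 := sum_nonneg fun _ _ => sq_nonneg _
    have := low v
    rw [hAA, Matrix.sub_mulVec, Matrix.smul_mulVec, Matrix.vecMulVec_mulVec, dotProduct_sub,
      dotProduct_smul, dotProduct_smul, op_smul_eq_smul, smul_eq_mul, smul_eq_mul,
      dotProduct_comm v g]
    linarith [mul_le_mul_of_nonneg_left hcs hb0, mul_le_mul_of_nonneg_right hbg hN]
  refine ⟨low', ?_⟩
  have hP : A.PosDef := posDef_of_margin (by linarith : (0 : ℝ) < 1 - η) low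
  have hP' : A'.PosDef := posDef_of_margin (half_pos hη) low'
  have htan := logdet_tangent hP hP'
  have htr : (A'⁻¹ * (A - A')).trace = b * (g ⬝ᵥ A'⁻¹ *ᵥ g) := by
    rw [hAA, sub_sub_cancel, Matrix.mul_smul, Matrix.trace_smul, smul_eq_mul, ← hAA,
      Matrix.mul_vecMulVec, Matrix.trace_vecMulVec, dotProduct_comm]
  set z := A'⁻¹ *ᵥ g
  have hz : A' *ᵥ z = g := by
    rw [Matrix.mulVec_mulVec, Matrix.mul_nonsing_inv _ (Ne.isUnit hP'.det_pos.ne'),
      Matrix.one_mulVec]
  have hl := low' z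
  rw [hz, dotProduct_comm z g] at hl
  have hcs : (g ⬝ᵥ z) ^ 2 ≤ (g ⬝ᵥ g) * ∑ j, z j ^ 2 := by
    rw [hgg]; exact sum_mul_sq_le_sq_mul_sq univ g z
  have hgz : η / 2 * (g ⬝ᵥ z) ≤ g ⬝ᵥ g := by
    have hg0 : 0 ≤ g ⬝ᵥ g := by rw [hgg]; exact sum_nonneg fun _ _ => sq_nonneg _
    have hz0 : 0 ≤ ∑ j, z j ^ 2 := sum_nonneg fun _ _ => sq_nonneg _
    by_contra hlt
    have hp : 0 < g ⬝ᵥ z := by nlinarith
    nlinarith [mul_le_mul_of_nonneg_left hl hg0, mul_pos hp (sub_pos.2 (not_le.1 hlt))]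
  have hgz2 : b * (g ⬝ᵥ z) ≤ 4 / η := by
    rw [le_div_iff₀ hη]
    linarith [mul_le_mul_of_nonneg_left hgz hb0]
  rw [htr] at htan
  linarith

theorem log_det_smul {w : ℝ} (hw : 0 < w) {A : Matrix (Fin n) (Fin n) ℝ} (hA : A.PosDef) :
    log √(w • A).det = (n * log w + log A.det) / 2 := by
  rw [log_sqrt ((hA.smul hw).det_pos.le), Matrix.det_smul, Fintype.card_fin,
    log_mul (pow_pos hw n).ne' hA.det_pos.ne', log_pow]

theorem logDetThm {β : ℝ} (hβ : 0 ≤ β) : LogDetStmt β := by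
  intro η ε hη hη' hε
  set M := 4 + 2 * |shift β| with hM
  set t := min (η / 2) (ε / (4 * M)) with ht
  have hM0 : 0 < M := by rw [hM]; positivity
  have ht0 : 0 < t := by rw [ht]; positivity
  have htη : t ≤ η / 2 := min_le_left _ _
  have htM : t * M ≤ ε / 4 := by
    calc t * M ≤ ε / (4 * M) * M := mul_le_mul_of_nonneg_right (min_le_right _ _) hM0.le
      _ = ε / 4 := by field_simp
  refine ⟨ε / 16, by positivity, ?_⟩
  filter_upwards [shell_mass ht0, eventually_gt_atTop 0,
    (tendsto_natCast_atTop_atTop (R := ℝ)).eventually_ge_atTop (8 / (η * ε)),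
    (tendsto_natCast_atTop_atTop (R := ℝ)).eventually_ge_atTop (16 * log 2 / ε)]
    with n hsh hn hn1 hn2 w hwlo hw2 hwb
  set base := -log w - 1 + shift β * w - β ^ 2 * w ^ 2 / 2 with hbase
  have hn' : (0 : ℝ) < n := Nat.cast_pos.2 hn
  have hgap : n * (base + ε / 2) + 4 / η ≤ n * (base + ε) := by
    rw [div_le_iff₀ (by positivity)] at hn1
    have : 4 / η ≤ n * (ε / 2) := by rw [div_le_iff₀ hη]; linarith
    linarith
  have hw : 0 < w := lt_of_lt_of_le (by positivity) hwlo
  set T := {d : Dis n | NormOK n β η d ∧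
    n * (base + ε) < log (aop n β d).det}
  set D := bigDet n β (η / 2) (n * (base + ε / 2)) with hD
  have hDm : MeasurableSet D := measurableSet_bigDet _ _ _
  set E := ENNReal.ofReal (exp (n * ε / 8)) with hE
  set F : Dis n → (Fin n → ℝ) → ℝ≥0∞ := fun d g =>
    D.indicator (fun d => ENNReal.ofReal (unfDens n β w d g)) d with hF
  have hFm : Measurable (Function.uncurry F) := by
    have e : Function.uncurry F = (D ×ˢ (Set.univ : Set (Fin n → ℝ))).indicator
        (fun p => ENNReal.ofReal (unfDens n β w p.1 p.2)) := by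
      funext ⟨d, g⟩
      by_cases h : d ∈ D <;> simp [Function.uncurry, hF, h]
    rw [e]
    exact ((continuous_unfDens β w).measurable.ennreal_ofReal).indicator (hDm.prod .univ)
  have htot : ∫⁻ d, ∫⁻ g, F d g ∂gp (Fin n) ∂disX n ≤ 1 := by
    calc _ ≤ ∫⁻ _d, 1 ∂disX n := lintegral_mono fun d => by
            by_cases h : d ∈ D
            · simp only [hF, Set.indicator_of_mem h]
              exact (unfDens_mass hw (posDef_of_margin (half_pos hη) h.1)).le
            · simp [hF, h]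
      _ = 1 := by simp
  rw [lintegral_lintegral_swap hFm.aemeasurable] at htot
  have hslice : ∀ g : Fin n → ℝ, |g ⬝ᵥ g - n| ≤ t * n → E * disX n T ≤ ∫⁻ d, F d g ∂disX n := fun g hg => by
    set a := lowerDir n β w g
    have hsub : T ⊆ (· + a) ⁻¹' D := fun d hd =>
      lower_mem hn hη htη hη' hw.le hwb hd.1 (lt_of_le_of_lt hgap hd.2) hg
    have h1 : disX n T ≤ ∫⁻ d, D.indicator 1 (d + a) ∂disX n := by
      refine (measure_mono hsub).trans_eq ?_
      rw [← lintegral_indicator_one ((measurable_add_const a) hDm)]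
      rfl
    rw [disX, lintegral_shift a (F := D.indicator 1) (measurable_one.indicator hDm), ← disX] at h1
    refine (mul_le_mul_right h1 E).trans ?_
    rw [← lintegral_const_mul E (by fun_prop)]
    refine lintegral_mono fun d => ?_
    by_cases h : d ∈ D
    · simp only [hF, Set.indicator_of_mem h, Pi.one_apply, mul_one, hE]
      rw [← ENNReal.ofReal_mul (exp_pos _).le, ← exp_add]
      refine ENNReal.ofReal_le_ofReal ?_
      have hP := posDef_of_margin (half_pos hη) h.1
      rw [unfDens, ← exp_log (sqrt_pos.2 (hP.smul hw).det_pos), ← exp_add, exp_le_exp,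
        log_det_smul hw hP, lower_exp, aop_dot]
      have hgg : g ⬝ᵥ g = ∑ j, g j ^ 2 := by simp [dotProduct, pow_two]
      rw [← hgg]
      set r := (g ⬝ᵥ g) / n with hr
      have hS : g ⬝ᵥ g = r * n := by rw [hr]; field_simp
      have hr1 : |r - 1| ≤ t := by
        rw [hr, div_sub_one hn'.ne', abs_div, abs_of_pos hn', div_le_iff₀ hn']; exact hg
      have hr2 : r ≤ 2 := by linarith [(abs_le.1 hr1).2, min_le_left (η / 2) (ε / (4 * M))]
      have hr0 : 0 ≤ r := by linarith [(abs_le.1 hr1).1, min_le_left (η / 2) (ε / (4 * M))]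
      have hbw : β ^ 2 * w ^ 2 ≤ 2 := by nlinarith
      have hk : |(1 - shift β * w) + β ^ 2 * w ^ 2 * (r + 1) / 2| ≤ M := by
        have h1 : |shift β * w| ≤ 2 * |shift β| := by
          rw [abs_mul, abs_of_pos hw, mul_comm]
          exact mul_le_mul_of_nonneg_right hw2 (abs_nonneg _)
        have h2 := abs_le.1 h1
        have h3 : 0 ≤ β ^ 2 * w ^ 2 * (r + 1) := by positivity
        have h4 : β ^ 2 * w ^ 2 * (r + 1) ≤ 6 := by nlinarith
        rw [hM, abs_le]; constructor <;> linarith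
      have hx : |(r - 1) * ((1 - shift β * w) + β ^ 2 * w ^ 2 * (r + 1) / 2)| ≤ ε / 4 := by
        rw [abs_mul]; exact (mul_le_mul hr1 hk (abs_nonneg _) ht0.le).trans htM
      have hL := h.2.le
      rw [hS, show β ^ 2 * w ^ 2 * (r * n) ^ 2 / (4 * n) = n * (β ^ 2 * w ^ 2 * r ^ 2 / 4) by
        field_simp]
      simp only [hbase] at hL
      linarith [mul_le_mul_of_nonneg_left (abs_le.1 hx).1 hn'.le]
    · simp [hF, h]
  have hbound : E * disX n T * (1 / 2) ≤ 1 := by
    refine le_trans ?_ htot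
    calc E * disX n T * (1 / 2) ≤ E * disX n T * gp (Fin n) {g | |g ⬝ᵥ g - n| ≤ t * n} :=
          mul_le_mul_right hsh _
      _ = ∫⁻ _g in {g | |g ⬝ᵥ g - n| ≤ t * n}, E * disX n T ∂gp (Fin n) :=
          (setLIntegral_const _ _).symm
      _ ≤ ∫⁻ g in {g | |g ⬝ᵥ g - n| ≤ t * n}, ∫⁻ d, F d g ∂disX n ∂gp (Fin n) :=
          setLIntegral_mono' (isClosed_le (by fun_prop) continuous_const).measurableSet hslice
      _ ≤ _ := setLIntegral_le_lintegral _ _
  have hfin : E * disX n T * (1 / 2) ≠ ⊤ := ne_top_of_le_ne_top ENNReal.one_ne_top hbound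
  have := ENNReal.toReal_mono ENNReal.one_ne_top hbound
  rw [ENNReal.toReal_mul, ENNReal.toReal_mul, hE, ENNReal.toReal_ofReal (exp_pos _).le] at this
  simp only [ENNReal.toReal_div, ENNReal.toReal_one, ENNReal.toReal_ofNat] at this
  change (disX n).real T ≤ _
  have h2 : (2 : ℝ) ≤ exp (n * ε / 16) := by
    rw [div_le_iff₀ hε] at hn2
    calc (2 : ℝ) = exp (log 2) := (exp_log two_pos).symm
      _ ≤ _ := exp_le_exp.2 (by linarith)
  have hx : exp (n * ε / 8) = exp (n * ε / 16) ^ 2 := by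
    rw [← exp_nat_mul]; congr 1; push_cast; ring
  rw [hx] at this
  rw [exp_neg, show ε / 16 * n = n * ε / 16 by ring, ← one_div, le_div_iff₀ (exp_pos _)]
  change (disX n T).toReal * _ ≤ 1
  nlinarith [exp_pos (n * ε / 16), ENNReal.toReal_nonneg (a := disX n T)]

end Vale.Agent.P150.Fast.Dom
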