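import Vale.Agent.P150.Fast.Dom.Point
import Vale.Agent.P150.Fast.Dom.LogDet

/-!
Measurability of the readout and of the events of module M3 of P150.
-/

open MeasureTheory Real Finset
open scoped Matrix

namespace Vale.Agent.P150.Fast.Dom

variable {n r M : ℕ} {τ δ C β W η ε u : ℝ} {α : Type*} [MeasurableSpace α]

theorem measurableSet_normOK (β η : ℝ) : MeasurableSet {d : Dis n | NormOK n β η d} := by
  have : IsClosed {d : Dis n | NormOK n β η d} := by
    simp only [NormOK, Set.ofPred_forall]
    refine isClosed_iInter fun v => isClosed_le ?_ continuous_const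
    simp only [Fast.qform_eq_dot]
    exact (continuous_const.dotProduct
      ((continuous_kmat β).matrix_mulVec continuous_const)).abs
  exact this.measurableSet

theorem measurableSet_DOK (β W η ε : ℝ) : MeasurableSet {d : Dis n | DOK n β W η ε d} :=
  (measurableSet_normOK β η).inter (measurableSet_le
    (measurable_log.comp (continuous_aop β).matrix_det.measurable) measurable_const)

theorem measurable_goe {D : α → Dis n} (hD : Measurable D) (i j : Fin n) :
    Measurable fun a => goe n (D a) i j := by
  simp only [goe]
  split
  · fun_prop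
  · split <;> fun_prop

theorem measurable_kmat {D : α → Dis n} (hD : Measurable D) (i j : Fin n) :
    Measurable fun a => kmat n β (D a) i j :=
  (measurable_goe hD i j).const_mul (β / √n)

theorem measurable_dot {f g : α → Fin n → ℝ} (hf : Measurable f) (hg : Measurable g) :
    Measurable fun a => f a ⬝ᵥ g a := by
  simp only [dotProduct]
  fun_prop

theorem measurable_mulVec {A : α → Matrix (Fin n) (Fin n) ℝ} {g : α → Fin n → ℝ}
    (hA : ∀ i j, Measurable fun a => A a i j) (hg : Measurable g) :
    Measurable fun a => A a *ᵥ g a := by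
  refine measurable_pi_lambda _ fun i => ?_
  simp only [Matrix.mulVec, dotProduct]
  exact Finset.measurable_sum _ fun j _ => (hA i j).mul ((measurable_pi_apply j).comp hg)

/-- The entries of the cell. -/
theorem measurable_cell {D : α → Dis n} (hD : Measurable D) {w : α → Fin M → Fin n → ℝ}
    (hw : Measurable w) (l j : Fin M) :
    (Measurable fun a => (rdCoef τ δ C (kmat n β (D a)) (w a)).R l j) ∧
    (Measurable fun a => (rdCoef τ δ C (kmat n β (D a)) (w a)).G l j) ∧
    Measurable fun a => (rdCoef τ δ C (kmat n β (D a)) (w a)).al l j := by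
  have hg : ∀ k, Measurable fun a => gs τ (w a) k := fun k => (measurable_gs hw k).1
  refine ⟨(measurable_rnd δ C).comp ((measurable_pi_apply j).comp (measurable_gs hw l).2),
    (measurable_rnd δ C).comp ?_, (measurable_rnd δ C).comp ?_⟩
  · simp only [exCoef]
    split
    · exact measurable_dot (hg j) (measurable_mulVec (measurable_kmat hD) (hg l))
    · exact measurable_const
  · simp only [exCoef]
    split
    · exact measurable_dot (hg j) ((measurable_pi_apply l).comp hw)
    · exact measurable_const

theorem coef_ext {θ θ' : Coef M} (h1 : θ.R = θ'.R) (h2 : θ.G = θ'.G) (h3 : θ.al = θ'.al) : θ = θ' := by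
  cases θ; cases θ'; simp_all

theorem measurableSet_cell_eq {D : α → Dis n} (hD : Measurable D) {w : α → Fin M → Fin n → ℝ}
    (hw : Measurable w) (θ : Coef M) :
    MeasurableSet {a | rdCoef τ δ C (kmat n β (D a)) (w a) = θ} := by
  have e : {a | rdCoef τ δ C (kmat n β (D a)) (w a) = θ} = ⋂ l, ⋂ j,
      {a | (rdCoef τ δ C (kmat n β (D a)) (w a)).R l j = θ.R l j} ∩
      ({a | (rdCoef τ δ C (kmat n β (D a)) (w a)).G l j = θ.G l j} ∩
      {a | (rdCoef τ δ C (kmat n β (D a)) (w a)).al l j = θ.al l j}) := by
    ext a
    simp only [Set.mem_iInter, Set.mem_inter_iff, Set.mem_ofPred_eq]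
    refine ⟨fun h l j => by simp [h], fun h => coef_ext ?_ ?_ ?_⟩ <;> funext l j
    · exact (h l j).1
    · exact (h l j).2.1
    · exact (h l j).2.2
  rw [e]
  refine MeasurableSet.iInter fun l => MeasurableSet.iInter fun j => ?_
  obtain ⟨a, b, c⟩ := measurable_cell (τ := τ) (δ := δ) (C := C) (β := β) hD hw l j
  exact (a (measurableSet_singleton _)).inter
    ((b (measurableSet_singleton _)).inter (c (measurableSet_singleton _)))

theorem measurable_proj (hτ : 0 < τ) {w : α → Fin M → Fin n → ℝ} (hw : Measurable w)
    {q : α → Fin n → ℝ} (hq : Measurable q) (l : Fin M) :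
    Measurable fun a => (gsSys hτ (w a)).proj l (q a) := by
  refine measurable_pi_lambda _ fun i => ?_
  simp only [OrthSys.proj, gsSys]
  exact Finset.measurable_sum _ fun c _ =>
    (measurable_dot (measurable_gs hw c).1 hq).mul ((measurable_pi_apply i).comp (measurable_gs hw c).1)

theorem measurable_innovOf (hτ : 0 < τ) (β : ℝ) {D : α → Dis n} (hD : Measurable D)
    {w : α → Fin M → Fin n → ℝ} (hw : Measurable w) {q : α → Fin M × Fin n → ℝ} (hq : Measurable q)
    (l : Fin M) : Measurable fun a => innovOf hτ β (w a) (D a) (q a) l := by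
  refine measurable_pi_lambda _ fun i => ?_
  simp only [innovOf, OrthSys.innov, OrthSys.comp, Pi.smul_apply, Pi.add_apply, Pi.sub_apply,
    smul_eq_mul]
  have hg : Measurable fun a => (gsSys hτ (w a)).e l := (measurable_gs hw l).1
  have hm := measurable_mulVec (measurable_goe hD) hg
  have hql : Measurable fun a b => q a (l, b) := by fun_prop
  have p1 := (measurable_pi_apply i).comp (measurable_proj hτ hw hm l)
  have p2 := (measurable_pi_apply i).comp (measurable_proj hτ hw hql l)
  have p3 := (measurable_pi_apply i).comp hm
  have p4 := (measurable_pi_apply i).comp hql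
  exact ((((p3.sub p1).add p2)).add
    (((measurable_dot hg hg).const_sub 1).mul (p4.sub p2))).const_mul β

theorem measurable_auxErr (hτ : 0 < τ) {w : α → Fin M → Fin n → ℝ} (hw : Measurable w)
    {q : α → Fin M × Fin n → ℝ} (hq : Measurable q) :
    Measurable fun a => auxErr hτ (w a) (q a) := by
  refine Finset.measurable_sum _ fun l _ => ?_
  have h := measurable_proj hτ hw (show Measurable fun a b => q a (l, b) by fun_prop) l
  simp only [LL.nrm]
  fun_prop

theorem continuous_wcols (x : Fin (r + 1) → Conf n) :
    Continuous fun e : Fin (r + 1) → Fin n → ℝ => wcols x e := by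
  refine continuous_pi fun k => continuous_pi fun i => ?_
  simp only [wcols, colsOf, colOf, Pi.smul_apply, smul_eq_mul]
  split <;> fun_prop

theorem measurableSet_pathOK {x : Fin (r + 1) → Conf n} {e : α → Fin (r + 1) → Fin n → ℝ}
    (he : Measurable e) : MeasurableSet {a | PathOK τ W ε x (e a)} := by
  have hw : Measurable fun a => wcols x (e a) := (continuous_wcols x).measurable.comp he
  have hb : ∀ b, Measurable fun a => e a b ⬝ᵥ e a b / n := fun b =>
    (measurable_dot ((measurable_pi_apply b).comp he) ((measurable_pi_apply b).comp he)).div_const _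
  simp only [PathOK, Set.ofPred_and, Set.ofPred_forall]
  refine ((measurableSet_le ((hb 0).sub_const 1).abs measurable_const)).inter
    (MeasurableSet.iInter fun b => ?_)
  refine (measurableSet_le ((hb b.succ).sub_const W).abs measurable_const).inter
    (measurableSet_le (Finset.measurable_sum _ fun c _ => Measurable.pow_const ?_ 2) measurable_const)
  exact measurable_dot (measurable_gs hw c).1 ((measurable_pi_apply _).comp hw)

theorem continuous_esOf (W : ℝ) : Continuous fun g : Fin (r + 1) × Fin n → ℝ => esOf W g := by
  refine continuous_pi fun b => ?_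
  cases b using Fin.cases <;> simp only [esOf, Fin.cons_zero, Fin.cons_succ] <;> fun_prop

theorem continuous_stepY (W u : ℝ) (x : Fin (r + 1) → Conf n) (t : Fin r) :
    Continuous fun p : Dis n × (Fin (r + 1) × Fin n → ℝ) =>
      yOf (aop n β p.1) 0 (prevAt (x 0) (Fin.tail x) t) (√W • fun i => p.2 (t.succ, i))
        + sideField u (x 0) fun i => p.2 (0, i) := by
  have hA : Continuous fun p : Dis n × (Fin (r + 1) × Fin n → ℝ) => aop n β p.1 :=
    (continuous_aop β).comp continuous_fst
  have h1 : Continuous fun p : Dis n × (Fin (r + 1) × Fin n → ℝ) =>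
      √W • fun i => p.2 (t.succ, i) := by fun_prop
  have h2 : Continuous fun p : Dis n × (Fin (r + 1) × Fin n → ℝ) =>
      sideField u (x 0) fun i => p.2 (0, i) := by unfold sideField; fun_prop
  exact ((((hA.matrix_mulVec continuous_const).const_smul (1 - 0 : ℝ)).add
    ((hA.matrix_mulVec h1).const_smul √(1 - 0 : ℝ)))).add h2

theorem continuous_pdens (u W : ℝ) (S : Finset (Fin n)) (x : Fin (r + 1) → Conf n) :
    Continuous fun p : Dis n × (Fin (r + 1) × Fin n → ℝ) => pdens β p.1 u W S x p.2 := by
  have hA : Continuous fun p : Dis n × (Fin (r + 1) × Fin n → ℝ) => aop n β p.1 :=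
    (continuous_aop β).comp continuous_fst
  unfold pdens pathW
  refine continuous_const.mul (continuous_finsetProd _ fun t _ => Continuous.mul ?_ ?_)
  · unfold rho
    have hg : Continuous fun p : Dis n × (Fin (r + 1) × Fin n → ℝ) => fun i => p.2 (t.succ, i) := by
      fun_prop
    exact ((hA.const_smul W).matrix_det.sqrt).mul (continuous_exp.comp
      (((hg.dotProduct hg).sub (hg.dotProduct ((hA.const_smul W).matrix_mulVec hg))).div_const 2))
  · have hy := continuous_stepY (β := β) W u x t
    by_cases hz : Fin.tail x t ∈ fib S (prevAt (x 0) (Fin.tail x) t)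
    · simp only [qR, prodS, omOf, if_pos hz]
      refine continuous_finsetProd _ fun i _ => ?_
      have hyi := (continuous_apply i).comp hy
      simp only [sig]
      exact (continuous_exp.comp (continuous_const.mul hyi)).div
        ((continuous_exp.comp hyi).add (continuous_exp.comp hyi.neg)) fun p =>
          (add_pos (exp_pos _) (exp_pos _)).ne'
    · simp only [qR, prodS, omOf, if_neg hz]
      exact continuous_const

end Vale.Agent.P150.Fast.Dom
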