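import Vale.Agent.P150.Fast.Dom.PathLawLin
import Vale.Agent.P150.Fast.Dom.Meas
import Vale.Agent.P150.Fast.CurvRoot
import Vale.Agent.P150.Fast.GaussTail

/-!
The typical behaviour of the noises along a path (`TrajGoodStmt`): lengths concentrate and little
weight falls in the earlier directions. Used for P150 (module M3).
-/

open MeasureTheory Real Finset
open scoped Matrix

namespace Vale.Agent.P150.Fast.Dom

open LL (nrm)

variable {n r : ℕ} {τ a ε : ℝ}

/-- An event under a dominating function. -/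
theorem ind_le {Ω : Type*} [MeasurableSpace Ω] {μ : Measure Ω} [IsFiniteMeasure μ] {E : Set Ω}
    (hE : MeasurableSet E) {f : Ω → ℝ} (hf : Integrable f μ) (h0 : ∀ g, 0 ≤ f g)
    (h1 : ∀ g ∈ E, 1 ≤ f g) : ∫ g, E.indicator (fun _ => (1 : ℝ)) g ∂μ ≤ ∫ g, f g ∂μ :=
  integral_mono ((integrable_const 1).indicator hE) hf fun g => by
    by_cases h : g ∈ E <;> simp [h, h0 g, h1 g]

theorem abs_ind_le {Ω : Type*} (E : Set Ω) (g : Ω) : |E.indicator (fun _ => (1 : ℝ)) g| ≤ 1 := by
  classical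
  rw [Set.indicator_apply]; split <;> simp

theorem ind2_lt {Ω : Type*} {E F : Set Ω} {p : Ω}
    (h : E.indicator (fun _ => (1 : ℝ)) p + F.indicator (fun _ => (1 : ℝ)) p < 1) : p ∉ E ∧ p ∉ F := by
  constructor <;> intro hp <;> rw [Set.indicator_of_mem hp] at h
  · linarith [Set.indicator_nonneg (s := F) (f := fun _ => (1 : ℝ)) (fun _ _ => zero_le_one) p]
  · linarith [Set.indicator_nonneg (s := E) (f := fun _ => (1 : ℝ)) (fun _ _ => zero_le_one) p]

theorem adj (M : Matrix (Fin n) (Fin n) ℝ) (v w : Fin n → ℝ) :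
    (M.transpose *ᵥ v) ⬝ᵥ w = v ⬝ᵥ (M *ᵥ w) := by
  rw [Matrix.mulVec_transpose, Matrix.dotProduct_mulVec]

theorem gauss_dot (c : Fin n → ℝ) : Integrable (fun g => (c ⬝ᵥ g) ^ 2) (gp (Fin n)) ∧
    ∫ g, (c ⬝ᵥ g) ^ 2 ∂gp (Fin n) = c ⬝ᵥ c := by
  have e : ∀ g : Fin n → ℝ, (c ⬝ᵥ g) ^ 2 = ∑ i, ∑ j, c i * c j * (g i * g j) := fun g => by
    simp only [dotProduct, sq, sum_mul_sum]
    exact sum_congr rfl fun i _ => sum_congr rfl fun j _ => by ring
  have hi : ∀ i j, Integrable (fun g => c i * c j * (g i * g j)) (gp (Fin n)) := fun i j =>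
    (gp_mul_coord i j).1.const_mul _
  simp only [e]
  refine ⟨integrable_finsetSum _ fun i _ => integrable_finsetSum _ fun j _ => hi i j, ?_⟩
  rw [integral_finsetSum _ fun i _ => integrable_finsetSum _ fun j _ => hi i j]
  refine sum_congr rfl fun i _ => ?_
  rw [integral_finsetSum _ fun j _ => hi i j]
  simp only [integral_const_mul, (gp_mul_coord i _).2, mul_ite, mul_one, mul_zero, sum_ite_eq,
    mem_univ, if_true]

theorem sq_le_exp (x : ℝ) : x ^ 2 ≤ 2 * (exp x + exp (-x)) := by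
  have h1 := quadratic_le_exp_of_nonneg (abs_nonneg x)
  have h2 := add_one_le_exp (-|x|)
  have h3 : exp |x| + exp (-|x|) = exp x + exp (-x) := by
    rcases abs_choice x with h | h <;> rw [h]
    rw [neg_neg, add_comm]
  rw [sq_abs] at h1
  linarith

/-- The rate for a length. -/
noncomputable def lenC (a ε : ℝ) : ℝ := (4 + 4 / (a * ε)) / ε * (4 * exp (π ^ 2 / 8) / a)

theorem lenC_nonneg (ha : 0 < a) (hε : 0 < ε) : 0 ≤ lenC a ε := by unfold lenC; positivity

/-- The squared length of a Gaussian vector concentrates. -/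
theorem gauss_len {M : Matrix (Fin n) (Fin n) ℝ} (ha : 0 < a) (hε : 0 < ε) (hn : 1 ≤ n)
    (hM : ∀ d, (M *ᵥ d) ⬝ᵥ (M *ᵥ d) ≤ d ⬝ᵥ d / a) (hT : ∑ i, M i ⬝ᵥ M i ≤ n / a) :
    ∫ g, {g | ε < |(M *ᵥ g) ⬝ᵥ (M *ᵥ g) / n - (∑ i, M i ⬝ᵥ M i) / n|}.indicator (fun _ => (1 : ℝ)) g
      ∂gp (Fin n) ≤ lenC a ε / n := by
  have hnp : (0 : ℝ) < n := by exact_mod_cast hn
  set T := ∑ i, M i ⬝ᵥ M i with hTd
  set Q : (Fin n → ℝ) → ℝ := fun g => (M *ᵥ g) ⬝ᵥ (M *ᵥ g) with hQ
  set U : (Fin n → ℝ) → ℝ := fun g => √(Q g) with hU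
  have hQ0 : ∀ g, 0 ≤ Q g := fun g => dot_self_nonneg' _
  have hUsq : ∀ g, U g ^ 2 = Q g := fun g => sq_sqrt (hQ0 g)
  have eQ : ∀ g, Q g = ∑ i, (M i ⬝ᵥ g) ^ 2 := fun g => sum_congr rfl fun i _ => (sq _).symm
  have iQ : Integrable Q (gp (Fin n)) := by
    rw [funext eQ]; exact integrable_finsetSum _ fun i _ => (gauss_dot (M i)).1
  have iQT : ∫ g, Q g ∂gp (Fin n) = T := by
    simp only [eQ]
    rw [integral_finsetSum _ fun i _ => (gauss_dot (M i)).1]
    exact sum_congr rfl fun i _ => (gauss_dot (M i)).2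
  have hsa : (0 : ℝ) < √a := sqrt_pos.2 ha
  have hlip : ∀ g h : Fin n → ℝ, U g - U h ≤ (√a)⁻¹ * √(∑ i, (g i - h i) ^ 2) := fun g h => by
    have h1 := LL.nrm_add (M *ᵥ (g - h)) (M *ᵥ h)
    rw [← Matrix.mulVec_add, sub_add_cancel, nrm_dot, nrm_dot, nrm_dot] at h1
    have h2 : √((M *ᵥ (g - h)) ⬝ᵥ (M *ᵥ (g - h))) ≤ (√a)⁻¹ * √(∑ i, (g i - h i) ^ 2) := by
      refine (sqrt_le_sqrt (hM (g - h))).trans_eq ?_
      rw [div_eq_inv_mul, sqrt_mul (inv_nonneg.2 ha.le), sqrt_inv]
      simp [dotProduct, sq]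
    simp only [hU, hQ]
    linarith
  have hlip' : ∀ g h : Fin n → ℝ, |U g - U h| ≤ (√a)⁻¹ * √(∑ i, (g i - h i) ^ 2) := fun g h => by
    refine abs_le.2 ⟨?_, hlip g h⟩
    have := hlip h g
    rw [show (∑ i, (h i - g i) ^ 2) = ∑ i, (g i - h i) ^ 2 from sum_congr rfl fun i _ => by ring] at this
    linarith
  have hQc : Continuous Q := by simp only [hQ, dotProduct, Matrix.mulVec]; fun_prop
  have hUc : Continuous U := hQc.sqrt
  have iU : Integrable U (gp (Fin n)) :=
    (iQ.add (integrable_const 1)).mono' hUc.aestronglyMeasurable (ae_of_all _ fun g => by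
      simp only [Real.norm_eq_abs, Pi.add_apply, abs_of_nonneg (show 0 ≤ U g from sqrt_nonneg _)]
      nlinarith [hUsq g, sq_nonneg (U g - 1)])
  set m := ∫ g, U g ∂gp (Fin n) with hm
  have hm0 : 0 ≤ m := integral_nonneg fun g => sqrt_nonneg _
  set D : (Fin n → ℝ) → ℝ := fun g => U g - m with hD
  have eD : ∀ g, D g ^ 2 = Q g - 2 * m * U g + m ^ 2 := fun g => by rw [hD, ← hUsq g]; ring
  have i1 : Integrable (fun g => Q g - 2 * m * U g) (gp (Fin n)) := iQ.sub (iU.const_mul _)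
  have iD : Integrable (fun g => D g ^ 2) (gp (Fin n)) := by
    simp only [eD]; exact i1.add (integrable_const _)
  set V := ∫ g, D g ^ 2 ∂gp (Fin n) with hV
  have hVT : T = V + m ^ 2 := by
    have e : V = (T - 2 * m * m) + m ^ 2 := by
      simp only [hV, eD]
      rw [integral_add i1 (integrable_const _), integral_sub iQ (iU.const_mul _),
        integral_const_mul, iQT, ← hm, integral_const, probReal_univ, one_smul]
    rw [e]; ring
  have hV0 : 0 ≤ V := integral_nonneg fun g => sq_nonneg _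
  have hVb : V ≤ 4 * exp (π ^ 2 / 8) / a := by
    obtain ⟨i1, l1⟩ := gaussMgf (Fin n) U (√a)⁻¹ (inv_pos.2 hsa) hlip' √a
    obtain ⟨i2, l2⟩ := gaussMgf (Fin n) U (√a)⁻¹ (inv_pos.2 hsa) hlip' (-√a)
    have e1 : π ^ 2 * (√a)⁻¹ ^ 2 * √a ^ 2 / 8 = π ^ 2 / 8 := by field_simp
    rw [e1] at l1
    rw [neg_sq, e1] at l2
    have hp : ∀ g, D g ^ 2 ≤ 2 / a * (exp (√a * D g) + exp (-√a * D g)) := fun g => by
      have := sq_le_exp (√a * D g)
      rw [mul_pow, sq_sqrt ha.le] at this
      rw [neg_mul, div_mul_eq_mul_div, le_div_iff₀ ha]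
      linarith
    refine (integral_mono iD ((i1.fun_add i2).const_mul _) hp).trans ?_
    rw [integral_const_mul, integral_add i1 i2]
    refine (mul_le_mul_of_nonneg_left (add_le_add l1 l2) (by positivity)).trans_eq ?_
    ring
  set f : (Fin n → ℝ) → ℝ := fun g => 2 / (ε * n) * ((1 + 2 / (a * ε)) * D g ^ 2 + V) with hf
  have iB : Integrable (fun g => (1 + 2 / (a * ε)) * D g ^ 2 + V) (gp (Fin n)) :=
    (iD.const_mul _).add (integrable_const _)
  refine (ind_le ?_ (iB.const_mul (2 / (ε * n))) (fun g => ?_) fun g hg => ?_).trans ?_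
  · exact measurableSet_lt measurable_const (((hQc.div_const _).sub continuous_const).abs.measurable)
  · positivity
  · have hg' : ε * n < |Q g - T| := by
      have : ε < |Q g - T| / n := by
        rw [← abs_of_pos hnp, ← abs_div, sub_div]; exact hg
      rwa [lt_div_iff₀ hnp] at this
    have h1 : |Q g - T| ≤ D g ^ 2 + 2 * m * |D g| + V := by
      rw [← hUsq g, hVT, show U g = D g + m by rw [hD]; ring, abs_le]
      have b1 := mul_le_mul_of_nonneg_left (le_abs_self (D g)) hm0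
      have b2 := mul_le_mul_of_nonneg_left (neg_abs_le (D g)) hm0
      constructor <;> linarith [sq_nonneg (D g)]
    have hen : (0 : ℝ) < ε * n := by positivity
    have hm2 : m ^ 2 ≤ n / a := by linarith
    have h2 : 2 * m * |D g| ≤ ε * n / 2 + 2 / (a * ε) * D g ^ 2 := by
      have h3 : 2 * m ^ 2 * D g ^ 2 / (ε * n) ≤ 2 / (a * ε) * D g ^ 2 := by
        rw [div_le_iff₀ hen]
        refine (mul_le_mul_of_nonneg_right (mul_le_mul_of_nonneg_left hm2 zero_le_two) (sq_nonneg _)).trans_eq ?_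
        field_simp
      have h4 : 2 * m * |D g| ≤ ε * n / 2 + 2 * m ^ 2 * D g ^ 2 / (ε * n) := by
        rw [← sq_abs (D g), div_add_div _ _ two_ne_zero hen.ne', le_div_iff₀ (by positivity)]
        linarith [sq_nonneg (ε * n - 2 * m * |D g|)]
      linarith
    rw [div_mul_eq_mul_div, le_div_iff₀ hen]
    linarith
  · rw [integral_const_mul, integral_add (iD.const_mul _) (integrable_const _), integral_const_mul,
      ← hV, integral_const, probReal_univ, one_smul]
    refine le_trans (le_of_eq ?_) (div_le_div_of_nonneg_right (mul_le_mul_of_nonneg_left hVb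
      (show (0 : ℝ) ≤ (4 + 4 / (a * ε)) / ε by positivity)) hnp.le)
    field_simp
    ring

variable {A : Matrix (Fin n) (Fin n) ℝ}

theorem inv_quad_le (hA : A.PosDef) (ha : 0 < a)
    (hAa : ∀ v, a * ∑ i, v i ^ 2 ≤ v ⬝ᵥ (A *ᵥ v)) (v : Fin n → ℝ) :
    v ⬝ᵥ (A⁻¹ *ᵥ v) ≤ v ⬝ᵥ v / a := by
  set w := A⁻¹ *ᵥ v with hw
  have hAw : A *ᵥ w = v := by
    rw [hw, Matrix.mulVec_mulVec, Matrix.mul_nonsing_inv _ (Ne.isUnit hA.det_pos.ne'), Matrix.one_mulVec]
  have h1 := hAa w
  rw [hAw, dotProduct_comm, show ∑ i, w i ^ 2 = w ⬝ᵥ w by simp [dotProduct, sq]] at h1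
  have h2 := dot_sq_le v w
  have hv := dot_self_nonneg' v
  have hw0 := dot_self_nonneg' w
  rw [le_div_iff₀ ha]
  rcases le_or_gt (v ⬝ᵥ w) 0 with h | h
  · nlinarith
  · refine le_of_mul_le_mul_left ?_ h
    linarith [mul_le_mul_of_nonneg_left h1 hv, mul_le_mul_of_nonneg_left h2 ha.le]

theorem inv_root_len (hA : A.PosDef) (ha : 0 < a)
    (hAa : ∀ v, a * ∑ i, v i ^ 2 ≤ v ⬝ᵥ (A *ᵥ v)) {C : Matrix (Fin n) (Fin n) ℝ}
    (hC : C * C.transpose = A⁻¹) (d : Fin n → ℝ) : (C *ᵥ d) ⬝ᵥ (C *ᵥ d) ≤ d ⬝ᵥ d / a := by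
  set u := C *ᵥ d with hu
  have e1 : u ⬝ᵥ u = (C.transpose *ᵥ u) ⬝ᵥ d := (adj C u d).symm
  have h1 := dot_sq_le (C.transpose *ᵥ u) d
  rw [← e1, adj, Matrix.mulVec_mulVec, hC] at h1
  have h2 : (u ⬝ᵥ u) ^ 2 ≤ u ⬝ᵥ u / a * (d ⬝ᵥ d) :=
    h1.trans (mul_le_mul_of_nonneg_right (inv_quad_le hA ha hAa u) (dot_self_nonneg' d))
  have hd := div_nonneg (dot_self_nonneg' d) ha.le
  rcases (dot_self_nonneg' u).eq_or_lt with h | h
  · rw [← h]; exact hd
  · refine le_of_mul_le_mul_left ?_ h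
    calc u ⬝ᵥ u * (u ⬝ᵥ u) = (u ⬝ᵥ u) ^ 2 := (sq _).symm
      _ ≤ _ := h2
      _ = _ := by ring

/-- The orthonormal vectors only read the earlier columns. -/
theorem gs_congr_wcol {M : ℕ} {w w' : Fin M → Fin n → ℝ} (k : Fin M) (h : ∀ c ≤ k, w c = w' c) :
    gs τ w k = gs τ w' k := by
  induction k using WellFoundedLT.induction with
  | _ k ih =>
    have e : gsRes τ w k = gsRes τ w' k := by
      simp only [gsRes, h k le_rfl]
      congr 1
      exact sum_congr rfl fun c hc => by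
        rw [ih c (mem_Iio.1 hc) fun d hd => h d (hd.trans (mem_Iio.1 hc).le)]
    rw [gs_eq, gs_eq, e]

/-- A bound for the field of one step holds along the path. -/
theorem pathE_step_bound {R : Step n → Kern n} : ∀ {r : ℕ} (σ : Fin r → Step n),
    (∀ t, OkStep R (σ t)) → ∀ (t : Fin r) (x : Conf n)
      (H : (Fin r → (Fin n → ℝ) × Conf n) → (Fin n → ℝ) → ℝ) (M K : ℝ),
    Measurable (Function.uncurry H) → (∀ ω y, |H ω y| ≤ M) →
    (∀ ω ω' y, (∀ i, i < t → ω i = ω' i) → H ω y = H ω' y) →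
    (∀ ω, ∫ y, chan (σ t).A ((Fin.cons x fun i => (ω i).2 : Fin (r + 1) → Conf n) t.castSucc) y * H ω y
      ≤ K) →
    pathE R σ x (fun ω => H ω (ω t).1) ≤ K
  | r + 1, σ, hσ, t, x, H, M, K, hH, hM, hloc, hK => by
    cases t using Fin.cases with
    | zero =>
      set ω₀ : Fin (r + 1) → (Fin n → ℝ) × Conf n := fun _ => (0, x)
      have e : ∀ y z, pathE R (Fin.tail σ) z (fun ω => H (Fin.cons (y, z) ω)
          ((Fin.cons (y, z) ω : Fin (r + 1) → (Fin n → ℝ) × Conf n) 0).1) = H ω₀ y := fun y z => by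
        have : ∀ ω : Fin r → (Fin n → ℝ) × Conf n,
            H (Fin.cons (y, z) ω) y = H ω₀ y := fun ω =>
          hloc _ _ _ fun i hi => absurd hi (Fin.not_lt_zero i)
        simp only [Fin.cons_zero, this]
        exact pathE_const _ (fun t => hσ t.succ) _ z
      simp only [pathE, e, ← sum_mul, (hσ 0).sum, one_mul]
      simpa using hK ω₀
    | succ s =>
      have hcn : ∀ y z, Measurable fun p : (Fin r → (Fin n → ℝ) × Conf n) × (Fin n → ℝ) =>
          ((Fin.cons (y, z) p.1 : Fin (r + 1) → (Fin n → ℝ) × Conf n), p.2) := fun y z =>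
        ((measurable_cons y z).comp measurable_fst).prodMk measurable_snd
      have e : ∀ y z, pathE R (Fin.tail σ) z (fun ω => H (Fin.cons (y, z) ω)
          ((Fin.cons (y, z) ω : Fin (r + 1) → (Fin n → ℝ) × Conf n) s.succ).1) ≤ K := fun y z => by
        simp only [Fin.cons_succ]
        refine pathE_step_bound (Fin.tail σ) (fun t => hσ t.succ) s z
          (fun ω y' => H (Fin.cons (y, z) ω) y') M K (hH.comp (hcn y z)) (fun ω y' => hM _ _)
          (fun ω ω' y' h => hloc _ _ _ fun i hi => ?_) fun ω => ?_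
        · cases i using Fin.cases with
          | zero => simp
          | succ j => simpa using h j (Fin.succ_lt_succ_iff.1 hi)
        · refine le_trans (le_of_eq ?_) (hK (Fin.cons (y, z) ω))
          have es : (Fin.cons x (fun i => ((Fin.cons (y, z) ω : Fin (r + 1) → (Fin n → ℝ) × Conf n) i).2) :
              Fin (r + 2) → Conf n) s.succ.castSucc
              = (Fin.cons z fun i => (ω i).2 : Fin (r + 1) → Conf n) s.castSucc := by
            rw [← Fin.succ_castSucc, Fin.cons_succ]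
            cases s.castSucc using Fin.cases <;> simp
          rw [es]; rfl
      have hF : Measurable fun ω : Fin (r + 1) → (Fin n → ℝ) × Conf n => H ω (ω s.succ).1 :=
        hH.comp (measurable_id.prodMk (measurable_fst.comp (measurable_pi_apply _)))
      refine (integral_mono (pathE_step_int σ hσ hF (fun ω => hM _ _) x)
        ((chanV_integrable (hσ 0).pd ((σ 0).A *ᵥ vec x)).mul_const K) fun y => ?_).trans_eq ?_
      · refine mul_le_mul_of_nonneg_left ((sum_le_sum fun z _ => mul_le_mul_of_nonneg_left (e y z)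
          ((hσ 0).nn x y z)).trans_eq ?_) (chanV_pos (hσ 0).pd _ y).le
        rw [← sum_mul, (hσ 0).sum, one_mul]
      · rw [integral_mul_const, chanV_mass (hσ 0).pd, one_mul]

theorem pathE_sum_le {R : Step n → Kern n} (σ : Fin r → Step n) (hσ : ∀ t, OkStep R (σ t))
    {ι : Type*} (s : Finset ι) (f : ι → (Fin r → (Fin n → ℝ) × Conf n) → ℝ) {M K : ℝ}
    (hf : ∀ b, Measurable (f b)) (hM : ∀ b ω, |f b ω| ≤ M) (c : ℝ) (x : Conf n)
    (hK : ∀ b, pathE R σ x (f b) ≤ K) :
    pathE R σ x (fun ω => c + ∑ b ∈ s, f b ω) ≤ c + s.card * K := by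
  classical
  induction s using Finset.induction_on with
  | empty => simp [pathE_const σ hσ]
  | insert b s hb ih =>
    have e : ∀ ω, c + ∑ i ∈ insert b s, f i ω = f b ω + (c + ∑ i ∈ s, f i ω) := fun ω => by
      rw [sum_insert hb]; ring
    simp only [e]
    rw [pathE_add σ hσ (f b) (fun ω => c + ∑ i ∈ s, f i ω) (hf b) (measurable_const.add (Finset.measurable_sum _ fun i _ => hf i))
      M (|c| + s.card * M) (hM b) (fun ω => (abs_add_le _ _).trans (add_le_add le_rfl
        ((abs_sum_le_sum_abs _ _).trans ((sum_le_card_nsmul _ _ _ fun i _ => hM i ω).trans_eq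
          (nsmul_eq_mul _ _))))) x, card_insert_of_notMem hb]
    push_cast
    linarith [hK b]

theorem measurable_stateAt_comp {α : Type*} [MeasurableSpace α] {P : α → Traj n r} (hP : Measurable P)
    (b : Fin (r + 1)) : Measurable fun q => stateAt (P q) b := by
  cases b using Fin.cases with
  | zero => simp only [stateAt, Fin.cons_zero]; fun_prop
  | succ t => simp only [stateAt, Fin.cons_succ]; fun_prop

theorem measurable_noiseAt_comp (A : Matrix (Fin n) (Fin n) ℝ) {α : Type*} [MeasurableSpace α]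
    {P : α → Traj n r} (hP : Measurable P) (b : Fin (r + 1)) :
    Measurable fun q => noiseAt A (P q) b := by
  cases b using Fin.cases with
  | zero => simp only [noiseAt, Fin.cons_zero]; fun_prop
  | succ t =>
    simp only [noiseAt, Fin.cons_succ]
    refine (measurable_mulVec (A := fun _ => A⁻¹) (g := fun q => ((P q).2.2 t).1)
      (fun i j => measurable_const) (by fun_prop)).sub ?_
    exact (measurable_of_finite (vec : Conf n → Fin n → ℝ)).comp (measurable_stateAt_comp hP _)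

theorem measurable_colVec_comp (A : Matrix (Fin n) (Fin n) ℝ) {α : Type*} [MeasurableSpace α]
    {P : α → Traj n r} (hP : Measurable P) :
    Measurable fun q => wcols (stateAt (P q)) (noiseAt A (P q)) := by
  refine measurable_pi_lambda _ fun k => measurable_pi_lambda _ fun i => ?_
  simp only [wcols, colsOf, colOf, Pi.smul_apply, smul_eq_mul]
  split
  · exact ((measurable_pi_apply i).comp (measurable_noiseAt_comp A hP _)).const_mul _
  · exact ((measurable_of_finite spin).comp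
      ((measurable_pi_apply i).comp (measurable_stateAt_comp hP _))).const_mul _

theorem measurableSet_pathOK' (A : Matrix (Fin n) (Fin n) ℝ) (τ W ε : ℝ) :
    MeasurableSet {P : Traj n r | PathOK τ W ε (stateAt P) (noiseAt A P)} := by
  have hn := fun b => measurable_noiseAt_comp (r := r) A (α := Traj n r) measurable_id b
  have hw := measurable_colVec_comp (r := r) A (α := Traj n r) measurable_id
  have hb : ∀ b, Measurable fun P : Traj n r => noiseAt A P b ⬝ᵥ noiseAt A P b / n := fun b =>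
    (measurable_dot (hn b) (hn b)).div_const _
  simp only [PathOK, Set.ofPred_and, Set.ofPred_forall]
  refine ((measurableSet_le ((hb 0).sub_const 1).abs measurable_const)).inter
    (MeasurableSet.iInter fun b => ?_)
  refine (measurableSet_le ((hb b.succ).sub_const W).abs measurable_const).inter
    (measurableSet_le (Finset.measurable_sum _ fun c _ => Measurable.pow_const ?_ 2) measurable_const)
  exact measurable_dot (measurable_gs hw c).1 ((measurable_pi_apply _).comp hw)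

/-- The failures of one step: the length of its noise, its weight in the earlier directions. -/
noncomputable def stepBad (τ W ε : ℝ) (A : Matrix (Fin n) (Fin n) ℝ) (x : Conf n) (g : Fin n → ℝ)
    (b : Fin r) (ω : Fin r → (Fin n → ℝ) × Conf n) (y : Fin n → ℝ) : ℝ :=
  {p : (Fin r → (Fin n → ℝ) × Conf n) × (Fin n → ℝ) |
      ε < |(A⁻¹ *ᵥ p.2 - vec (stateAt ((x, g, p.1) : Traj n r) b.castSucc)) ⬝ᵥ
        (A⁻¹ *ᵥ p.2 - vec (stateAt ((x, g, p.1) : Traj n r) b.castSucc)) / n - W|}.indicator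
    (fun _ => (1 : ℝ)) (ω, y)
  + {p : (Fin r → (Fin n → ℝ) × Conf n) × (Fin n → ℝ) |
      ε < ∑ c ∈ Iio (ecol b.succ), (gs τ (wcols (stateAt ((x, g, p.1) : Traj n r))
        (noiseAt A ((x, g, p.1) : Traj n r))) c ⬝ᵥ ((√(n : ℝ))⁻¹ •
          (A⁻¹ *ᵥ p.2 - vec (stateAt ((x, g, p.1) : Traj n r) b.castSucc)))) ^ 2}.indicator
    (fun _ => (1 : ℝ)) (ω, y)

theorem stepBad_meas (τ W ε : ℝ) (A : Matrix (Fin n) (Fin n) ℝ) (x : Conf n) (g : Fin n → ℝ)
    (b : Fin r) : Measurable (Function.uncurry (stepBad τ W ε A x g b)) := by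
  have hP : Measurable fun p : (Fin r → (Fin n → ℝ) × Conf n) × (Fin n → ℝ) =>
      ((x, g, p.1) : Traj n r) :=
    measurable_const.prodMk (measurable_const.prodMk measurable_fst)
  have he : Measurable fun p : (Fin r → (Fin n → ℝ) × Conf n) × (Fin n → ℝ) =>
      A⁻¹ *ᵥ p.2 - vec (stateAt ((x, g, p.1) : Traj n r) b.castSucc) :=
    (measurable_mulVec (A := fun _ => A⁻¹) (fun i j => measurable_const) measurable_snd).sub
      ((measurable_of_finite (vec : Conf n → Fin n → ℝ)).comp (measurable_stateAt_comp hP b.castSucc))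
  refine (measurable_const.indicator ?_).add (measurable_const.indicator ?_)
  · exact measurableSet_lt measurable_const (((measurable_dot he he).div_const _).sub_const W).abs
  · have hw : Measurable fun p : (Fin r → (Fin n → ℝ) × Conf n) × (Fin n → ℝ) =>
        wcols (stateAt ((x, g, p.1) : Traj n r)) (noiseAt A ((x, g, p.1) : Traj n r)) :=
      measurable_colVec_comp A hP
    refine measurableSet_lt measurable_const (Finset.measurable_sum _ fun c _ => Measurable.pow_const ?_ 2)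
    refine measurable_dot (measurable_gs hw c).1 ?_
    exact he.const_smul ((√(n : ℝ))⁻¹)

theorem stepBad_abs (τ W ε : ℝ) (A : Matrix (Fin n) (Fin n) ℝ) (x : Conf n) (g : Fin n → ℝ)
    (b : Fin r) (ω : Fin r → (Fin n → ℝ) × Conf n) (y : Fin n → ℝ) :
    |stepBad τ W ε A x g b ω y| ≤ 2 :=
  (abs_add_le _ _).trans ((add_le_add (abs_ind_le _ _) (abs_ind_le _ _)).trans_eq (by norm_num))

theorem stepBad_local (τ W ε : ℝ) (A : Matrix (Fin n) (Fin n) ℝ) (x : Conf n) (g : Fin n → ℝ)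
    (b : Fin r) (ω ω' : Fin r → (Fin n → ℝ) × Conf n) (y : Fin n → ℝ) (h : ∀ i, i < b → ω i = ω' i) :
    stepBad τ W ε A x g b ω y = stepBad τ W ε A x g b ω' y := by
  classical
  have hlt : ∀ t : Fin r, t.succ ≤ b.castSucc → t < b := fun t ht => by
    simp only [Fin.le_def, Fin.val_succ, Fin.val_castSucc] at ht
    exact Fin.lt_def.2 (by omega)
  have hs : ∀ j : Fin (r + 1), j ≤ b.castSucc →
      stateAt ((x, g, ω) : Traj n r) j = stateAt ((x, g, ω') : Traj n r) j := fun j hj => by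
    cases j using Fin.cases with
    | zero => rfl
    | succ t => simp only [stateAt, Fin.cons_succ, h t (hlt t hj)]
  have he : ∀ j : Fin (r + 1), j ≤ b.castSucc →
      noiseAt A ((x, g, ω) : Traj n r) j = noiseAt A ((x, g, ω') : Traj n r) j := fun j hj => by
    cases j using Fin.cases with
    | zero => rfl
    | succ t =>
      simp only [noiseAt, Fin.cons_succ, h t (hlt t hj)]
      rw [hs t.castSucc (Fin.castSucc_le_castSucc_iff.2 (hlt t hj).le)]
  have hg : ∀ c ∈ Iio (ecol b.succ),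
      gs τ (wcols (stateAt ((x, g, ω) : Traj n r)) (noiseAt A ((x, g, ω) : Traj n r))) c
      = gs τ (wcols (stateAt ((x, g, ω') : Traj n r)) (noiseAt A ((x, g, ω') : Traj n r))) c := by
    intro c hc
    refine gs_congr_wcol c fun d hd => ?_
    have hd' : d.1 / 2 ≤ b.1 := by
      have h1 : d.1 ≤ c.1 := hd
      have h2 : c.1 < 2 * (b.1 + 1) := by simpa [Fin.lt_def, ecol] using mem_Iio.1 hc
      omega
    funext i
    simp only [wcols, colsOf, colOf, Pi.smul_apply]
    rw [he _ (Fin.le_def.2 hd'), hs _ (Fin.le_def.2 hd')]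
  simp only [stepBad, hs b.castSucc le_rfl, Set.indicator_apply, Set.mem_ofPred_eq]
  rw [sum_congr rfl fun c hc => by rw [hg c hc]]

/-- One step fails with probability of order `1 / n`. -/
theorem stepBad_le (hτ : 0 < τ) (ha : 0 < a) (hε : 0 < ε) (hn : 1 ≤ n) (hA : A.PosDef)
    (hAa : ∀ v, a * ∑ i, v i ^ 2 ≤ v ⬝ᵥ (A *ᵥ v)) (x : Conf n) (g : Fin n → ℝ) (b : Fin r)
    (ω : Fin r → (Fin n → ℝ) × Conf n) :
    ∫ y, chan A (stateAt ((x, g, ω) : Traj n r) b.castSucc) y
        * stepBad τ ((n : ℝ)⁻¹ * A⁻¹.trace) ε A x g b ω y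
      ≤ (lenC a ε + ncol r / (a * ε)) / n := by
  have hnp : (0 : ℝ) < n := by exact_mod_cast hn
  obtain ⟨B, hB, hBd⟩ := exists_root hA
  have hu : IsUnit A.det := Ne.isUnit hA.det_pos.ne'
  set C := A⁻¹ * B with hCd
  have hC : C * C.transpose = A⁻¹ := by
    rw [hCd, Matrix.transpose_mul, Matrix.transpose_nonsing_inv, posDef_symm hA, Matrix.mul_assoc,
      ← Matrix.mul_assoc B, hB, Matrix.mul_nonsing_inv _ hu, Matrix.mul_one]
  set st := stateAt ((x, g, ω) : Traj n r) b.castSucc with hst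
  set V : Fin (ncol r) → Fin n → ℝ :=
    gs τ (wcols (stateAt ((x, g, ω) : Traj n r)) (noiseAt A ((x, g, ω) : Traj n r))) with hV
  have he : ∀ z, A⁻¹ *ᵥ (A *ᵥ vec st + B *ᵥ z) - vec st = C *ᵥ z := fun z => by
    rw [Matrix.mulVec_add, Matrix.mulVec_mulVec, Matrix.mulVec_mulVec, Matrix.nonsing_inv_mul _ hu,
      Matrix.one_mulVec, add_sub_cancel_left]
  have htr : A⁻¹.trace = ∑ i, C i ⬝ᵥ C i := by
    rw [← hC, Matrix.trace]
    simp [Matrix.mul_apply, dotProduct]
  have hT : ∑ i, C i ⬝ᵥ C i ≤ n / a := by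
    rw [← htr, Matrix.trace]
    refine (sum_le_sum (g := fun _ => 1 / a) fun i _ => ?_).trans_eq (by simp [div_eq_mul_inv])
    have := inv_quad_le hA ha hAa (Pi.single i 1)
    simpa using this
  set E1 : Set (Fin n → ℝ) :=
    {z | ε < |(C *ᵥ z) ⬝ᵥ (C *ᵥ z) / n - (∑ i, C i ⬝ᵥ C i) / n|} with hE1
  set E2 : Set (Fin n → ℝ) :=
    {z | ε < ∑ c ∈ Iio (ecol b.succ), (V c ⬝ᵥ ((√(n : ℝ))⁻¹ • (C *ᵥ z))) ^ 2} with hE2
  have eh : ∀ z, stepBad τ ((n : ℝ)⁻¹ * A⁻¹.trace) ε A x g b ω (A *ᵥ vec st + B *ᵥ z)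
      = E1.indicator (fun _ => (1 : ℝ)) z + E2.indicator (fun _ => (1 : ℝ)) z := fun z => by
    classical
    simp only [stepBad, Set.indicator_apply, Set.mem_ofPred_eq, hE1, hE2, ← hst, ← hV, he]
    rw [htr, inv_mul_eq_div]
  have hm1 : MeasurableSet E1 := measurableSet_lt measurable_const
    (Continuous.measurable (by simp only [dotProduct, Matrix.mulVec]; fun_prop))
  have hm2 : MeasurableSet E2 := measurableSet_lt measurable_const
    (Continuous.measurable (by simp only [dotProduct, Matrix.mulVec, Pi.smul_apply, smul_eq_mul]; fun_prop))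
  rw [chan_eq, (chan_integral hB hBd _ _).1]
  simp only [eh]
  rw [integral_add ((integrable_const _).indicator hm1) ((integrable_const _).indicator hm2), add_div]
  refine add_le_add (gauss_len ha hε hn (inv_root_len hA ha hAa hC) hT) ?_
  have hf : ∀ c, Integrable (fun z => ((C.transpose *ᵥ V c) ⬝ᵥ z) ^ 2) (gp (Fin n)) := fun c =>
    (gauss_dot _).1
  refine (ind_le hm2 ((integrable_finsetSum (Iio (ecol b.succ)) fun c _ => hf c).div_const (n * ε))
    (fun z => by positivity) fun z hz => ?_).trans ?_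
  · rw [one_le_div (by positivity), mul_comm]
    have e : ∀ c, (V c ⬝ᵥ ((√(n : ℝ))⁻¹ • (C *ᵥ z))) ^ 2 = ((C.transpose *ᵥ V c) ⬝ᵥ z) ^ 2 / n := fun c => by
      rw [dotProduct_smul, adj, smul_eq_mul, mul_pow, inv_pow, sq_sqrt hnp.le, inv_mul_eq_div]
    simp only [hE2, Set.mem_ofPred_eq, e, ← sum_div] at hz
    exact ((lt_div_iff₀ hnp).1 hz).le
  · rw [integral_div, integral_finsetSum _ fun c _ => hf c]
    have h1 : ∀ c, ∫ z, ((C.transpose *ᵥ V c) ⬝ᵥ z) ^ 2 ∂gp (Fin n) ≤ 1 / a := fun c => by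
      rw [(gauss_dot _).2, adj, Matrix.mulVec_mulVec, hC]
      refine (inv_quad_le hA ha hAa _).trans (div_le_div_of_nonneg_right ?_ ha.le)
      rcases gs_unit (w := wcols (stateAt ((x, g, ω) : Traj n r)) (noiseAt A ((x, g, ω) : Traj n r)))
        hτ c with h | h
      · exact h.le
      · simp [hV, h]
    refine (div_le_div_of_nonneg_right ((sum_le_sum_of_subset_of_nonneg (subset_univ _) fun c _ _ =>
      integral_nonneg fun z => sq_nonneg _).trans (sum_le_sum fun c _ => h1 c)) (by positivity)).trans_eq ?_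
    simp only [sum_const, card_univ, Fintype.card_fin, nsmul_eq_mul]
    field_simp

/-- A path off the event fails at the side noise or at some step. -/
theorem bad_le (τ W ε : ℝ) (A : Matrix (Fin n) (Fin n) ℝ) (x : Conf n) (g : Fin n → ℝ)
    (ω : Fin r → (Fin n → ℝ) × Conf n) :
    {P : Traj n r | ¬ PathOK τ W ε (stateAt P) (noiseAt A P)}.indicator (fun _ => (1 : ℝ)) (x, g, ω)
      ≤ {g : Fin n → ℝ | ε < |g ⬝ᵥ g / n - 1|}.indicator (fun _ => (1 : ℝ)) g
        + ∑ b : Fin r, stepBad τ W ε A x g b ω (ω b).1 := by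
  classical
  have hnn : ∀ b : Fin r, 0 ≤ stepBad τ W ε A x g b ω (ω b).1 := fun b => add_nonneg
    (Set.indicator_nonneg (fun _ _ => zero_le_one) _) (Set.indicator_nonneg (fun _ _ => zero_le_one) _)
  have hs := sum_nonneg fun b (_ : b ∈ (univ : Finset (Fin r))) => hnn b
  have h0 : 0 ≤ {g : Fin n → ℝ | ε < |g ⬝ᵥ g / n - 1|}.indicator (fun _ => (1 : ℝ)) g :=
    Set.indicator_nonneg (fun _ _ => zero_le_one) _
  simp only [Set.indicator_apply, Set.mem_ofPred_eq] at h0 ⊢
  by_cases hP : PathOK τ W ε (stateAt ((x, g, ω) : Traj n r)) (noiseAt A ((x, g, ω) : Traj n r))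
  · rw [if_neg (not_not.2 hP)]; linarith
  rw [if_pos hP]
  by_cases h1 : ε < |g ⬝ᵥ g / n - 1|
  · rw [if_pos h1]; linarith
  have hb : ∃ b : Fin r, 1 ≤ stepBad τ W ε A x g b ω (ω b).1 := by
    by_contra! hb
    refine hP ⟨le_of_not_gt h1, fun b => ?_⟩
    have := hb b
    unfold stepBad at this
    obtain ⟨p, q⟩ := ind2_lt this
    simp only [Set.mem_ofPred_eq] at p q
    refine ⟨le_of_not_gt p, le_trans (le_of_eq ?_) (le_of_not_gt q)⟩
    refine sum_congr rfl fun c _ => ?_
    rw [wcols, colsOf_ecol]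
    simp [noiseAt]
  obtain ⟨b, hb⟩ := hb
  rw [if_neg h1, zero_add]
  exact hb.trans (single_le_sum (fun b _ => hnn b) (mem_univ b))

theorem path_bad_le (hτ : 0 < τ) (ha : 0 < a) (hε : 0 < ε) (hn : 1 ≤ n) (hA : A.PosDef)
    (hAa : ∀ v, a * ∑ i, v i ^ 2 ≤ v ⬝ᵥ (A *ᵥ v)) {ν : Conf n → ℝ} (hν : ∀ x, 0 < ν x)
    (S : Finset (Fin n)) (h : Fin n → ℝ) (x : Conf n) (g : Fin n → ℝ) :
    pathE (pR (priorAt A 0 ν h)) (stepsOf A 0 h S : Fin r → Step n) x (fun ω =>
      {P : Traj n r | ¬ PathOK τ ((n : ℝ)⁻¹ * A⁻¹.trace) ε (stateAt P) (noiseAt A P)}.indicator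
        (fun _ => (1 : ℝ)) (x, g, ω))
    ≤ {g : Fin n → ℝ | ε < |g ⬝ᵥ g / n - 1|}.indicator (fun _ => (1 : ℝ)) g
      + r * ((lenC a ε + ncol r / (a * ε)) / n) := by
  set W := (n : ℝ)⁻¹ * A⁻¹.trace
  have hok := fun t => steps_ok_p (r := r) (S := S) hA hν h h t
  have hpair : ∀ b : Fin r, Measurable fun ω : Fin r → (Fin n → ℝ) × Conf n => (ω, (ω b).1) :=
    fun b => measurable_id.prodMk (measurable_fst.comp (measurable_pi_apply b))
  have hm : ∀ b : Fin r, Measurable fun ω : Fin r → (Fin n → ℝ) × Conf n =>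
      stepBad τ W ε A x g b ω (ω b).1 := fun b => by
    have hc := (stepBad_meas τ W ε A x g b).comp (hpair b)
    simpa only [Function.comp_def, Function.uncurry_apply_pair] using hc
  have hBm : Measurable ({P : Traj n r | ¬ PathOK τ W ε (stateAt P) (noiseAt A P)}.indicator
      fun _ => (1 : ℝ)) := measurable_const.indicator (measurableSet_pathOK' A τ W ε).compl
  have hF : Measurable fun ω : Fin r → (Fin n → ℝ) × Conf n =>
      {P : Traj n r | ¬ PathOK τ W ε (stateAt P) (noiseAt A P)}.indicator (fun _ => (1 : ℝ)) (x, g, ω) :=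
    hBm.comp (measurable_const.prodMk (measurable_const.prodMk measurable_id))
  set e0 := {g : Fin n → ℝ | ε < |g ⬝ᵥ g / n - 1|}.indicator (fun _ => (1 : ℝ)) g with he0
  have he0b : |e0| ≤ 1 := abs_ind_le _ _
  have hG : Measurable fun ω : Fin r → (Fin n → ℝ) × Conf n =>
      e0 + ∑ b : Fin r, stepBad τ W ε A x g b ω (ω b).1 :=
    measurable_const.add (Finset.measurable_sum _ fun b _ => hm b)
  have hGb : ∀ ω : Fin r → (Fin n → ℝ) × Conf n,
      |e0 + ∑ b : Fin r, stepBad τ W ε A x g b ω (ω b).1| ≤ 1 + r * 2 := fun ω => by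
    refine (abs_add_le _ _).trans (add_le_add he0b ((abs_sum_le_sum_abs _ _).trans
      ((sum_le_card_nsmul _ _ 2 fun b _ => stepBad_abs τ W ε A x g b ω _).trans_eq ?_)))
    rw [nsmul_eq_mul, card_univ, Fintype.card_fin]
  refine (pathE_mono _ hok _ _ hF hG 1 _ (fun ω => abs_ind_le _ _) hGb
    (fun ω => bad_le τ W ε A x g ω) x).trans ?_
  refine (pathE_sum_le _ hok univ _ hm (fun b ω => stepBad_abs τ W ε A x g b ω _) _ x fun b =>
    pathE_step_bound _ hok b x (stepBad τ W ε A x g b) 2 ((lenC a ε + ncol r / (a * ε)) / n)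
      (stepBad_meas τ W ε A x g b) (stepBad_abs τ W ε A x g b) (stepBad_local τ W ε A x g b)
      fun ω => ?_).trans_eq (by rw [card_univ, Fintype.card_fin])
  simp only [stepsOf, sub_zero, one_smul]
  exact stepBad_le hτ ha hε hn hA hAa x g b ω

/-- The noises of a path are typical. -/
theorem trajGood : TrajGoodStmt := by
  intro r τ a ε hτ ha hε
  refine ⟨lenC 1 ε + r * (lenC a ε + ncol r / (a * ε)), add_nonneg (lenC_nonneg one_pos hε)
    (mul_nonneg (Nat.cast_nonneg _) (add_nonneg (lenC_nonneg ha hε) (by positivity))), ?_⟩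
  intro n A u ν S hn hA hAa hν h1
  set Bad : Set (Traj n r) :=
    {P | ¬ PathOK τ ((n : ℝ)⁻¹ * A⁻¹.trace) ε (stateAt P) (noiseAt A P)} with hBad
  have hFm : Measurable (Bad.indicator fun _ => (1 : ℝ)) :=
    measurable_const.indicator (measurableSet_pathOK' A τ _ ε).compl
  set E0 : Set (Fin n → ℝ) := {g | ε < |g ⬝ᵥ g / n - 1|} with hE0
  have hm0 : MeasurableSet E0 := measurableSet_lt measurable_const
    (Continuous.measurable (by simp only [dotProduct]; fun_prop))
  have iE : Integrable (fun g => E0.indicator (fun _ => (1 : ℝ)) g) (gp (Fin n)) :=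
    (integrable_const _).indicator hm0
  have h0 : ∫ g, E0.indicator (fun _ => (1 : ℝ)) g ∂gp (Fin n) ≤ lenC 1 ε / n := by
    have := gauss_len (M := (1 : Matrix (Fin n) (Fin n) ℝ)) one_pos hε hn
      (fun d => by simp) (by simp [dotProduct, Matrix.one_apply])
    simpa [hE0, dotProduct, Matrix.one_apply, (Nat.cast_pos.2 hn : (0 : ℝ) < n).ne'] using this
  show trajE A u ν S (Bad.indicator fun _ => (1 : ℝ)) ≤ _
  calc trajE A u ν S (Bad.indicator fun _ => (1 : ℝ))
      ≤ ∑ x, ν x * (lenC 1 ε / n + r * ((lenC a ε + ncol r / (a * ε)) / n)) := by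
        refine sum_le_sum fun x _ => mul_le_mul_of_nonneg_left
          ((integral_mono (traj_int hA hν hFm (abs_ind_le Bad) x) (iE.fun_add (integrable_const _))
            fun g => path_bad_le hτ ha hε hn hA hAa hν S _ x g).trans ?_) (hν x).le
        rw [integral_add iE (integrable_const _), integral_const, probReal_univ, one_smul]
        linarith
    _ = _ := by rw [← sum_mul, h1, one_mul]; ring

end Vale.Agent.P150.Fast.Dom
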