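import Vale.Agent.P150.Fast.Dom.PathLawLin

/-!
The variational bound for the law of a path seen through a side field (`TrajVarStmt`): Bayes by
translation of the side noise. Used for P150 (module M3).
-/

open MeasureTheory Real Finset
open scoped Matrix

namespace Vale.Agent.P150.Fast.Dom

variable {n r : ℕ} {A : Matrix (Fin n) (Fin n) ℝ} {u : ℝ} {ν : Conf n → ℝ}

/-- The density of the translated side noise at a state. -/
noncomputable def sideW (u : ℝ) (x : Conf n) (v : Fin n → ℝ) : ℝ :=
  exp (√u * (v ⬝ᵥ vec x) - u * n / 2)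

theorem sideW_eq (hu : 0 ≤ u) (x : Conf n) (v : Fin n → ℝ) :
    exp (∑ i, ((√u • vec x) i * v i - (√u • vec x) i ^ 2 / 2)) = sideW u x v := by
  have h : ∀ i, vec x i ^ 2 = 1 := fun i => by unfold vec; cases x i <;> simp [spin]
  rw [sideW]
  congr 1
  have e : ∀ i, (√u • vec x) i * v i - (√u • vec x) i ^ 2 / 2 = √u * (v i * vec x i) - u / 2 := fun i => by
    simp only [Pi.smul_apply, smul_eq_mul, mul_pow, sq_sqrt hu, h]
    ring
  simp only [e, sum_sub_distrib, dotProduct, mul_sum, sum_const, card_univ, Fintype.card_fin, nsmul_eq_mul]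
  ring

theorem sideW_integrable (u : ℝ) (x : Conf n) : Integrable (sideW u x) (gp (Fin n)) := by
  have h := (mgf_lin (√u • vec x)).1.mul_const (exp (-(u * n / 2)))
  refine h.congr (ae_of_all _ fun v => ?_)
  rw [sideW, sub_eq_add_neg, exp_add]
  simp only [Vale.Agent.P150.lin, Pi.smul_apply, smul_eq_mul, dotProduct, mul_sum]
  rw [sum_congr rfl fun i _ => show v i * (√u * vec x i) = √u * (v i * vec x i) by ring]

theorem sideW_mul_integrable (u : ℝ) (x : Conf n) {H : (Fin n → ℝ) → ℝ} (hH : Measurable H) {B : ℝ}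
    (hB : ∀ v, |H v| ≤ B) : Integrable (fun v => sideW u x v * H v) (gp (Fin n)) :=
  (sideW_integrable u x).mul_bdd hH.aestronglyMeasurable (ae_of_all _ fun v => hB v)

/-- Translation of the side noise. -/
theorem side_shift (hu : 0 ≤ u) (x : Conf n) {H : (Fin n → ℝ) → ℝ} (hH : Measurable H) :
    ∫ g, H (g + √u • vec x) ∂gp (Fin n) = ∫ v, sideW u x v * H v ∂gp (Fin n) := by
  rw [← integral_map (measurable_add_const _).aemeasurable hH.aestronglyMeasurable, gp_shift,
    integral_withDensity_eq_integral_toReal_smul (by fun_prop) (ae_of_all _ fun _ => ENNReal.ofReal_lt_top)]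
  refine integral_congr_ae (ae_of_all _ fun v => ?_)
  simp only [sideW_eq hu, smul_eq_mul]
  rw [ENNReal.toReal_ofReal (show (0 : ℝ) ≤ sideW u x v from (exp_pos _).le)]

theorem sideField_eq (hu : 0 ≤ u) (x : Conf n) (g : Fin n → ℝ) :
    sideField u x g = √u • (g + √u • vec x) := by
  rw [sideField, smul_add, smul_smul, mul_self_sqrt hu, add_comm]

theorem sideW_prior (hν : ∀ x, 0 < ν x) (x : Conf n) (v : Fin n → ℝ) :
    ν x * sideW u x v = (∑ z, ν z * sideW u z v) * priorAt A 0 ν (√u • v) x := by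
  have e : ∀ z : Conf n, sideW u z v = exp (-(u * n / 2))
      * exp (Vale.Agent.P150.lin (√u • v) (vec z) - 0 / 2 * (vec z ⬝ᵥ (A *ᵥ vec z))) := fun z => by
    rw [sideW, ← exp_add]
    congr 1
    simp only [Vale.Agent.P150.lin, Pi.smul_apply, smul_eq_mul, dotProduct, mul_sum]
    rw [sum_congr rfl fun i _ => show vec z i * (√u * v i) = √u * (v i * vec z i) by ring]
    simp only [zero_div, zero_mul, sum_const_zero, sub_zero]
    ring
  have h := (sum_pos (fun z _ => mul_pos (hν z) (exp_pos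
    (Vale.Agent.P150.lin (√u • v) (vec z) - 0 / 2 * (vec z ⬝ᵥ (A *ᵥ vec z))))) univ_nonempty).ne'
  simp only [priorAt, e, ← mul_left_comm (exp (-(u * n / 2))), ← mul_sum]
  rw [mul_assoc, mul_div_assoc', mul_comm (∑ z, _) (ν x * _), mul_div_cancel_right₀ _ h]

theorem phi_smul {t a b : ℝ} (ht : 0 < t) (ha : 0 < a) (hb : 0 < b) :
    Ent.phi (t * a) (t * b) = t * Ent.phi a b := by
  simp only [Ent.phi, log_mul ht.ne' ha.ne', log_mul ht.ne' hb.ne']
  ring

theorem vec_lin (h : Fin n → ℝ) (x : Conf n) : Vale.Agent.P150.lin h (vec x) = Ent.lin h x := by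
  simp only [Vale.Agent.P150.lin, Ent.lin, vec]
  exact sum_congr rfl fun i _ => mul_comm _ _

/-- The single-site entropies of the priors are bounded in the field. -/
theorem freeD_bdd (A : Matrix (Fin n) (Fin n) ℝ) (hν : ∀ x, 0 < ν x) (S : Finset (Fin n)) :
    Measurable (fun h => freeD (priorAt A 0 ν h) ⟨A, h, S⟩) ∧
      ∃ K, ∀ h, |freeD (priorAt A 0 ν h) ⟨A, h, S⟩| ≤ K := by
  refine ⟨?_, ?_⟩
  · have hp := fun z => (prior_cont (A := A) hν 0 z).measurable
    unfold freeD Ent.entSite Ent.phi Ent.pairAvg Ent.coupW Ent.lin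
    simp only
    refine Finset.measurable_sum _ fun i _ => Finset.measurable_sum _ fun x _ => ?_
    fun_prop
  set q : Conf n → ℝ := fun x => Ent.qform A (fun i => spin (x i)) / 2 with hq
  set f₀ : Conf n → ℝ := fun x => ν x * exp (-q x) with hf₀
  have hf : ∀ x, 0 < f₀ x := fun x => mul_pos (hν x) (exp_pos _)
  set M := ∑ x, f₀ x with hM
  set V := ∑ x, 1 / f₀ x with hV
  set E := ∑ x, exp (q x) with hE
  set N := ∑ x, 1 / ν x with hN
  refine ⟨(S ᶜ).card * (M ^ 2 * V * E * N), fun h => ?_⟩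
  set W := Ent.coupW A h
  set Z := ∑ z, ν z * exp (Ent.lin h z) with hZ
  have hW : ∀ x, 0 < W x := fun x => exp_pos _
  have hZp : 0 < Z := sum_pos (fun z _ => mul_pos (hν z) (exp_pos _)) univ_nonempty
  have hWe : ∀ x, W x = exp (q x) * exp (Ent.lin h x) := fun x => exp_add _ _
  have hfe : (fun z => priorAt A 0 ν h z / W z) = fun z => 1 / Z * f₀ z := by
    funext z
    simp only [priorAt, vec_lin, zero_div, zero_mul, sub_zero, hWe, hf₀, exp_neg, ← hZ]
    field_simp
  have hpair : ∀ i x, Ent.pairAvg W (fun z => 1 / Z * f₀ z) i x = 1 / Z * Ent.pairAvg W f₀ i x := fun i x => by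
    simp only [Ent.pairAvg]; ring
  have hb : ∀ i x, Ent.phi (f₀ x) (Ent.pairAvg W f₀ i x) ≤ M ^ 2 * V := fun i x => by
    have hc := Ent.pairAvg_pos hW hf i x
    refine (Ent.phi_le_sq_div (hf x) hc).trans ?_
    have hle : ∀ y, f₀ y ≤ M := fun y => single_le_sum (fun z _ => (hf z).le) (mem_univ y)
    have hge : ∀ y, 1 / V ≤ f₀ y := fun y => by
      rw [div_le_iff₀ (sum_pos (fun z _ => one_div_pos.2 (hf z)) univ_nonempty)]
      have := mul_le_mul_of_nonneg_left
        (single_le_sum (f := fun z => 1 / f₀ z) (fun z _ => (one_div_pos.2 (hf z)).le) (mem_univ y)) (hf y).le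
      rwa [mul_one_div, div_self (hf y).ne'] at this
    have hs : 0 < W x + W (flipAt x i) := add_pos (hW _) (hW _)
    have c1 : Ent.pairAvg W f₀ i x ≤ M := by
      rw [Ent.pairAvg, div_le_iff₀ hs]
      linarith [mul_le_mul_of_nonneg_left (hle x) (hW x).le,
        mul_le_mul_of_nonneg_left (hle (flipAt x i)) (hW (flipAt x i)).le]
    have c2 : 1 / V ≤ Ent.pairAvg W f₀ i x := by
      rw [Ent.pairAvg, le_div_iff₀ hs]
      linarith [mul_le_mul_of_nonneg_left (hge x) (hW x).le,
        mul_le_mul_of_nonneg_left (hge (flipAt x i)) (hW (flipAt x i)).le]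
    have hVp : 0 < V := sum_pos (fun z _ => one_div_pos.2 (hf z)) univ_nonempty
    have h2 : (f₀ x - Ent.pairAvg W f₀ i x) ^ 2 ≤ M ^ 2 :=
      sq_le_sq' (by linarith [(hf x).le]) (by linarith [hle x])
    rw [div_le_iff₀ hc]
    have h3 : 1 ≤ V * Ent.pairAvg W f₀ i x := by rwa [mul_comm, ← div_le_iff₀ hVp]
    nlinarith [sq_nonneg M]
  have hWZ : ∑ x, W x ≤ E * (N * Z) := by
    rw [hE, sum_mul]
    refine sum_le_sum fun x _ => ?_
    rw [hWe]
    refine mul_le_mul_of_nonneg_left ?_ (exp_pos _).le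
    have h1 : ν x * exp (Ent.lin h x) ≤ Z :=
      single_le_sum (f := fun z => ν z * exp (Ent.lin h z)) (fun z _ => (mul_pos (hν z) (exp_pos _)).le) (mem_univ x)
    calc exp (Ent.lin h x) = 1 / ν x * (ν x * exp (Ent.lin h x)) := by field_simp [(hν x).ne']
      _ ≤ N * Z := mul_le_mul (single_le_sum (f := fun z => 1 / ν z) (fun z _ => (one_div_pos.2 (hν z)).le)
          (mem_univ x)) h1 (mul_pos (hν x) (exp_pos _)).le (sum_nonneg fun z _ => (one_div_pos.2 (hν z)).le)
  have hD : freeD (priorAt A 0 ν h) ⟨A, h, S⟩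
      = 1 / Z * ∑ i ∈ Sᶜ, ∑ x, W x * Ent.phi (f₀ x) (Ent.pairAvg W f₀ i x) := by
    simp only [freeD, Ent.entSite, show Ent.coupW A h = W from rfl, hfe, hpair, fun z => congrFun hfe z, mul_sum]
    refine sum_congr rfl fun i _ => sum_congr rfl fun x _ => ?_
    rw [phi_smul (one_div_pos.2 hZp) (hf x) (Ent.pairAvg_pos hW hf i x)]
    ring
  rw [hD, abs_of_nonneg (mul_nonneg (one_div_pos.2 hZp).le (sum_nonneg fun i _ => sum_nonneg fun x _ =>
    mul_nonneg (hW x).le (Ent.phi_nonneg (hf x) (Ent.pairAvg_pos hW hf i x))))]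
  have hs : ∀ i ∈ Sᶜ, ∑ x, W x * Ent.phi (f₀ x) (Ent.pairAvg W f₀ i x) ≤ M ^ 2 * V * (E * (N * Z)) := fun i _ => by
    refine (sum_le_sum fun x _ => mul_le_mul_of_nonneg_left (hb i x) (hW x).le).trans ?_
    rw [← sum_mul, mul_comm]
    exact mul_le_mul_of_nonneg_left hWZ (mul_nonneg (sq_nonneg _) (sum_nonneg fun z _ => (one_div_pos.2 (hf z)).le))
  refine (mul_le_mul_of_nonneg_left ((sum_le_card_nsmul _ _ _ hs)) (one_div_pos.2 hZp).le).trans_eq ?_
  rw [nsmul_eq_mul]
  field_simp

theorem trajVar : TrajVarStmt := by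
  intro n r A u ν S hA hu hν h1 Φ hΦ ⟨B, hB⟩
  set fld : (Fin n → ℝ) → Fin n → ℝ := fun v => √u • v with hfld
  have hfm : Measurable fld := (continuous_const_smul √u).measurable
  set Ψ : Conf n → (Fin n → ℝ) → (Fin r → (Fin n → ℝ) × Conf n) → ℝ :=
    fun x v ω => Φ (x, v - √u • vec x, ω) with hΨ
  have hΨm : ∀ x, Measurable (Function.uncurry (Ψ x)) := fun x =>
    hΦ.comp (measurable_const.prodMk ((measurable_fst.sub_const _).prodMk measurable_snd))
  have hEm : ∀ x, Measurable (Function.uncurry fun v ω => exp (Ψ x v ω)) := fun x => (hΨm x).exp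
  have hEb : ∀ x v ω, |exp (Ψ x v ω)| ≤ exp B := fun x v ω => by
    rw [abs_of_pos (exp_pos _)]; exact exp_le_exp.2 (abs_le.1 (hB _)).2
  set pP : Conf n → (Fin n → ℝ) → ℝ := fun x v =>
    pathE (pR (priorAt A 0 ν (fld v))) (stepsOf A 0 (fld v) S) x (Ψ x v) with hpP
  set pQ : Conf n → (Fin n → ℝ) → ℝ := fun x v =>
    pathE qR (stepsOf A 0 (fld v) S) x (fun ω => exp (Ψ x v ω)) with hpQ
  have mP := fun x => pR_path_meas hA hν hfm S (hΨm x) (M := B) (fun v ω => hB _) x
  have mQ := fun x => qR_path_meas hA hfm S (hEm x) (M := exp B) (hEb x) x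
  set D : (Fin n → ℝ) → ℝ := fun v => freeD (priorAt A 0 ν (fld v)) ⟨A, fld v, S⟩ with hD
  obtain ⟨hDm', K, hDK⟩ := freeD_bdd A hν S
  have hDm : Measurable D := hDm'.comp hfm
  have eP : trajE A u ν S Φ = ∫ v, ∑ x, ν x * (sideW u x v * pP x v) ∂gp (Fin n) := by
    rw [integral_finsetSum _ fun x _ => (sideW_mul_integrable u x (mP x).1 (mP x).2).const_mul _, trajE]
    refine sum_congr rfl fun x _ => ?_
    rw [integral_const_mul, ← side_shift hu x (mP x).1]
    congr 1
    refine integral_congr_ae (ae_of_all _ fun g => ?_)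
    simp only [hpP, hfld, hΨ, ← sideField_eq hu, add_sub_cancel_right]
  have eD : trajD A u ν S r = ∫ v, (r : ℝ) * ∑ x, ν x * (sideW u x v * D v) ∂gp (Fin n) := by
    rw [integral_const_mul, integral_finsetSum _ fun x _ =>
      (sideW_mul_integrable u x hDm fun v => hDK _).const_mul _, trajD]
    congr 1
    refine sum_congr rfl fun x _ => ?_
    rw [integral_const_mul, ← side_shift hu x hDm]
    congr 1
    refine integral_congr_ae (ae_of_all _ fun g => ?_)
    simp only [hD, hfld, ← sideField_eq hu]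
  set c := ∫ v, ∑ x, ν x * (sideW u x v * pQ x v) ∂gp (Fin n) with hc
  have ec : c = ∑ x, ν x * ∫ g, pathE qR (stepsOf A 0 (sideField u x g) S) x
      (fun ω => exp (Φ (x, g, ω))) ∂gp (Fin n) := by
    rw [hc, integral_finsetSum _ fun x _ => (sideW_mul_integrable u x (mQ x).1 (mQ x).2).const_mul _]
    refine sum_congr rfl fun x _ => ?_
    rw [integral_const_mul, ← side_shift hu x (mQ x).1]
    congr 1
    refine integral_congr_ae (ae_of_all _ fun g => ?_)
    simp only [hpQ, hfld, hΨ, ← sideField_eq hu, add_sub_cancel_right]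
  have hmass : ∫ v, ∑ x, ν x * sideW u x v ∂gp (Fin n) = 1 := by
    rw [integral_finsetSum _ fun x _ => (sideW_integrable u x).const_mul _]
    refine Eq.trans (sum_congr rfl fun x _ => ?_) h1
    have := side_shift (H := fun _ => (1 : ℝ)) hu x measurable_const
    simp only [integral_const, probReal_univ, one_smul, mul_one] at this
    rw [integral_const_mul, ← this, mul_one]
  have hlow : ∀ x v, exp (-B) ≤ pQ x v := fun x v => by
    have h := pathE_mono (stepsOf A 0 (fld v) S : Fin r → Step n) (steps_ok_q hA _) (fun _ => exp (-B))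
      (fun ω => exp (Ψ x v ω)) measurable_const ((hEm x).comp (measurable_const.prodMk measurable_id))
      (exp (-B)) (exp B) (fun _ => (abs_of_pos (exp_pos _)).le) (hEb x v)
      (fun ω => exp_le_exp.2 (abs_le.1 (hB _)).1) x
    rwa [pathE_const _ (steps_ok_q hA _)] at h
  have hI : ∀ x, exp (-B) ≤ ∫ g, pathE qR (stepsOf A 0 (sideField u x g) S) x
      (fun ω => exp (Φ (x, g, ω))) ∂gp (Fin n) := fun x => by
    have hsm := qR_path_meas (r := r) hA (side_cont u x).measurable S
      (F := fun g ω => exp (Φ (x, g, ω))) ((hΦ.comp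
        (measurable_const.prodMk (measurable_fst.prodMk measurable_snd))).exp) (M := exp B)
      (fun g ω => by rw [abs_of_pos (exp_pos _)]; exact exp_le_exp.2 (abs_le.1 (hB _)).2) x
    have h := integral_mono (μ := gp (Fin n)) (integrable_const (exp (-B)))
      (Integrable.of_bound hsm.1.aestronglyMeasurable _ (ae_of_all _ hsm.2)) fun g => ?_
    · rwa [integral_const, probReal_univ, one_smul] at h
    · have h := hlow x (g + √u • vec x)
      simpa [hpQ, hfld, hΨ, ← sideField_eq hu] using h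
  have hcp : 0 < c := by
    rw [ec]; exact sum_pos (fun x _ => mul_pos (hν x) ((exp_pos _).trans_le (hI x))) univ_nonempty
  have key : trajE A u ν S Φ ≤ trajD A u ν S r + log c := by
    have iD : Integrable (fun v => (r : ℝ) * ∑ x, ν x * (sideW u x v * D v)) (gp (Fin n)) :=
      (integrable_finsetSum _ fun x _ => (sideW_mul_integrable u x hDm fun v => hDK _).const_mul _).const_mul _
    have iL : Integrable (fun v => (log c - 1) * ∑ x, ν x * sideW u x v) (gp (Fin n)) :=
      (integrable_finsetSum _ fun x _ => (sideW_integrable u x).const_mul _).const_mul _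
    have iQ : Integrable (fun v => 1 / c * ∑ x, ν x * (sideW u x v * pQ x v)) (gp (Fin n)) :=
      (integrable_finsetSum _ fun x _ => (sideW_mul_integrable u x (mQ x).1 (mQ x).2).const_mul _).const_mul _
    rw [eP]
    refine (integral_mono (integrable_finsetSum _ fun x _ =>
      (sideW_mul_integrable u x (mP x).1 (mP x).2).const_mul _) ((iD.fun_add iL).fun_add iQ) fun v => ?_).trans_eq ?_
    · set pr := priorAt A 0 ν (fld v)
      set Z := ∑ z, ν z * sideW u z v
      have hZ : 0 < Z := sum_pos (fun z _ => mul_pos (hν z) (exp_pos _)) univ_nonempty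
      have hz : ∀ H : Conf n → ℝ, ∑ x, ν x * (sideW u x v * H x) = Z * ∑ x, pr x * H x := fun H => by
        rw [mul_sum]
        exact sum_congr rfl fun x _ => by rw [← mul_assoc, sideW_prior (A := A) hν x v]; ring
      have hpv := pathVar n r pr (stepsOf A 0 (fld v) S) (prior_pos hν 0 _) (prior_sum hν 0 _)
        (fun t => by simpa [stepsOf] using hA) (fun x => Ψ x v)
        (fun x => (hΨm x).comp (measurable_const.prodMk measurable_id)) ⟨B, fun x ω => hB _⟩
      simp only [lawE, stepsOf, sub_zero, one_smul, sum_const, card_univ, Fintype.card_fin, nsmul_eq_mul] at hpv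
      set Q := ∑ x, pr x * pQ x v with hQ
      have hQp : 0 < Q := sum_pos (fun x _ => mul_pos (prior_pos hν 0 _ x) ((exp_pos _).trans_le (hlow x v)))
        univ_nonempty
      have hl := log_le_sub_one_of_pos (div_pos hQp hcp)
      rw [log_div hQp.ne' hcp.ne'] at hl
      have hpv' : ∑ x, pr x * pP x v ≤ (r : ℝ) * D v + log Q := hpv
      simp only [hz, ← sum_mul, mul_one, prior_sum (A := A) hν 0 (fld v), pr]
      have hfin : ∑ x, priorAt A 0 ν (fld v) x * pP x v ≤ r * D v + (log c - 1) + Q / c := by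
        linarith
      refine (mul_le_mul_of_nonneg_left hfin hZ.le).trans_eq ?_
      rw [hQ]; ring
    · rw [integral_add (iD.fun_add iL) iQ, integral_add iD iL, ← eD, integral_const_mul, hmass,
        integral_const_mul, ← hc, one_div, inv_mul_cancel₀ hcp.ne']
      ring
  refine key.trans ?_
  rw [add_assoc]
  refine add_le_add le_rfl ?_
  set U := ∑ x, (1 / 2 : ℝ) ^ n * ∫ g, pathE qR (stepsOf A 0 (sideField u x g) S) x
      (fun ω => exp (Φ (x, g, ω))) ∂gp (Fin n) with hU
  have hU0 : 0 < U := sum_pos (fun x _ => mul_pos (by positivity) ((exp_pos _).trans_le (hI x))) univ_nonempty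
  have hle : c ≤ 2 ^ n * U := by
    rw [ec, hU, mul_sum]
    refine sum_le_sum fun x _ => ?_
    rw [← mul_assoc, ← mul_pow, show (2 : ℝ) * (1 / 2) = 1 by norm_num, one_pow]
    refine mul_le_mul_of_nonneg_right ?_ ((exp_pos _).trans_le (hI x)).le
    rw [← h1]; exact single_le_sum (fun z _ => (hν z).le) (mem_univ x)
  calc log c ≤ log (2 ^ n * U) := log_le_log hcp hle
    _ = n * log 2 + log U := by rw [log_mul (by positivity) hU0.ne', log_pow]

end Vale.Agent.P150.Fast.Dom
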