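import Vale.Agent.P150.Fast.Dom.Main
import Vale.Agent.P150.Fast.Dom.PathLawVar
import Vale.Agent.P150.Fast.Dom.PathLawNoise

/-!
The master inequality of module M3 of P150, without hypotheses.
-/

namespace Vale.Agent.P150.Fast.Dom

/-- The master inequality. -/
theorem domThm {β : ℝ} (hβ : 0 ≤ β) (hβ1 : β < 1) : DomStmt β :=
  domStmt hβ hβ1 trajLin trajVar trajGood

end Vale.Agent.P150.Fast.Dom
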