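import Vale.Agent.P150.Fast.Dom.GoodPart

/-!
The product of the site models has mass at most one. Used for P150 (module M3).
-/

open MeasureTheory ProbabilityTheory Real Finset
open scoped Matrix ENNReal

namespace Vale.Agent.P150.Fast.Dom

variable {n r : ℕ} {β W u Bd : ℝ}

theorem measurable_colOf (k : Fin (ncol r)) :
    Measurable fun p : Site r => colOf (fun b => spin (p.1 b)) p.2.1 k := by
  simp only [colOf]
  split
  · fun_prop
  · exact (measurable_of_finite spin).comp (by fun_prop)

theorem measurable_aSite (θ : Coef (ncol r)) (k : Fin (ncol r)) :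
    Measurable fun p : Site r => aSite (shift β) θ p k := by
  refine ((measurable_colOf k).const_mul _).add (Finset.measurable_sum _ fun l _ => ?_)
  refine ((by fun_prop : Measurable fun p : Site r => p.2.2 l).add ?_).const_mul _
  exact Finset.measurable_sum _ fun c _ =>
    (Finset.measurable_sum _ fun j _ => (measurable_colOf j).const_mul _).const_mul _

theorem measurable_flip (θ : Coef (ncol r)) (free : Bool) :
    Measurable (flipW (r := r) (shift β) u θ free) := by
  refine (Finset.measurable_prod _ fun t _ => ?_).const_mul _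
  cases free with
  | true =>
    simp only [if_true, sig, ySite, hSite]
    have hy := ((measurable_aSite (β := β) θ (xcol t.castSucc)).add
      (measurable_aSite (β := β) θ (ecol t.succ))).add
      (((measurable_of_finite spin).comp (by fun_prop : Measurable fun p : Site r => p.1 0)).const_mul u
        |>.add ((by fun_prop : Measurable fun p : Site r => p.2.1 0).const_mul √u))
    exact (((measurable_of_finite spin).comp (by fun_prop : Measurable fun p : Site r => p.1 t.succ)).mul
      hy).exp.div (hy.exp.add hy.neg.exp)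
  | false =>
    simp only [Bool.false_eq_true, if_false]
    exact Measurable.ite (measurableSet_eq_fun (by fun_prop) (by fun_prop)) measurable_const
      measurable_const

/-- The model expectation as an integral of nonnegative functions. -/
theorem lintegral_model (θ : Coef (ncol r)) (free : Bool) {f : Site r → ℝ} (hf : Measurable f)
    (hfB : ∀ p, |f p| ≤ Bd) (hm : modE β (shift β) W u θ free (fun p => exp (f p)) ≤ 1) :
    ∑ x : Fin (r + 1) → Bool, ∫⁻ e, ∫⁻ q,
      ENNReal.ofReal (flipW (shift β) u θ free (x, modNoise W e, fun l => β * q l)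
        * exp (f (x, modNoise W e, fun l => β * q l))) ∂gp (Fin (ncol r)) ∂gp (Fin (r + 1)) ≤ 1 := by
  classical
  set G : (Fin (r + 1) → Bool) → (Fin (r + 1) → ℝ) × (Fin (ncol r) → ℝ) → ℝ := fun x p =>
    flipW (shift β) u θ free (x, modNoise W p.1, fun l => β * p.2 l)
      * exp (f (x, modNoise W p.1, fun l => β * p.2 l))
  have hmap : ∀ x : Fin (r + 1) → Bool, Measurable fun p : (Fin (r + 1) → ℝ) × (Fin (ncol r) → ℝ) =>
      ((x, modNoise W p.1, fun l => β * p.2 l) : Site r) := fun x =>
    measurable_const.prodMk (Measurable.prodMk (measurable_pi_lambda _ fun b => by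
      cases b using Fin.cases <;> simp only [modNoise, Fin.cons_zero, Fin.cons_succ] <;> fun_prop)
      (by fun_prop))
  have hfl : ∀ p : Site r, 0 ≤ flipW (shift β) u θ free p ∧ flipW (shift β) u θ free p ≤ 1 := fun p => by
    have hfac : ∀ t : Fin r, 0 ≤ (if free = true then sig (p.1 t.succ) (ySite (shift β) u θ p t)
        else if p.1 t.succ = p.1 t.castSucc then 1 else 0) ∧ (if free = true then
          sig (p.1 t.succ) (ySite (shift β) u θ p t)
        else if p.1 t.succ = p.1 t.castSucc then 1 else 0) ≤ 1 := fun t => by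
      split_ifs
      · refine ⟨div_nonneg (exp_pos _).le (by positivity), ?_⟩
        rw [sig, div_le_one (by positivity)]
        cases p.1 t.succ <;> simp [spin] <;> linarith [exp_pos (ySite (shift β) u θ p t),
          exp_pos (-ySite (shift β) u θ p t)]
      · norm_num
      · norm_num
    exact ⟨mul_nonneg (by norm_num) (prod_nonneg fun t _ => (hfac t).1),
      mul_le_one₀ (by norm_num) (prod_nonneg fun t _ => (hfac t).1)
        (prod_le_one (fun t _ => (hfac t).1) fun t _ => (hfac t).2)⟩
  have hGm : ∀ x, Measurable (G x) := fun x =>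
    ((measurable_flip θ free).comp (hmap x)).mul (measurable_exp.comp (hf.comp (hmap x)))
  have hG0 : ∀ x p, 0 ≤ G x p := fun x p => mul_nonneg (hfl _).1 (exp_pos _).le
  have hGi : ∀ x, Integrable (G x) ((gp (Fin (r + 1))).prod (gp (Fin (ncol r)))) := fun x =>
    (integrable_const (exp Bd)).mono' (hGm x).aestronglyMeasurable (ae_of_all _ fun p => by
      rw [Real.norm_eq_abs, abs_of_nonneg (hG0 x p)]
      exact (mul_le_of_le_one_left (exp_pos _).le (hfl _).2).trans (exp_le_exp.2 (abs_le.1 (hfB _)).2))
  have e : ∀ x, ∫⁻ e, ∫⁻ q, ENNReal.ofReal (G x (e, q)) ∂gp (Fin (ncol r)) ∂gp (Fin (r + 1))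
      = ENNReal.ofReal (∫ e, ∫ q, G x (e, q) ∂gp (Fin (ncol r)) ∂gp (Fin (r + 1))) := fun x => by
    rw [← lintegral_prod _ (hGm x).ennreal_ofReal.aemeasurable,
      ← ofReal_integral_eq_lintegral_ofReal (hGi x) (ae_of_all _ (hG0 x)), integral_prod _ (hGi x)]
  simp only [show ∀ x e q, flipW (shift β) u θ free (x, modNoise W e, fun l => β * q l)
    * exp (f (x, modNoise W e, fun l => β * q l)) = G x (e, q) from fun _ _ _ => rfl, e]
  rw [← ENNReal.ofReal_sum_of_nonneg fun x _ => integral_nonneg fun e => integral_nonneg fun q => hG0 x _]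
  exact ENNReal.ofReal_le_one.2 hm

/-- The standard variables of the model at one site. -/
theorem esOf_modNoise (W : ℝ) (g : Fin (r + 1) × Fin n → ℝ) (i : Fin n) :
    (fun b => esOf W g b i) = modNoise W fun b => g (b, i) := by
  funext b
  cases b using Fin.cases <;> simp [esOf, modNoise]

/-- The weight of the product model. -/
noncomputable def modProd (β W u : ℝ) (S : Finset (Fin n)) (f : Bool → Coef (ncol r) → Site r → ℝ)
    (θ : Coef (ncol r)) (x : Fin (r + 1) → Conf n) (g : Fin (r + 1) × Fin n → ℝ)
    (z : Fin (ncol r) × Fin n → ℝ) : ℝ :=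
  ∏ i, (flipW (shift β) u θ (decide (i ∉ S))
      (siteOf x (esOf W g) (fun l b => β * z (l, b)) i)
    * exp (f (decide (i ∉ S)) θ (siteOf x (esOf W g) (fun l b => β * z (l, b)) i)))

theorem measurable_modProd {f : Bool → Coef (ncol r) → Site r → ℝ} (hf : ∀ b θ, Measurable (f b θ))
    (S : Finset (Fin n)) (θ : Coef (ncol r)) (x : Fin (r + 1) → Conf n) {α : Type*} [MeasurableSpace α]
    {g : α → Fin (r + 1) × Fin n → ℝ} (hg : Measurable g) {z : α → Fin (ncol r) × Fin n → ℝ}
    (hz : Measurable z) : Measurable fun a => modProd β W u S f θ x (g a) (z a) := by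
  refine Finset.measurable_prod _ fun i _ => ?_
  have hs := measurable_siteOf x ((continuous_esOf W).measurable.comp hg)
    (show Measurable fun a l b => β * z a (l, b) by fun_prop) i
  exact ((measurable_flip θ _).comp hs).mul (measurable_exp.comp ((hf _ θ).comp hs))

theorem flipW_nonneg (θ : Coef (ncol r)) (free : Bool) (p : Site r) :
    0 ≤ flipW (shift β) u θ free p := by
  refine mul_nonneg (by norm_num) (prod_nonneg fun t _ => ?_)
  split_ifs <;> first | exact div_nonneg (exp_pos _).le (by positivity) | norm_num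

/-- The product model has mass at most one. -/
theorem lintegral_modProd {f : Bool → Coef (ncol r) → Site r → ℝ} (hf : ∀ b θ, Measurable (f b θ))
    (hfB : ∀ b θ p, |f b θ p| ≤ Bd) (S : Finset (Fin n)) (θ : Coef (ncol r))
    (hm : ∀ b, modE β (shift β) W u θ b (fun p => exp (f b θ p)) ≤ 1) :
    ∑ x : Fin (r + 1) → Conf n, ∫⁻ g, ∫⁻ z, ENNReal.ofReal (modProd β W u S f θ x g z)
      ∂gp (Fin (ncol r) × Fin n) ∂gp (Fin (r + 1) × Fin n) ≤ 1 := by
  classical
  set H : Fin n → (Fin (r + 1) → Bool) → (Fin (r + 1) → ℝ) → (Fin (ncol r) → ℝ) → ℝ≥0∞ :=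
    fun i a e q => ENNReal.ofReal (flipW (shift β) u θ (decide (i ∉ S))
      (a, modNoise W e, fun l => β * q l)
      * exp (f (decide (i ∉ S)) θ (a, modNoise W e, fun l => β * q l)))
  have hHm : ∀ i a, Measurable fun p : (Fin (r + 1) → ℝ) × (Fin (ncol r) → ℝ) => H i a p.1 p.2 := by
    intro i a
    have hmap : Measurable fun p : (Fin (r + 1) → ℝ) × (Fin (ncol r) → ℝ) =>
        ((a, modNoise W p.1, fun l => β * p.2 l) : Site r) :=
      measurable_const.prodMk (Measurable.prodMk (measurable_pi_lambda _ fun b => by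
        cases b using Fin.cases <;> simp only [modNoise, Fin.cons_zero, Fin.cons_succ] <;> fun_prop)
        (by fun_prop))
    exact (((measurable_flip θ _).comp hmap).mul
      (measurable_exp.comp ((hf _ θ).comp hmap))).ennreal_ofReal
  have e1 : ∀ x g z, ENNReal.ofReal (modProd β W u S f θ x g z)
      = ∏ i, H i (fun b => x b i) (fun b => g (b, i)) (fun l => z (l, i)) := fun x g z => by
    rw [modProd, ENNReal.ofReal_prod_of_nonneg fun i _ =>
      mul_nonneg (flipW_nonneg θ _ _) (exp_pos _).le]
    refine prod_congr rfl fun i _ => ?_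
    simp only [H, siteOf, esOf_modNoise]
  have e2 : ∀ (x : Fin (r + 1) → Conf n),
      ∫⁻ g, ∫⁻ z, ENNReal.ofReal (modProd β W u S f θ x g z) ∂gp (Fin (ncol r) × Fin n)
        ∂gp (Fin (r + 1) × Fin n)
      = ∏ i, ∫⁻ e, ∫⁻ q, H i (fun b => x b i) e q ∂gp (Fin (ncol r)) ∂gp (Fin (r + 1)) := fun x => by
    rw [lintegral_congr fun g => lintegral_congr fun z => e1 x g z]
    have e3 : ∀ g : Fin (r + 1) × Fin n → ℝ,
        ∫⁻ z, ∏ i, H i (fun b => x b i) (fun b => g (b, i)) (fun l => z (l, i)) ∂gp (Fin (ncol r) × Fin n)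
          = ∏ i, ∫⁻ q, H i (fun b => x b i) (fun b => g (b, i)) q ∂gp (Fin (ncol r)) := fun g =>
      lintegral_cols (κ := Fin (ncol r)) (fun i => H i (fun b => x b i) (fun b => g (b, i))) fun i =>
        (hHm i (fun b => x b i)).comp
          (f := fun q : Fin (ncol r) → ℝ => ((fun b => g (b, i)), q)) (measurable_const.prodMk measurable_id)
    rw [lintegral_congr e3]
    exact lintegral_cols (κ := Fin (r + 1))
      (fun i e => ∫⁻ q, H i (fun b => x b i) e q ∂gp (Fin (ncol r)))
      fun i => (hHm i (fun b => x b i)).lintegral_prod_right'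
  simp only [e2]
  rw [← (Equiv.piComm fun (_ : Fin n) (_ : Fin (r + 1)) => Bool).sum_comp
    (fun x : Fin (r + 1) → Conf n => ∏ i, ∫⁻ e, ∫⁻ q, H i (fun b => x b i) e q
      ∂gp (Fin (ncol r)) ∂gp (Fin (r + 1)))]
  simp only [Equiv.piComm_apply, Function.swap]
  rw [← Fintype.prod_sum fun i a => ∫⁻ e, ∫⁻ q, H i a e q ∂gp (Fin (ncol r)) ∂gp (Fin (r + 1))]
  exact Finset.prod_le_one' fun i _ => lintegral_model θ _ (hf _ θ) (hfB _ θ) (hm _)

end Vale.Agent.P150.Fast.Dom
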