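import Vale.Agent.P150.Fast.Dom.RefExp
import Vale.Agent.P150.Fast.Dom.ModelProd

/-!
The reference path average of the exponential of the good part of a normalised site test is at most
`exp (small * n)` times the number of cells, in mean over the disorder. Used for P150 (module M3).
-/

open MeasureTheory ProbabilityTheory Real Finset
open scoped Matrix ENNReal

namespace Vale.Agent.P150.Fast.Dom

variable {n r : ℕ} {τ δ C β W η ε u Bd : ℝ}

/-- The integrand after the change of measure: a sum over the cells. -/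
noncomputable def cellSum (hτ : 0 < τ) (δ C β W u E : ℝ) (S : Finset (Fin n))
    (f : Bool → Coef (ncol r) → Site r → ℝ) (x : Fin (r + 1) → Conf n) (d : Dis n)
    (g : Fin (r + 1) × Fin n → ℝ) (q : Fin (ncol r) × Fin n → ℝ) : ℝ≥0∞ :=
  ∑ θ ∈ triNet δ C (ncol r), ENNReal.ofReal E
    * (ENNReal.ofReal (exp (tiltOf hτ β W (wcols x (esOf W g)) d))
      * ENNReal.ofReal (modProd β W u S f θ x g
          fun k => (gsSys hτ (wcols x (esOf W g))).innov d q k.1 k.2))

theorem measurable_tilt {α : Type*} [MeasurableSpace α] (hτ : 0 < τ) {D : α → Dis n} (hD : Measurable D)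
    {w : α → Fin (ncol r) → Fin n → ℝ} (hw : Measurable w) :
    Measurable fun a => tiltOf hτ β W (w a) (D a) := by
  refine Finset.measurable_sum _ fun l _ => ?_
  have hgl : Measurable fun a => (gsSys hτ (w a)).e l := (measurable_gs hw l).1
  have h1 : Measurable fun a => (gsSys hτ (w a)).xi (D a) l :=
    measurable_dot hgl (measurable_mulVec (measurable_goe hD) hgl)
  have h2 := measurable_dot hgl hgl
  exact (h1.const_mul _).neg.sub (h2.const_mul _)

theorem measurable_innovK {α : Type*} [MeasurableSpace α] (hτ : 0 < τ) {D : α → Dis n}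
    (hD : Measurable D) {w : α → Fin (ncol r) → Fin n → ℝ} (hw : Measurable w)
    {q : α → Fin (ncol r) × Fin n → ℝ} (hq : Measurable q) :
    Measurable fun a => fun k : Fin (ncol r) × Fin n => (gsSys hτ (w a)).innov (D a) (q a) k.1 k.2 := by
  refine measurable_pi_lambda _ fun k => ?_
  have h := (measurable_pi_apply k.2).comp (measurable_innovOf hτ 1 hD hw hq k.1)
  simpa [innovOf, Function.comp_def] using h

theorem measurable_cellSum (hτ : 0 < τ) (E : ℝ) (S : Finset (Fin n))
    {f : Bool → Coef (ncol r) → Site r → ℝ} (hf : ∀ b θ, Measurable (f b θ))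
    (x : Fin (r + 1) → Conf n) :
    Measurable fun p : (Dis n × (Fin (r + 1) × Fin n → ℝ)) × (Fin (ncol r) × Fin n → ℝ) =>
      cellSum hτ δ C β W u E S f x p.1.1 p.1.2 p.2 := by
  have hD : Measurable fun p : (Dis n × (Fin (r + 1) × Fin n → ℝ)) × (Fin (ncol r) × Fin n → ℝ) =>
      p.1.1 := measurable_fst.comp measurable_fst
  have hG : Measurable fun p : (Dis n × (Fin (r + 1) × Fin n → ℝ)) × (Fin (ncol r) × Fin n → ℝ) =>
      p.1.2 := measurable_snd.comp measurable_fst
  have hw : Measurable fun p : (Dis n × (Fin (r + 1) × Fin n → ℝ)) × (Fin (ncol r) × Fin n → ℝ) =>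
      wcols x (esOf W p.1.2) :=
    ((continuous_wcols x).comp (continuous_esOf W)).measurable.comp hG
  have h1 := (measurable_tilt (β := β) (W := W) hτ hD hw).exp.ennreal_ofReal
  have h2 := fun θ => (measurable_modProd (β := β) (W := W) (u := u) hf S θ x hG
    (measurable_innovK hτ hD hw measurable_snd)).ennreal_ofReal
  exact Finset.measurable_sum _ fun θ _ => (h1.mul (h2 θ)).const_mul _

/-- The pointwise step, after Jensen's inequality in the auxiliary noise. -/
theorem pointwise (hτ : 0 < τ) (hτ1 : τ ≤ 1) (hδ : 0 < δ) (hδ1 : δ ≤ 1) (hn : 1 ≤ n) (hβ : 0 ≤ β)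
    (hβ1 : β ≤ 1) (hη : η < 1) (hW : 1 / 6 ≤ W) (hW2 : W ≤ 2) (hε : 0 < ε)
    (hετ : τ ^ 2 + 2 * ε ≤ W) (hε1 : ε ≤ 1) (hC : 5 ≤ C)
    (hCR : ((1 + ncol r * 2) / τ) ^ ncol r ≤ C) (hBd : 0 ≤ Bd) (S : Finset (Fin n))
    {f : Bool → Coef (ncol r) → Site r → ℝ} (hf : ∀ b θ, Measurable (f b θ))
    (hfB : ∀ b θ p, |f b θ p| ≤ Bd) {d : Dis n} (hd : DOK n β W η ε d)
    (x : Fin (r + 1) → Conf n) (g : Fin (r + 1) × Fin n → ℝ) :
    ENNReal.ofReal (pdens β d u W S x g
        * exp (goodMean hτ δ C β W ε S f d (pathOf (aop n β d) W x g)))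
      ≤ ENNReal.ofReal (pdens β d u W S x g) + ∫⁻ q, cellSum hτ δ C β W u
          (exp (n * ptErr r τ δ C ε)) S f x d g q ∂gp (Fin (ncol r) × Fin n) := by
  classical
  have hA := aop_posDef hη hβ hd.1
  have hC0 : 0 ≤ C := by linarith
  set e := esOf W g with he
  have hP : goodMean hτ δ C β W ε S f d (pathOf (aop n β d) W x g)
      = ∫ q, goodPart hτ δ C β W ε S f d x e q ∂gp (Fin (ncol r) × Fin n) := by
    rw [goodMean, stateAt_pathOf, noiseAt_pathOf hA]
  have hgm : Measurable fun q => goodPart hτ δ C β W ε S f d x e q :=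
    measurable_goodPart hτ hδ hC0 S hf x measurable_const measurable_const measurable_id
  set J := fun q => exp (goodPart hτ δ C β W ε S f d x e q) with hJdef
  have hJi : Integrable J (gp (Fin (ncol r) × Fin n)) :=
    (integrable_const (exp (n * Bd))).mono' hgm.exp.aestronglyMeasurable (ae_of_all _ fun q => by
      rw [Real.norm_eq_abs, abs_of_pos (exp_pos _)]
      exact exp_le_exp.2 (abs_le.1 (abs_goodPart_le hτ hBd δ C β W ε S hfB d x e q)).2)
  have hJ : exp (goodMean hτ δ C β W ε S f d (pathOf (aop n β d) W x g))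
      ≤ ∫ q, J q ∂gp (Fin (ncol r) × Fin n) := by
    rw [hP]
    exact convexOn_exp.map_integral_le continuous_exp.continuousOn isClosed_univ
      (ae_of_all _ fun q => Set.mem_univ _)
      ((integrable_const (n * Bd : ℝ)).mono' hgm.aestronglyMeasurable (ae_of_all _ fun q =>
        abs_goodPart_le hτ hBd δ C β W ε S hfB d x e q)) hJi
  have hd0 := pdens_nonneg (β := β) d u W S x g
  refine le_trans (ENNReal.ofReal_le_ofReal (mul_le_mul_of_nonneg_left hJ hd0)) ?_
  rw [ENNReal.ofReal_mul hd0,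
    ofReal_integral_eq_lintegral_ofReal hJi (ae_of_all _ fun q => (exp_pos _).le),
    ← lintegral_const_mul _ hgm.exp.ennreal_ofReal]
  have hcs : ∫⁻ q, (ENNReal.ofReal (pdens β d u W S x g) + cellSum hτ δ C β W u
      (exp (n * ptErr r τ δ C ε)) S f x d g q) ∂gp (Fin (ncol r) × Fin n)
      = ENNReal.ofReal (pdens β d u W S x g) + ∫⁻ q, cellSum hτ δ C β W u
          (exp (n * ptErr r τ δ C ε)) S f x d g q ∂gp (Fin (ncol r) × Fin n) := by
    rw [lintegral_add_left measurable_const, lintegral_const, measure_univ, mul_one]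
  rw [← hcs]
  refine lintegral_mono fun q => ?_
  by_cases hq : PathOK τ W ε x e ∧ auxErr hτ (wcols x e) q ≤ ε * √n
  · refine le_add_left ?_
    simp only [goodPart, Set.indicator_of_mem (show q ∈ {q' | PathOK τ W ε x e
      ∧ auxErr hτ (wcols x e) q' ≤ ε * √n} from hq)]
    rw [← ENNReal.ofReal_mul hd0, cellSum]
    refine le_trans ?_ (single_le_sum (fun θ _ => zero_le)
      (rdCoef_mem (τ := τ) hδ hC0 (kmat n β d) (wcols x e)))
    rw [← ENNReal.ofReal_mul (exp_pos _).le, ← ENNReal.ofReal_mul (exp_pos _).le, testSum, exp_sum]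
    refine ENNReal.ofReal_le_ofReal ?_
    refine le_trans (mul_le_mul_of_nonneg_right (point_bound hτ hτ1 hδ hδ1 hn hβ hβ1 hη hW hW2 hε hετ
      hε1 hC hCR S hd hq.1 hq.2) (prod_nonneg fun i _ => (exp_pos _).le)) (le_of_eq ?_)
    rw [modProd, exp_add, prod_mul_distrib, ← he,
      show innovOf hτ β (wcols x e) d q
      = fun l b => β * (gsSys hτ (wcols x e)).innov d q l b from rfl]
    ring
  · refine le_add_right (le_of_eq ?_)
    simp only [goodPart, Set.indicator_of_notMem (show q ∉ {q' | PathOK τ W ε x e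
      ∧ auxErr hτ (wcols x e) q' ≤ ε * √n} from hq)]
    simp

/-- The mean over the disorder of the sum over cells. -/
theorem cellSum_mean (hτ : 0 < τ) (E : ℝ) (S : Finset (Fin n))
    {f : Bool → Coef (ncol r) → Site r → ℝ} (hf : ∀ b θ, Measurable (f b θ))
    (x : Fin (r + 1) → Conf n) (g : Fin (r + 1) × Fin n → ℝ) :
    ∫⁻ q, ∫⁻ d, cellSum hτ δ C β W u E S f x d g q ∂disX n ∂gp (Fin (ncol r) × Fin n)
      = ∑ θ ∈ triNet δ C (ncol r), ENNReal.ofReal E * ∫⁻ z, ENNReal.ofReal (modProd β W u S f θ x g z)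
          ∂gp (Fin (ncol r) × Fin n) := by
  set w := wcols x (esOf W g)
  have h1 : ∀ θ, Measurable fun z => ENNReal.ofReal (modProd β W u S f θ x g z) := fun θ =>
    (measurable_modProd hf S θ x measurable_const measurable_id).ennreal_ofReal
  have ht : Measurable fun p : (Fin (ncol r) × Fin n → ℝ) × Dis n =>
      ENNReal.ofReal (exp (tiltOf hτ β W w p.2)) :=
    (measurable_tilt hτ measurable_snd measurable_const).exp.ennreal_ofReal
  have h3 : ∀ θ, Measurable fun p : (Fin (ncol r) × Fin n → ℝ) × Dis n =>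
      ENNReal.ofReal (exp (tiltOf hτ β W w p.2))
      * ENNReal.ofReal (modProd β W u S f θ x g fun k => (gsSys hτ w).innov p.2 p.1 k.1 k.2) := fun θ =>
    ht.mul ((measurable_modProd hf S θ x (g := fun _ : (Fin (ncol r) × Fin n → ℝ) × Dis n => g)
      measurable_const (measurable_innovK hτ measurable_snd (w := fun _ => w) measurable_const
        measurable_fst)).ennreal_ofReal)
  have h3' : ∀ θ q, Measurable fun d : Dis n => ENNReal.ofReal (exp (tiltOf hτ β W w d))
      * ENNReal.ofReal (modProd β W u S f θ x g fun k => (gsSys hτ w).innov d q k.1 k.2) := fun θ q =>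
    (h3 θ).comp (f := fun d : Dis n => (q, d)) (measurable_const.prodMk measurable_id)
  have h2 : ∀ q, ∫⁻ d, cellSum hτ δ C β W u E S f x d g q ∂disX n
      = ∑ θ ∈ triNet δ C (ncol r), ENNReal.ofReal E * ∫⁻ d,
        ENNReal.ofReal (exp (tiltOf hτ β W w d))
        * ENNReal.ofReal (modProd β W u S f θ x g fun k => (gsSys hτ w).innov d q k.1 k.2) ∂disX n := by
    intro q
    simp only [cellSum]
    rw [lintegral_finsetSum _ fun θ _ => (h3' θ q).const_mul _]
    exact sum_congr rfl fun θ _ => lintegral_const_mul _ (h3' θ q)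
  rw [lintegral_congr h2, lintegral_finsetSum _ fun θ _ => ((h3 θ).lintegral_prod_right').const_mul _]
  refine sum_congr rfl fun θ _ => ?_
  rw [lintegral_const_mul _ (h3 θ).lintegral_prod_right']
  congr 1
  exact (gsSys hτ w).innov_law _ (h1 θ)

/-- A measurable majorant of the reference average on the good disorder. -/
noncomputable def major (hτ : 0 < τ) (δ C β W u ε : ℝ) (S : Finset (Fin n))
    (f : Bool → Coef (ncol r) → Site r → ℝ) (d : Dis n) : ℝ≥0∞ :=
  1 + ∑ x, ∫⁻ g, ∫⁻ q, cellSum hτ δ C β W u (exp (n * ptErr r τ δ C ε)) S f x d g q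
    ∂gp (Fin (ncol r) × Fin n) ∂gp (Fin (r + 1) × Fin n)

theorem measurable_major (hτ : 0 < τ) (S : Finset (Fin n))
    {f : Bool → Coef (ncol r) → Site r → ℝ} (hf : ∀ b θ, Measurable (f b θ)) :
    Measurable (major hτ δ C β W u ε S f) := by
  refine Measurable.const_add ?_ 1
  refine Finset.measurable_sum _ fun x _ => ?_
  exact ((measurable_cellSum hτ (exp (n * ptErr r τ δ C ε)) S hf x).lintegral_prod_right'
    ).lintegral_prod_right'

/-- The mean of the majorant. -/
theorem major_mean (hτ : 0 < τ) (S : Finset (Fin n))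
    {f : Bool → Coef (ncol r) → Site r → ℝ} (hf : ∀ b θ, Measurable (f b θ))
    (hfB : ∀ b θ p, |f b θ p| ≤ Bd)
    (hm : ∀ b, ∀ θ ∈ triNet δ C (ncol r), modE β (shift β) W u θ b (fun p => exp (f b θ p)) ≤ 1) :
    ∫⁻ d, major hτ δ C β W u ε S f d ∂disX n
      ≤ 1 + (triNet δ C (ncol r)).card * ENNReal.ofReal (exp (n * ptErr r τ δ C ε)) := by
  classical
  set E := exp (n * ptErr r τ δ C ε) with hE
  have hT := fun x => measurable_cellSum (δ := δ) (C := C) (β := β) (W := W) (u := u) hτ E S hf x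
  have hT2 : ∀ x, Measurable fun p : Dis n × (Fin (r + 1) × Fin n → ℝ) =>
      ∫⁻ q, cellSum hτ δ C β W u E S f x p.1 p.2 q ∂gp (Fin (ncol r) × Fin n) :=
    fun x => (hT x).lintegral_prod_right'
  calc ∫⁻ d, major hτ δ C β W u ε S f d ∂disX n
      = 1 + ∑ x, ∫⁻ g, ∫⁻ q, ∫⁻ d, cellSum hτ δ C β W u E S f x d g q ∂disX n
          ∂gp (Fin (ncol r) × Fin n) ∂gp (Fin (r + 1) × Fin n) := by
        simp only [major, ← hE]
        rw [lintegral_add_left measurable_const, lintegral_const, measure_univ, mul_one,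
          lintegral_finsetSum _ fun x _ => (hT2 x).lintegral_prod_right']
        congr 1
        refine sum_congr rfl fun x _ => ?_
        rw [lintegral_lintegral_swap (hT2 x).aemeasurable]
        refine lintegral_congr fun g => lintegral_lintegral_swap ?_
        exact ((hT x).comp (f := fun p : Dis n × (Fin (ncol r) × Fin n → ℝ) => ((p.1, g), p.2))
          ((measurable_fst.prodMk measurable_const).prodMk measurable_snd)).aemeasurable
    _ = 1 + ∑ θ ∈ triNet δ C (ncol r), ENNReal.ofReal E * ∑ x, ∫⁻ g, ∫⁻ z,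
          ENNReal.ofReal (modProd β W u S f θ x g z)
          ∂gp (Fin (ncol r) × Fin n) ∂gp (Fin (r + 1) × Fin n) := by
        congr 1
        simp only [mul_sum]
        rw [sum_comm]
        refine sum_congr rfl fun x _ => ?_
        rw [lintegral_congr fun g => cellSum_mean hτ E S hf x g]
        have h4 : ∀ θ, Measurable fun g => ∫⁻ z, ENNReal.ofReal (modProd β W u S f θ x g z)
            ∂gp (Fin (ncol r) × Fin n) := fun θ =>
          (measurable_modProd hf S θ x measurable_fst measurable_snd).ennreal_ofReal.lintegral_prod_right'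
        rw [lintegral_finsetSum _ fun θ _ => (h4 θ).const_mul _]
        exact sum_congr rfl fun θ _ => lintegral_const_mul _ (h4 θ)
    _ ≤ 1 + ∑ _θ ∈ triNet δ C (ncol r), ENNReal.ofReal E * 1 :=
        add_le_add le_rfl (sum_le_sum fun θ hθ => mul_le_mul_right
          (lintegral_modProd hf hfB S θ fun b => hm b θ hθ) _)
    _ = _ := by simp [hE]

/-- On the good disorder the majorant bounds the reference average. -/
theorem refExp_le_major (hτ : 0 < τ) (hτ1 : τ ≤ 1) (hδ : 0 < δ) (hδ1 : δ ≤ 1) (hn : 1 ≤ n)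
    (hβ : 0 ≤ β) (hβ1 : β ≤ 1) (hη : η < 1) (hW : 1 / 6 ≤ W) (hW2 : W ≤ 2) (hε : 0 < ε)
    (hετ : τ ^ 2 + 2 * ε ≤ W) (hε1 : ε ≤ 1) (hC : 5 ≤ C)
    (hCR : ((1 + ncol r * 2) / τ) ^ ncol r ≤ C) (hBd : 0 ≤ Bd) (S : Finset (Fin n))
    {f : Bool → Coef (ncol r) → Site r → ℝ} (hf : ∀ b θ, Measurable (f b θ))
    (hfB : ∀ b θ p, |f b θ p| ≤ Bd) {d : Dis n} (hd : DOK n β W η ε d) :
    ENNReal.ofReal (refExp β u S d (goodMean hτ δ C β W ε S f d)) ≤ major hτ δ C β W u ε S f d := by
  have hA := aop_posDef hη hβ hd.1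
  have hWp : 0 < W := by linarith
  have hC0 : 0 ≤ C := by linarith
  have hone : (1 : ℝ≥0∞) = ∑ x : Fin (r + 1) → Conf n, ∫⁻ g, ENNReal.ofReal (pdens β d u W S x g)
      ∂gp (Fin (r + 1) × Fin n) := by
    have h0 := refExp_eq (r := r) hWp hA u S measurable_const (Φ := fun _ => 0) (B := 0) (by simp)
    simp only [refExp_zero hA, ENNReal.ofReal_one, exp_zero, mul_one] at h0
    exact h0
  rw [refExp_eq hWp hA u S (measurable_goodMean hτ hδ hC0 S hf d)
    (abs_goodMean_le hτ hBd S hfB d), major, hone, ← sum_add_distrib]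
  refine sum_le_sum fun x _ => ?_
  have hpm : Measurable fun g : Fin (r + 1) × Fin n → ℝ => ENNReal.ofReal (pdens β d u W S x g) :=
    ((continuous_pdens u W S x).comp (f := fun g : Fin (r + 1) × Fin n → ℝ => (d, g))
      (continuous_const.prodMk continuous_id)).measurable.ennreal_ofReal
  rw [← lintegral_add_left hpm]
  exact lintegral_mono fun g =>
    pointwise hτ hτ1 hδ hδ1 hn hβ hβ1 hη hW hW2 hε hετ hε1 hC hCR hBd S hf hfB hd x g

/-- Markov's inequality for the reference average. -/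
theorem refExp_markov (hτ : 0 < τ) (hτ1 : τ ≤ 1) (hδ : 0 < δ) (hδ1 : δ ≤ 1) (hn : 1 ≤ n)
    (hβ : 0 ≤ β) (hβ1 : β ≤ 1) (hη : η < 1) (hW : 1 / 6 ≤ W) (hW2 : W ≤ 2) (hε : 0 < ε)
    (hετ : τ ^ 2 + 2 * ε ≤ W) (hε1 : ε ≤ 1) (hC : 5 ≤ C)
    (hCR : ((1 + ncol r * 2) / τ) ^ ncol r ≤ C) (hBd : 0 ≤ Bd) (S : Finset (Fin n))
    {f : Bool → Coef (ncol r) → Site r → ℝ} (hf : ∀ b θ, Measurable (f b θ))
    (hfB : ∀ b θ p, |f b θ p| ≤ Bd)
    (hm : ∀ b, ∀ θ ∈ triNet δ C (ncol r), modE β (shift β) W u θ b (fun p => exp (f b θ p)) ≤ 1)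
    {T : ℝ} (hT : 0 < T) :
    (disX n).real {d | DOK n β W η ε d ∧ T < refExp β u S d (goodMean hτ δ C β W ε S f d)}
      ≤ (1 + (triNet δ C (ncol r)).card * exp (n * ptErr r τ δ C ε)) / T := by
  set G := major hτ δ C β W u ε S f with hG
  have hsub : {d | DOK n β W η ε d ∧ T < refExp β u S d (goodMean hτ δ C β W ε S f d)}
      ⊆ {d | ENNReal.ofReal T ≤ G d} := fun d hd => (ENNReal.ofReal_le_ofReal hd.2.le).trans
    (refExp_le_major hτ hτ1 hδ hδ1 hn hβ hβ1 hη hW hW2 hε hετ hε1 hC hCR hBd S hf hfB hd.1)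
  have h2 := ((mul_le_mul_right (measure_mono hsub) _).trans
    (mul_meas_ge_le_lintegral₀ (measurable_major hτ S hf).aemeasurable (ENNReal.ofReal T))).trans
    (major_mean hτ S hf hfB hm)
  have hne : (1 : ℝ≥0∞) + (triNet δ C (ncol r)).card * ENNReal.ofReal (exp (n * ptErr r τ δ C ε)) ≠ ⊤ :=
    ENNReal.add_ne_top.2 ⟨ENNReal.one_ne_top,
      ENNReal.mul_ne_top (ENNReal.natCast_ne_top _) ENNReal.ofReal_ne_top⟩
  have h3 := ENNReal.toReal_mono hne h2
  rw [ENNReal.toReal_mul, ENNReal.toReal_ofReal hT.le, ENNReal.toReal_add ENNReal.one_ne_top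
    (ENNReal.mul_ne_top (ENNReal.natCast_ne_top _) ENNReal.ofReal_ne_top), ENNReal.toReal_one,
    ENNReal.toReal_mul, ENNReal.toReal_natCast, ENNReal.toReal_ofReal (exp_pos _).le] at h3
  rw [le_div_iff₀ hT, mul_comm, measureReal_def]
  exact h3

end Vale.Agent.P150.Fast.Dom
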