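import Vale.Agent.P150.Fast.Dom.GoodPart
import Vale.Agent.P150.Fast.LogDetTools

/-!
The auxiliary noise of the readout is small, and the readout is causal and measurable. Used for
P150 (module M3).
-/

open MeasureTheory ProbabilityTheory Real Finset
open scoped Matrix

namespace Vale.Agent.P150.Fast.Dom

open LL (nrm)

variable {n r M : ℕ} {τ δ C β : ℝ}

/-- A bound on the square of the auxiliary noise by squares of linear forms. -/
noncomputable def auxSq (τ : ℝ) (w : Fin M → Fin n → ℝ) (q : Fin M × Fin n → ℝ) : ℝ :=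
  M * ∑ l, ∑ c, Vale.Agent.P150.lin
    (fun p : Fin M × Fin n => if p.1 = l then gs τ w c p.2 else 0) q ^ 2

theorem auxErr_nonneg (hτ : 0 < τ) (w : Fin M → Fin n → ℝ) (q : Fin M × Fin n → ℝ) :
    0 ≤ auxErr hτ w q := sum_nonneg fun _ _ => LL.nrm_nonneg _

theorem auxErr_sq_le (hτ : 0 < τ) (w : Fin M → Fin n → ℝ) (q : Fin M × Fin n → ℝ) :
    auxErr hτ w q ^ 2 ≤ auxSq τ w q := by
  refine (sq_sum_le_card_mul_sum_sq (s := univ)).trans ?_
  rw [card_univ, Fintype.card_fin, auxSq]
  refine mul_le_mul_of_nonneg_left (sum_le_sum fun l _ => ?_) M.cast_nonneg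
  set E := gsSys hτ w
  set v : Fin n → ℝ := fun i => q (l, i)
  have hp : ∀ c ∈ Iic l, E.e c ⬝ᵥ E.proj l v = E.e c ⬝ᵥ v := fun c hc => by
    have h := E.e_dot_comp (c := c) (l := l) v
    rw [if_pos (mem_Iic.1 hc), OrthSys.comp, dotProduct_sub, sub_eq_zero] at h
    exact h.symm
  have hlin : ∀ c, Vale.Agent.P150.lin
      (fun p : Fin M × Fin n => if p.1 = l then gs τ w c p.2 else 0) q = E.e c ⬝ᵥ v := fun c => by
    simp only [Vale.Agent.P150.lin, mul_ite, mul_zero, Fintype.sum_prod_type, dotProduct]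
    rw [Finset.sum_eq_single l (fun b _ hb => by simp [hb]) (fun h => absurd (mem_univ _) h)]
    exact sum_congr rfl fun i _ => by simp only [if_true, v]; exact mul_comm _ _
  have e1 : nrm (E.proj l v) ^ 2 = E.proj l v ⬝ᵥ E.proj l v := by
    rw [nrm_dot, sq_sqrt (dot_self_nonneg' _)]
  rw [e1, E.dot_proj, sum_congr rfl fun c hc => by rw [hp c hc, ← pow_two]]
  simp only [hlin]
  exact sum_le_sum_of_subset_of_nonneg (subset_univ _) fun c _ _ => sq_nonneg _

theorem auxSq_int (hτ : 0 < τ) (w : Fin M → Fin n → ℝ) :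
    Integrable (auxSq τ w) (gp (Fin M × Fin n)) ∧
      ∫ q, auxSq τ w q ∂gp (Fin M × Fin n) ≤ (M : ℝ) ^ 3 := by
  set a : Fin M → Fin M → Fin M × Fin n → ℝ :=
    fun l c p => if p.1 = l then gs τ w c p.2 else 0
  have h : ∀ l c, ∫ q, Vale.Agent.P150.lin (a l c) q ^ 2 ∂gp (Fin M × Fin n) ≤ 1 := fun l c => by
    rw [(lin_sq (a l c)).2, Fintype.sum_prod_type,
      Finset.sum_eq_single l (fun b _ hb => by simp [a, hb]) (fun h => absurd (mem_univ _) h)]
    have : ∑ i, a l c (l, i) ^ 2 = gs τ w c ⬝ᵥ gs τ w c := by simp [a, dotProduct, pow_two]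
    rw [this]
    rcases gs_unit (w := w) hτ c with h | h <;> simp [h]
  have hs : ∀ l, Integrable (fun q => ∑ c, Vale.Agent.P150.lin (a l c) q ^ 2) (gp (Fin M × Fin n)) :=
    fun l => integrable_finsetSum _ fun c _ => (lin_sq (a l c)).1
  refine ⟨(integrable_finsetSum _ fun l _ => hs l).const_mul _, ?_⟩
  simp only [auxSq]
  rw [integral_const_mul, integral_finsetSum _ fun l _ => hs l]
  have h1 : ∀ l, ∫ q, ∑ c, Vale.Agent.P150.lin (a l c) q ^ 2 ∂gp (Fin M × Fin n) ≤ M := fun l => by
    rw [integral_finsetSum _ fun c _ => (lin_sq (a l c)).1]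
    exact (sum_le_sum fun c _ => h l c).trans_eq (by simp)
  refine (mul_le_mul_of_nonneg_left (sum_le_sum fun l _ => h1 l) M.cast_nonneg).trans_eq ?_
  simp only [sum_const, card_univ, Fintype.card_fin, nsmul_eq_mul]
  ring

/-- The auxiliary noise is rarely of the order of the square root of the number of sites. -/
theorem auxErr_tail (hτ : 0 < τ) (hn : 1 ≤ n) {ε : ℝ} (hε : 0 < ε) (w : Fin M → Fin n → ℝ) :
    (gp (Fin M × Fin n)).real {q | ε * √n < auxErr hτ w q} ≤ (M : ℝ) ^ 3 / (ε ^ 2 * n) := by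
  have hnp : (0 : ℝ) < n := by exact_mod_cast hn
  obtain ⟨hi, hv⟩ := auxSq_int hτ w
  have hm := mul_meas_ge_le_integral_of_nonneg (ae_of_all _ fun q =>
    (sq_nonneg _).trans (auxErr_sq_le hτ w q)) hi (ε ^ 2 * n)
  rw [le_div_iff₀ (by positivity), mul_comm]
  refine le_trans (mul_le_mul_of_nonneg_left (measureReal_mono (fun q hq => ?_)) (by positivity))
    (hm.trans hv)
  rw [Set.mem_ofPred_eq] at hq ⊢
  refine le_trans ?_ (auxErr_sq_le hτ w q)
  rw [show ε ^ 2 * (n : ℝ) = (ε * √n) ^ 2 by rw [mul_pow, sq_sqrt hnp.le]]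
  exact pow_le_pow_left₀ (by positivity) hq.le 2

theorem gs_congr {w w' : Fin M → Fin n → ℝ} (k : Fin M) (h : ∀ j, j ≤ k → w j = w' j) :
    gs τ w k = gs τ w' k := by
  induction k using WellFoundedLT.induction with
  | _ k ih =>
    have hr : gsRes τ w k = gsRes τ w' k := by
      rw [gsRes, gsRes, h k le_rfl]
      congr 1
      refine sum_congr rfl fun c hc => ?_
      rw [ih c (mem_Iio.1 hc) fun j hj => h j (hj.trans (mem_Iio.1 hc).le)]
    rw [gs_eq, gs_eq, hr]

theorem innov_congr {E E' : OrthSys n M} {l : Fin M} (h : ∀ c, c ≤ l → E.e c = E'.e c) (d : Dis n)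
    (q : Fin M × Fin n → ℝ) : E.innov d q l = E'.innov d q l := by
  have hp : ∀ u, E.proj l u = E'.proj l u := fun u => funext fun i => by
    simp only [OrthSys.proj]
    exact sum_congr rfl fun c hc => by rw [h c (mem_Iic.1 hc)]
  simp only [OrthSys.innov, OrthSys.comp, hp, h l le_rfl]

theorem innov_memLp (E : OrthSys n M) (d : Dis n) (l : Fin M) (i : Fin n) :
    MemLp (fun q => E.innov d q l i) 2 (gp (Fin M × Fin n)) := by
  have hq : ∀ b, MemLp (fun q : Fin M × Fin n → ℝ => q (l, b)) 2 (gp (Fin M × Fin n)) := fun b =>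
    (memLp_two_iff_integrable_sq (measurable_pi_apply _).aestronglyMeasurable).2
      (Edge.sq_coord (l, b)).1
  have hd : ∀ c, MemLp (fun q : Fin M × Fin n → ℝ => E.e c ⬝ᵥ fun b => q (l, b)) 2
      (gp (Fin M × Fin n)) := fun c => by
    simp only [dotProduct]
    exact memLp_finsetSum _ fun b _ => (hq b).const_mul (E.e c b)
  have hp : MemLp (fun q : Fin M × Fin n → ℝ => E.proj l (fun b => q (l, b)) i) 2
      (gp (Fin M × Fin n)) :=
    memLp_finsetSum (Iic l) fun c _ => (hd c).mul_const (E.e c i)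
  exact ((memLp_const ((E.comp l (goe n d *ᵥ E.e l)) i)).add hp).add
    (((hq i).sub hp).const_mul (1 - E.e l ⬝ᵥ E.e l))

theorem measurable_wpath (A : Matrix (Fin n) (Fin n) ℝ) :
    Measurable fun P : Traj n r => wcols (stateAt P) (noiseAt A P) :=
  measurable_by_state (F := fun x P => wcols x (noiseAt A P)) fun x =>
    (continuous_wcols x).measurable.comp (measurable_noiseAt A)

theorem mkRead_ok (hτ : 0 < τ) : ReadOK β (mkRead hτ δ C β n r) := by
  refine ⟨fun d θ => ?_, fun d i l => ?_, fun d P P' q i l h => ?_, fun d P i l => ?_⟩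
  · exact measurableSet_cell_eq measurable_const (measurable_wpath (aop n β d)) θ
  · exact (measurable_pi_apply i).comp (measurable_innovOf hτ β measurable_const
      ((measurable_wpath (aop n β d)).comp measurable_fst) measurable_snd l)
  · have hw : ∀ k, k ≤ l → wcols (stateAt P) (noiseAt (aop n β d) P) k
        = wcols (stateAt P') (noiseAt (aop n β d) P') k := fun k hk => by
      simp only [wcols, ← colVec_eq, h k hk]
    simp only [mkRead, innovOf]
    rw [innov_congr (E' := gsSys hτ (wcols (stateAt P') (noiseAt (aop n β d) P')))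
      (fun c hc => gs_congr (τ := τ) c fun j hj => hw j (hj.trans hc)) d q]
  · exact ((innov_memLp (gsSys hτ (wcols (stateAt P) (noiseAt (aop n β d) P))) d l i).const_mul
      β).integrable_sq

end Vale.Agent.P150.Fast.Dom
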