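import Vale.Agent.P150.Fast.Dom.Stmt
import Vale.Agent.P150.Fast.GoeNorm
import Vale.Agent.P150.Fast.GoeConj

/-!
The diagonal of the resolvent of the shifted coupling matrix is self-averaging (P150, module M3):
on the norm event it is the maximum of a concave quadratic over a fixed ball, which is Lipschitz in
the disorder and exchangeable in the site.
-/

open MeasureTheory Real Finset Filter
open scoped Matrix Topology

namespace Vale.Agent.P150.Fast.Dom

variable {n : ℕ}

/-- The quadratic whose maximum is a diagonal entry of the resolvent. -/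
noncomputable def obj (β : ℝ) (d : Dis n) (i : Fin n) (v : Fin n → ℝ) : ℝ :=
  2 * v i - (Ent.qform (kmat n β d) v + shift β * ∑ j, v j ^ 2)

/-- The ball over which it is maximised. -/
def ball8 (n : ℕ) : Set (Fin n → ℝ) := {v | ∑ j, v j ^ 2 ≤ 8}

theorem isCompact_ball8 : IsCompact (ball8 n) := by
  refine Metric.isCompact_of_isClosed_isBounded (isClosed_le (by fun_prop) continuous_const) ?_
  refine (Metric.isBounded_closedBall (x := (0 : Fin n → ℝ)) (r := 3)).subset fun v hv => ?_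
  rw [mem_closedBall_zero_iff, pi_norm_le_iff_of_nonneg (by norm_num)]
  intro i
  have h : v i ^ 2 ≤ 8 :=
    (single_le_sum (f := fun j => v j ^ 2) (fun j _ => sq_nonneg _) (mem_univ i)).trans hv
  rw [Real.norm_eq_abs]
  nlinarith [sq_abs (v i), abs_nonneg (v i)]

/-- The maximum. -/
noncomputable def hmax (β : ℝ) (i : Fin n) (d : Dis n) : ℝ := sSup (obj β d i '' ball8 n)

theorem hmax_spec (β : ℝ) (i : Fin n) (d : Dis n) :
    ∃ v ∈ ball8 n, hmax β i d = obj β d i v ∧ ∀ w ∈ ball8 n, obj β d i w ≤ hmax β i d := by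
  obtain ⟨v, hv, he, hmx⟩ := isCompact_ball8.exists_sSup_image_eq_and_ge
    (f := obj β d i) ⟨0, by simp [ball8]⟩ (by unfold obj Ent.qform; fun_prop)
  exact ⟨v, hv, he, fun w hw => (hmx w hw).trans_eq he.symm⟩

theorem obj_sub (β : ℝ) (d d' : Dis n) (i : Fin n) (v : Fin n → ℝ) (hv : v ∈ ball8 n) :
    |obj β d i v - obj β d' i v| ≤ 12 * |β| / √n * √(∑ k, (d k - d' k) ^ 2) := by
  have e : obj β d i v - obj β d' i v = -(β / √n * ∑ k, coef v k * (d k - d' k)) := by
    have h : ∑ k, coef v k * (d k - d' k) = lin (coef v) d - lin (coef v) d' := by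
      simp only [lin, ← sum_sub_distrib]
      exact sum_congr rfl fun k _ => by ring
    rw [h, obj, obj, qform_kmat_eq, qform_kmat_eq, qform_goe, qform_goe]; ring
  have h12 : √(∑ k, coef v k ^ 2) ≤ 12 := by
    rw [coef_norm, sqrt_le_iff]
    have h0 : 0 ≤ ∑ i, v i ^ 2 := sum_nonneg fun _ _ => sq_nonneg _
    have h8 : ∑ i, v i ^ 2 ≤ 8 := hv
    constructor <;> nlinarith
  have hcs := sum_mul_le_sqrt_mul_sqrt univ (coef v) fun k => d k - d' k
  have hcs' := sum_mul_le_sqrt_mul_sqrt univ (fun k => -coef v k) fun k => d k - d' k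
  simp only [neg_mul, sum_neg_distrib, neg_sq] at hcs'
  have habs : |∑ k, coef v k * (d k - d' k)| ≤ 12 * √(∑ k, (d k - d' k) ^ 2) := by
    have := mul_le_mul_of_nonneg_right h12 (sqrt_nonneg (∑ k, (d k - d' k) ^ 2))
    rw [abs_le]; constructor <;> linarith
  rw [e, abs_neg, abs_mul, abs_div, abs_of_nonneg (sqrt_nonneg (n : ℝ))]
  exact (mul_le_mul_of_nonneg_left habs (by positivity)).trans_eq (by ring)

theorem hmax_lip (β : ℝ) (i : Fin n) (d d' : Dis n) :
    |hmax β i d - hmax β i d'| ≤ 12 * |β| / √n * √(∑ k, (d k - d' k) ^ 2) := by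
  obtain ⟨v, hv, he, hle⟩ := hmax_spec β i d
  obtain ⟨v', hv', he', hle'⟩ := hmax_spec β i d'
  have h1 := abs_le.1 (obj_sub β d d' i v hv)
  have h2 := abs_le.1 (obj_sub β d d' i v' hv')
  have := hle' v hv
  have := hle v' hv'
  rw [abs_le]; constructor <;> linarith [h1.1, h1.2, h2.1, h2.2]

theorem qform_eq_dot (M : Matrix (Fin n) (Fin n) ℝ) (v : Fin n → ℝ) :
    Ent.qform M v = v ⬝ᵥ M *ᵥ v := by
  simp only [Ent.qform, dotProduct, Matrix.mulVec, mul_sum, mul_assoc]

theorem qform_aop (β : ℝ) (d : Dis n) (v : Fin n → ℝ) :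
    Ent.qform (kmat n β d) v + shift β * ∑ j, v j ^ 2 = v ⬝ᵥ aop n β d *ᵥ v := by
  rw [qform_eq_dot, aop, Matrix.add_mulVec, Matrix.smul_mulVec, Matrix.one_mulVec,
    dotProduct_add, dotProduct_smul]
  simp [dotProduct, pow_two]

/-- On the norm event the maximum is the diagonal entry of the resolvent. -/
theorem hmax_eq {β η : ℝ} (hη0 : 0 ≤ η) (hη : η ≤ 1 / 4) {d : Dis n} (hd : NormOK n β η d)
    (i : Fin n) :
    hmax β i d = (aop n β d)⁻¹ i i ∧ hmax β i d ≤ 1 / (1 - η) ∧
      (0 ≤ β → 1 / (4 * β + 1 + η) ≤ hmax β i d) := by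
  set A := aop n β d with hA
  have low : ∀ v : Fin n → ℝ, (1 - η) * ∑ j, v j ^ 2 ≤ v ⬝ᵥ A *ᵥ v := fun v => by
    rw [hA, ← qform_aop]
    simp only [shift]
    linarith [(abs_le.1 (hd v)).1]
  have hinj : Function.Injective A.mulVec := by
    intro a b hab
    have h0 : A *ᵥ (a - b) = 0 := by rw [Matrix.mulVec_sub]; exact sub_eq_zero.2 hab
    have h1 := low (a - b)
    rw [h0, dotProduct_zero] at h1
    have h2 : ∑ j, (a - b) j ^ 2 = 0 :=
      le_antisymm (by nlinarith) (sum_nonneg fun _ _ => sq_nonneg _)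
    ext j
    have := pow_eq_zero_iff (n := 2) (by norm_num) |>.1
      ((sum_eq_zero_iff_of_nonneg fun _ _ => sq_nonneg _).1 h2 j (mem_univ j))
    simpa [sub_eq_zero] using this
  have hu : IsUnit A := Matrix.mulVec_injective_iff_isUnit.1 hinj
  set w : Fin n → ℝ := A⁻¹ *ᵥ Pi.single i 1 with hw
  have hAw : A *ᵥ w = Pi.single i 1 := by
    rw [hw, Matrix.mulVec_mulVec, Matrix.mul_nonsing_inv A ((Matrix.isUnit_iff_isUnit_det A).1 hu),
      Matrix.one_mulVec]
  have hwi : w i = A⁻¹ i i := by rw [hw]; simp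
  have hsym : A.IsSymm := by
    rw [hA, aop]; exact (kmat_isSymm β d).add (Matrix.isSymm_one.smul _)
  have hsq : w ⬝ᵥ A *ᵥ w = w i := by rw [hAw, dotProduct_single, mul_one]
  have hN : 0 ≤ ∑ j, w j ^ 2 := sum_nonneg fun _ _ => sq_nonneg _
  have hi2 : w i ^ 2 ≤ ∑ j, w j ^ 2 :=
    single_le_sum (f := fun j => w j ^ 2) (fun j _ => sq_nonneg _) (mem_univ i)
  have hl := low w
  rw [hsq] at hl
  have hwub : w i ≤ 1 / (1 - η) := by
    rw [le_div_iff₀ (by linarith)]
    by_contra hc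
    have hp : 0 < w i := by nlinarith
    nlinarith [mul_pos hp (sub_pos.2 (not_le.1 hc))]
  have hball : w ∈ ball8 n := by
    show ∑ j, w j ^ 2 ≤ 8
    have : 1 / (1 - η) ≤ 2 := by rw [div_le_iff₀ (by linarith)]; linarith
    nlinarith
  have hobj : ∀ v, obj β d i v ≤ w i := fun v => by
    have h := low (v - w)
    have h' : 0 ≤ (1 - η) * ∑ j, (v - w) j ^ 2 :=
      mul_nonneg (by linarith) (sum_nonneg fun _ _ => sq_nonneg _)
    have e1 : w ⬝ᵥ A *ᵥ v = v i := by
      rw [Matrix.dotProduct_mulVec, ← Matrix.mulVec_transpose, hsym.eq, hAw, single_dotProduct,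
        one_mul]
    have e2 : v ⬝ᵥ A *ᵥ w = v i := by rw [hAw, dotProduct_single, mul_one]
    rw [Matrix.mulVec_sub, sub_dotProduct, dotProduct_sub, dotProduct_sub, hsq, e1, e2] at h
    rw [obj, qform_aop]
    linarith
  have hw' : obj β d i w = w i := by rw [obj, qform_aop, hsq]; ring
  obtain ⟨v, hv, he, hle⟩ := hmax_spec β i d
  have heq : hmax β i d = w i := le_antisymm (he ▸ hobj v) (hw' ▸ hle w hball)
  refine ⟨heq.trans hwi, heq ▸ hwub, fun hβ => ?_⟩
  set t : ℝ := 1 / (4 * β + 1 + η) with ht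
  have ht0 : 0 < t := by rw [ht]; positivity
  have ht1 : t ≤ 1 := by rw [ht, div_le_one (by linarith)]; linarith
  have hs : ∑ j, (Pi.single i t : Fin n → ℝ) j ^ 2 = t ^ 2 :=
    (sum_eq_single i (fun b _ hb => by simp [hb]) (by simp)).trans (by simp)
  have hmem : (Pi.single i t : Fin n → ℝ) ∈ ball8 n := by
    show ∑ j, (Pi.single i t : Fin n → ℝ) j ^ 2 ≤ 8
    rw [hs]; nlinarith
  refine le_trans ?_ (hle _ hmem)
  have h := (abs_le.1 (hd (Pi.single i t))).2
  rw [hs] at h
  rw [obj, hs, Pi.single_eq_same, shift]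
  have : t * (4 * β + 1 + η) = 1 := by rw [ht]; field_simp
  nlinarith

theorem integral_hmax (β : ℝ) (i j : Fin n) :
    ∫ d, hmax β i d ∂disX n = ∫ d, hmax β j d ∂disX n := by
  set σ := Equiv.swap i j
  set O : Matrix (Fin n) (Fin n) ℝ := σ.permMatrix ℝ with hO'
  have hO : O.transpose * O = 1 := by
    rw [hO', Matrix.transpose_permMatrix, ← Matrix.permMatrix_mul]
    simp
  obtain ⟨T, hT, hK⟩ := conjInv n O hO
  have hent : ∀ d a b, kmat n β (T d) a b = kmat n β d (σ a) (σ b) := fun d a b => by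
    rw [hK, hO', Matrix.transpose_permMatrix, Equiv.Perm.permMatrix, Equiv.Perm.permMatrix,
      PEquiv.toMatrix_toPEquiv_mul, PEquiv.mul_toMatrix_toPEquiv]
    simp [Equiv.Perm.inv_def]
  have hobj : ∀ d v, obj β (T d) i v = obj β d j fun a => v (σ a) := fun d v => by
    simp only [obj, Ent.qform, hent]
    rw [Equiv.swap_apply_right, Equiv.sum_comp σ fun a => v a ^ 2,
      ← Equiv.sum_comp σ fun a => ∑ b, v (σ a) * kmat n β d a b * v (σ b)]
    simp only [σ, Equiv.swap_apply_self]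
    congr 1
    congr 1
    exact sum_congr rfl fun a _ => by
      rw [← Equiv.sum_comp σ fun b => v a * kmat n β d (σ a) b * v (σ b)]
      simp [σ, Equiv.swap_apply_self]
  have him : ∀ d, hmax β i (T d) = hmax β j d := fun d => by
    have hb : ∀ v ∈ ball8 n, (fun a => v (σ a)) ∈ ball8 n := fun v hv => by
      show ∑ a, v (σ a) ^ 2 ≤ 8
      rw [Equiv.sum_comp σ fun a => v a ^ 2]; exact hv
    obtain ⟨v, hv, he, hle⟩ := hmax_spec β i (T d)
    obtain ⟨v', hv', he', hle'⟩ := hmax_spec β j d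
    apply le_antisymm
    · rw [he, hobj]; exact hle' _ (hb v hv)
    · have h := hle _ (hb v' hv')
      rw [hobj] at h
      simp only [σ, Equiv.swap_apply_self] at h
      exact he' ▸ h
  have hc : Continuous (hmax (n := n) β i) := by
    refine continuous_iff_continuousAt.2 fun d => ?_
    have hz : Continuous fun d' : Dis n => 12 * |β| / √n * √(∑ k, (d' k - d k) ^ 2) := by fun_prop
    have hz0 : Tendsto (fun d' : Dis n => 12 * |β| / √n * √(∑ k, (d' k - d k) ^ 2)) (𝓝 d) (𝓝 0) := by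
      simpa using hz.tendsto d
    exact tendsto_iff_norm_sub_tendsto_zero.2
      (squeeze_zero (fun _ => norm_nonneg _) (fun d' => hmax_lip β i d' d) hz0)
  calc ∫ d, hmax β i d ∂disX n = ∫ d, hmax β i d ∂Measure.map T (disX n) := by rw [hT.map_eq]
    _ = ∫ d, hmax β i (T d) ∂disX n :=
      integral_map hT.measurable.aemeasurable hc.aestronglyMeasurable
    _ = _ := by simp only [him]

/-- Two-sided concentration of the maximum at every site around one value. -/
theorem hmax_conc {β s : ℝ} (hs : 0 < s) (hn : 0 < n) :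
    (disX n).real {d | ∃ i, s < |hmax β i d - ∫ g, hmax β ⟨0, hn⟩ g ∂disX n|}
      ≤ n * (2 * exp (-(2 * s ^ 2 / (π ^ 2 * (12 * |β| + 1) ^ 2)) * n)) := by
  set m := ∫ g, hmax β ⟨0, hn⟩ g ∂disX n with hm
  set L := (12 * |β| + 1) / √(n : ℝ) with hL
  have hn' : (0 : ℝ) < n := Nat.cast_pos.2 hn
  have hL0 : 0 < L := by rw [hL]; positivity
  have hE : exp (-(2 * s ^ 2 / (π ^ 2 * L ^ 2)))
      = exp (-(2 * s ^ 2 / (π ^ 2 * (12 * |β| + 1) ^ 2)) * n) := by
    rw [hL, div_pow, sq_sqrt hn'.le]; congr 1; field_simp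
  have hlip : ∀ i g h, |hmax β i g - hmax β i h| ≤ L * √(∑ k, (g k - h k) ^ 2) := fun i g h =>
    (hmax_lip β i g h).trans (mul_le_mul_of_nonneg_right
      (div_le_div_of_nonneg_right (by linarith) (sqrt_nonneg _)) (sqrt_nonneg _))
  have hone : ∀ i, (disX n).real {d | s < |hmax β i d - m|}
      ≤ 2 * exp (-(2 * s ^ 2 / (π ^ 2 * (12 * |β| + 1) ^ 2)) * n) := fun i => by
    have hi : ∫ g, hmax β i g ∂disX n = m := integral_hmax β i _
    have h1 := gaussTail _ (hmax β i) L hL0 (hlip i) s hs.le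
    have h2 := gaussTail _ (fun d => -hmax β i d) L hL0 (fun g h => by
      rw [neg_sub_neg, abs_sub_comm]; exact hlip i g h) s hs.le
    rw [integral_neg] at h2
    change (disX n).real _ ≤ _ at h1 h2
    have hmi : ∫ g, hmax β i g ∂gp (Pair n ⊕ Fin n) = m := hi
    rw [hmi] at h1 h2
    rw [hE] at h1 h2
    refine (measureReal_mono ?_).trans ((measureReal_union_le _ _).trans
      ((add_le_add h1 h2).trans_eq (two_mul _).symm))
    intro d hd
    rw [Set.mem_ofPred_eq] at hd
    rcases lt_abs.1 hd with h | h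
    · exact Or.inl (by simp only [Set.mem_ofPred_eq]; linarith)
    · exact Or.inr (by simp only [Set.mem_ofPred_eq]; linarith)
  calc _ ≤ (disX n).real (⋃ i : Fin n, {d | s < |hmax β i d - m|}) :=
        measureReal_mono fun d hd => Set.mem_iUnion.2 (by simpa using hd)
    _ ≤ ∑ i : Fin n, (disX n).real {d | s < |hmax β i d - m|} :=
        measureReal_iUnion_fintype_le _
    _ ≤ ∑ _i : Fin n, 2 * exp (-(2 * s ^ 2 / (π ^ 2 * (12 * |β| + 1) ^ 2)) * n) :=
        sum_le_sum fun i _ => hone i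
    _ = _ := by simp

theorem bad_small {β η s δ : ℝ} (hβ : 0 ≤ β) (hη : 0 < η) (hs : 0 < s) (hδ : 0 < δ) :
    ∀ᶠ n : ℕ in atTop, ∀ hn : 0 < n, (disX n).real ({d | ¬ NormOK n β η d} ∪
      {d | ∃ i, s < |hmax β i d - ∫ g, hmax β ⟨0, hn⟩ g ∂disX n|}) ≤ δ := by
  obtain ⟨c, hc, hev⟩ := normEvent β η hβ hη
  set k := 2 * s ^ 2 / (π ^ 2 * (12 * |β| + 1) ^ 2)
  have hk : 0 < k := by positivity
  have hnat : Tendsto (fun n : ℕ => (n : ℝ)) atTop atTop := tendsto_natCast_atTop_atTop
  have h1 : Tendsto (fun n : ℕ => exp (-(c * n))) atTop (𝓝 0) :=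
    tendsto_exp_neg_atTop_nhds_zero.comp (hnat.const_mul_atTop hc)
  have h2 : Tendsto (fun n : ℕ => (n : ℝ) * (2 * exp (-k * n))) atTop (𝓝 0) := by
    have h := ((tendsto_rpow_mul_exp_neg_mul_atTop_nhds_zero 1 k hk).comp hnat).const_mul 2
    simp only [mul_zero, Function.comp_def, rpow_one] at h
    exact h.congr fun n => by ring
  have h3 := h1.add h2
  rw [add_zero] at h3
  filter_upwards [hev, h3.eventually_le_const hδ] with n hN hle hn
  exact (measureReal_union_le _ _).trans ((add_le_add hN (hmax_conc hs hn)).trans hle)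

/-- The common value, clamped to the admissible interval. -/
noncomputable def wVal (β : ℝ) (n : ℕ) : ℝ :=
  if hn : 0 < n then min 2 (max (1 / (4 * β + 2)) (∫ g, hmax β ⟨0, hn⟩ g ∂disX n)) else 1

theorem diagThm {β : ℝ} (hβ : 0 ≤ β) : DiagStmt β := by
  have hlo : 1 / (4 * β + 2) ≤ 1 := by rw [div_le_one (by linarith)]; linarith
  have hlo0 : 0 < 1 / (4 * β + 2) := by positivity
  refine ⟨wVal β, fun n => ?_, fun ε δ hε hδ => ?_, fun η hη hη' => ?_⟩
  · rw [wVal]
    split
    · exact ⟨lt_min two_pos (hlo0.trans_le (le_max_left _ _)), min_le_left _ _,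
        le_min (by linarith) (le_max_left _ _)⟩
    · exact ⟨one_pos, one_le_two, hlo⟩
  · filter_upwards [bad_small hβ (η := 1 / 4) (by norm_num) hε hδ, eventually_gt_atTop 0]
      with n hn hn0
    refine le_trans (measureReal_mono ?_) (hn hn0)
    intro d hd
    rw [Set.mem_ofPred_eq] at hd
    by_contra hc
    simp only [Set.mem_union, Set.mem_ofPred_eq, not_or, not_not, not_exists, not_lt] at hc
    refine hd.not_ge ?_
    have hterm : ∀ i, |(aop n β d)⁻¹ i i - wVal β n| ≤ ε := fun i => by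
      obtain ⟨he, hu, hl⟩ := hmax_eq (by norm_num) le_rfl hc.1 i
      have hl' : 1 / (4 * β + 2) ≤ hmax β i d :=
        le_trans (one_div_le_one_div_of_le (by linarith) (by linarith)) (hl hβ)
      have hu' : hmax β i d ≤ 2 := hu.trans (by norm_num)
      have hx := abs_le.1 (hc.2 i)
      rw [← he, wVal, dif_pos hn0, abs_le]
      constructor
      · rcases max_cases (1 / (4 * β + 2)) (∫ g, hmax β ⟨0, hn0⟩ g ∂disX n) with h | h <;>
          linarith [min_le_right 2 (max (1 / (4 * β + 2)) (∫ g, hmax β ⟨0, hn0⟩ g ∂disX n))]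
      · rcases min_cases 2 (max (1 / (4 * β + 2)) (∫ g, hmax β ⟨0, hn0⟩ g ∂disX n)) with h | h <;>
          linarith [le_max_right (1 / (4 * β + 2)) (∫ g, hmax β ⟨0, hn0⟩ g ∂disX n)]
    calc (n : ℝ)⁻¹ * ∑ i, |(aop n β d)⁻¹ i i - wVal β n| ≤ (n : ℝ)⁻¹ * ∑ _i : Fin n, ε :=
          mul_le_mul_of_nonneg_left (sum_le_sum fun i _ => hterm i) (by positivity)
      _ = ε := by simp [hn0.ne']
  · set b := 1 / (1 - 2 * η) with hb
    have hlt : 1 / (1 - η) < b :=
      one_div_lt_one_div_of_lt (by linarith) (by linarith)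
    filter_upwards [bad_small hβ hη (sub_pos.2 hlt) (δ := 1 / 2) (by norm_num),
      eventually_gt_atTop 0] with n hn hn0
    obtain ⟨d, hd⟩ : ∃ d, d ∉ ({d | ¬ NormOK n β η d} ∪
        {d | ∃ i, b - 1 / (1 - η) < |hmax β i d - ∫ g, hmax β ⟨0, hn0⟩ g ∂disX n|}) := by
      by_contra hall
      push Not at hall
      have h := hn hn0
      rw [Set.eq_univ_of_forall hall, probReal_univ] at h
      norm_num at h
    simp only [Set.mem_union, Set.mem_ofPred_eq, not_or, not_not, not_exists, not_lt] at hd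
    have hx := abs_le.1 (hd.2 ⟨0, hn0⟩)
    have hu := (hmax_eq hη.le hη' hd.1 ⟨0, hn0⟩).2.1
    rw [wVal, dif_pos hn0]
    refine (min_le_right _ _).trans (max_le ?_ (by linarith))
    exact hlo.trans (by rw [hb, le_div_iff₀ (by linarith)]; linarith)

end Vale.Agent.P150.Fast.Dom
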