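import Vale.Agent.P150.Fast.Dom.Read

/-!
The rounded coefficients describe the geometry of the vectors. Used for P150 (module M3).
-/

open MeasureTheory Real Finset
open scoped Matrix

namespace Vale.Agent.P150.Fast.Dom

open LL (nrm)

variable {n M : ℕ} {τ δ C : ℝ}

/-- The constant of the geometric errors. -/
noncomputable def fitC (M : ℕ) : ℝ := 16 * ((M : ℝ) + 1) ^ 3

/-- **The geometry of the rounded coefficients.** -/
theorem coef_fits (hτ : 0 < τ) (hτ1 : τ ≤ 1) (hδ : 0 < δ) (hδ1 : δ ≤ 1) (hn : 1 ≤ n) (hC2 : 2 ≤ C)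
    (hCR : ((1 + M * 2) / τ) ^ M ≤ C) (K : Matrix (Fin n) (Fin n) ℝ) {v : Fin M → Fin n → ℝ}
    (hv : ∀ k, nrm (v k) ≤ 2 * √n) :
    let θ := rdCoef τ δ C K fun k => (√(n : ℝ))⁻¹ • v k
    let u := fun l => ∑ j, θ.R l j • v j
    (∀ k l, |θ.al k l - (n : ℝ)⁻¹ * (v k ⬝ᵥ u l)| ≤ fitC M * (δ + τ)) ∧
    (∀ l m, l ≠ m → |(n : ℝ)⁻¹ * (u l ⬝ᵥ u m)| ≤ fitC M * (δ + τ)) ∧
    (∀ l, (∀ j, θ.R l j = 0) ∨ |(n : ℝ)⁻¹ * (u l ⬝ᵥ u l) - 1| ≤ fitC M * (δ + τ)) ∧
    ∀ k, (n : ℝ)⁻¹ * ∑ i, (v k i - ∑ l, θ.al k l * u l i) ^ 2 ≤ (fitC M * (δ + τ)) ^ 2 := by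
  intro θ' u'
  set w := fun k => (√(n : ℝ))⁻¹ • v k with hwd
  set θ := exCoef τ K w
  set e := gs τ w
  have hnp : (0 : ℝ) < n := by exact_mod_cast hn
  set sn := √(n : ℝ) with hsn
  have hsp : 0 < sn := sqrt_pos.2 hnp
  have hsq : sn * sn = n := mul_self_sqrt hnp.le
  have hC0 : 0 ≤ C := by linarith
  have hM : (0 : ℝ) ≤ M := M.cast_nonneg
  have hw : ∀ k, w k ⬝ᵥ w k ≤ 2 ^ 2 := fun k => by
    have h1 : nrm (w k) ≤ 2 := by
      rw [nrm_smul, abs_inv, abs_of_pos hsp, inv_mul_le_iff₀ hsp]; linarith [hv k]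
    rw [nrm_dot] at h1
    exact (sqrt_le_left (by norm_num)).1 h1
  have hen : ∀ l, nrm (e l) ≤ 1 := fun l => by
    rcases gs_unit (w := w) hτ l with h | h <;> simp [e, nrm_dot, h]
  have hal : ∀ k l, |θ.al k l| ≤ 2 := fun k l => by
    simp only [θ, exCoef]
    split
    · exact abs_le_of_sq_le_sq ((gs_dot_le hτ l _).trans (hw k)) (by norm_num)
    · simp
  have hR : ∀ l j, |θ.R l j| ≤ C := fun l j => by
    refine (gsR_bound hτ hτ1 zero_le_two hw l j).trans (le_trans ?_ hCR)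
    exact pow_le_pow_right₀ (by rw [le_div_iff₀ hτ]; linarith) l.2
  have dR : ∀ l j, |θ'.R l j - θ.R l j| ≤ δ := fun l j => rnd_err hδ (hR l j)
  have dA : ∀ k l, |θ'.al k l - θ.al k l| ≤ δ := fun k l => rnd_err hδ ((hal k l).trans hC2)
  have hue : ∀ l, ∑ j, θ.R l j • v j = sn • e l := fun l => by
    rw [show e l = ∑ j, gsR τ w l j • w j from gs_comb l, smul_sum]
    refine sum_congr rfl fun j _ => ?_
    show gsR τ w l j • v j = sn • gsR τ w l j • ((√(n : ℝ))⁻¹ • v j)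
    rw [smul_smul, smul_smul, ← hsn, mul_comm sn, mul_assoc, mul_inv_cancel₀ hsp.ne', mul_one]
  set D : Fin M → Fin n → ℝ := fun l => u' l - sn • e l with hD
  have hDn : ∀ l, nrm (D l) ≤ 2 * M * δ * sn := fun l => by
    rw [hD]
    dsimp only
    rw [← hue, ← sum_sub_distrib]
    refine (nrm_sum _ _).trans ((sum_le_sum fun j _ => ?_).trans_eq (b := ∑ _j : Fin M, δ * (2 * sn))
      (by simp; ring))
    rw [← sub_smul, nrm_smul]
    exact mul_le_mul (dR l j) (hv j) (LL.nrm_nonneg _) hδ.le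
  have hu : ∀ l, u' l = sn • e l + D l := fun l => by simp [hD]
  have hsn' : ∀ l, nrm (sn • e l) ≤ sn := fun l => by
    rw [nrm_smul, abs_of_pos hsp]; exact mul_le_of_le_one_right hsp.le (hen l)
  have hcross : ∀ l m, |(n : ℝ)⁻¹ * (u' l ⬝ᵥ u' m) - e l ⬝ᵥ e m| ≤ 4 * M * δ + 4 * M ^ 2 * δ := by
    intro l m
    have h1 : (n : ℝ)⁻¹ * (u' l ⬝ᵥ u' m) - e l ⬝ᵥ e m
        = (n : ℝ)⁻¹ * ((sn • e l) ⬝ᵥ D m + D l ⬝ᵥ (sn • e m) + D l ⬝ᵥ D m) := by
      rw [hu, hu, add_dotProduct, dotProduct_add, dotProduct_add, smul_dotProduct, dotProduct_smul,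
        smul_eq_mul, smul_eq_mul, ← mul_assoc, hsq]
      field_simp
      ring
    rw [h1, abs_mul, abs_inv, abs_of_pos hnp, inv_mul_le_iff₀ hnp, ← hsq]
    have b1 := (abs_dot_le (sn • e l) (D m)).trans (mul_le_mul (hsn' l) (hDn m) (LL.nrm_nonneg _) hsp.le)
    have b2 := (abs_dot_le (D l) (sn • e m)).trans
      (mul_le_mul (hDn l) (hsn' m) (LL.nrm_nonneg _) (by positivity))
    have b3 := (abs_dot_le (D l) (D m)).trans
      (mul_le_mul (hDn l) (hDn m) (LL.nrm_nonneg _) (by positivity))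
    refine (abs_add_le _ _).trans ((add_le_add ((abs_add_le _ _).trans (add_le_add b1 b2)) b3).trans ?_)
    linarith [mul_le_mul_of_nonneg_left hδ1
      (mul_nonneg (mul_nonneg (sq_nonneg (M : ℝ)) hδ.le) (sq_nonneg sn))]
  have hF : 4 * M * δ + 4 * (M : ℝ) ^ 2 * δ + δ + τ ≤ fitC M * (δ + τ) := by
    rw [fitC]
    linarith [mul_nonneg hM hδ.le, mul_nonneg (sq_nonneg (M : ℝ)) hδ.le,
      mul_nonneg (pow_nonneg hM 3) hδ.le, mul_nonneg hM hτ.le, mul_nonneg (sq_nonneg (M : ℝ)) hτ.le,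
      mul_nonneg (pow_nonneg hM 3) hτ.le]
  have hex : ∀ k l, |θ.al k l - e l ⬝ᵥ w k| ≤ τ := fun k l => by
    simp only [θ, exCoef]
    split
    · simpa [e] using hτ.le
    · next h => rw [zero_sub, abs_neg]; exact gs_dot_late hτ (not_le.1 h)
  refine ⟨fun k l => ?_, fun l m hlm => ?_, fun l => ?_, fun k => ?_⟩
  · have h1 : (n : ℝ)⁻¹ * (v k ⬝ᵥ u' l) = e l ⬝ᵥ w k + (n : ℝ)⁻¹ * (v k ⬝ᵥ D l) := by
      rw [hu, dotProduct_add, mul_add, hwd, dotProduct_smul, dotProduct_smul, dotProduct_comm (v k),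
        smul_eq_mul, smul_eq_mul, ← hsq]
      field_simp
    have h2 : |(n : ℝ)⁻¹ * (v k ⬝ᵥ D l)| ≤ 4 * M * δ := by
      rw [abs_mul, abs_inv, abs_of_pos hnp, inv_mul_le_iff₀ hnp, ← hsq]
      exact (abs_dot_le _ _).trans ((mul_le_mul (hv k) (hDn l) (LL.nrm_nonneg _) (by positivity)).trans_eq
        (by ring))
    rw [h1]
    have h4 : 0 ≤ 4 * (M : ℝ) ^ 2 * δ := by positivity
    rw [show θ'.al k l - (e l ⬝ᵥ w k + (n : ℝ)⁻¹ * (v k ⬝ᵥ D l))
      = (θ'.al k l - θ.al k l) + (θ.al k l - e l ⬝ᵥ w k) - (n : ℝ)⁻¹ * (v k ⬝ᵥ D l) by ring]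
    refine (abs_sub _ _).trans ((add_le_add ((abs_add_le _ _).trans (add_le_add (dA k l) (hex k l)))
      h2).trans ?_)
    linarith
  · have := hcross l m
    rw [show e l ⬝ᵥ e m = 0 from gs_orth hτ l m hlm, sub_zero] at this
    linarith
  · rcases gs_unit (w := w) hτ l with h | h
    · refine Or.inr ?_
      have := hcross l l
      rw [show e l ⬝ᵥ e l = 1 from h] at this
      linarith
    · refine Or.inl fun j => ?_
      show rnd δ C (gsR τ w l j) = 0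
      rcases gs_eq_zero_or (τ := τ) (w := w) (k := l) with h' | h'
      · rw [h'.2]; exact rnd_zero hC0
      · exfalso
        have := gs_self_dot hτ l h'
        rw [h, zero_dotProduct] at this
        exact (sqrt_pos.2 ((pow_pos hτ 2).trans_le h')).ne this.1
  · set R := v k - ∑ l, θ'.al k l • u' l with hR'
    have hsum : ∑ i, (v k i - ∑ l, θ'.al k l * u' l i) ^ 2 = nrm R ^ 2 := by
      rw [LL.nrm_sq]
      exact sum_congr rfl fun i _ => by simp [hR', Finset.sum_apply]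
    rw [hsum, inv_mul_le_iff₀ hnp, ← hsq, ← pow_two, ← mul_pow]
    refine pow_le_pow_left₀ (LL.nrm_nonneg _) ?_ 2
    have h1 : ∑ l, θ.al k l • (sn • e l) = sn • ∑ c ∈ Iic k, (gs τ w c ⬝ᵥ w k) • gs τ w c := by
      rw [smul_sum, ← sum_subset (subset_univ (Iic k)) fun l _ hl => by
        simp [θ, exCoef, mt mem_Iic.2 hl]]
      exact sum_congr rfl fun l hl => by simp [θ, exCoef, mem_Iic.1 hl, e, smul_comm sn]
    have h2 : R = sn • gsTail τ w k
        + ∑ l, (θ.al k l • (sn • e l) - θ'.al k l • u' l) := by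
      rw [sum_sub_distrib, h1, gsTail, smul_sub, hR', ← add_sub_assoc, sub_add_cancel]
      simp only [hwd, smul_smul, mul_inv_cancel₀ hsp.ne', one_smul]
    have h3 : ∀ l, nrm (θ.al k l • (sn • e l) - θ'.al k l • u' l) ≤ δ * sn + 3 * (2 * M * δ * sn) := by
      intro l
      rw [show θ.al k l • (sn • e l) - θ'.al k l • u' l
          = (θ.al k l - θ'.al k l) • (sn • e l) + -(θ'.al k l • D l) by
        rw [hu, smul_add, sub_smul]; abel]
      refine (LL.nrm_add _ _).trans ?_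
      rw [LL.nrm_neg, nrm_smul, nrm_smul (θ'.al k l)]
      have a3 : |θ'.al k l| ≤ 3 := by
        have := abs_sub_abs_le_abs_sub (θ'.al k l) (θ.al k l)
        linarith [dA k l, hal k l]
      exact add_le_add (mul_le_mul (by rw [abs_sub_comm]; exact dA k l) (hsn' l) (LL.nrm_nonneg _) hδ.le)
        (mul_le_mul a3 (hDn l) (LL.nrm_nonneg _) (by norm_num))
    rw [h2]
    refine (LL.nrm_add _ _).trans ((add_le_add (le_of_eq (nrm_smul _ _))
      ((nrm_sum _ _).trans (sum_le_sum fun l _ => h3 l))).trans ?_)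
    have h4 : nrm (gsTail τ w k) ≤ τ := by
      rw [nrm_dot, sqrt_le_left hτ.le]; exact gsTail_sq hτ k
    rw [sum_const, card_univ, Fintype.card_fin, nsmul_eq_mul, abs_of_pos hsp, fitC]
    linarith [mul_le_mul_of_nonneg_left h4 hsp.le, mul_nonneg (mul_nonneg hM hδ.le) hsp.le,
      mul_nonneg (mul_nonneg (sq_nonneg (M : ℝ)) hδ.le) hsp.le,
      mul_nonneg (mul_nonneg (pow_nonneg hM 3) hδ.le) hsp.le, mul_nonneg hδ.le hsp.le,
      mul_nonneg hτ.le hsp.le, mul_nonneg (mul_nonneg hM hτ.le) hsp.le,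
      mul_nonneg (mul_nonneg (sq_nonneg (M : ℝ)) hτ.le) hsp.le,
      mul_nonneg (mul_nonneg (pow_nonneg hM 3) hτ.le) hsp.le]

end Vale.Agent.P150.Fast.Dom
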