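import Vale.Agent.P150.Fast.Dom.Innov

/-!
Gram-Schmidt with a threshold: a family of vectors is written in an orthonormal system with
triangular coefficients of bounded size, up to residuals below the threshold. Used for P150
(module M3).
-/

open MeasureTheory Real Finset
open scoped Matrix

namespace Vale.Agent.P150.Fast.Dom

variable {n M : ℕ}

theorem dot_self_nonneg' (u : Fin n → ℝ) : 0 ≤ u ⬝ᵥ u := sum_nonneg fun _ _ => mul_self_nonneg _

theorem dot_sq_le (u v : Fin n → ℝ) : (u ⬝ᵥ v) ^ 2 ≤ (u ⬝ᵥ u) * (v ⬝ᵥ v) := by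
  have h := sum_mul_sq_le_sq_mul_sq univ u v
  simp only [dotProduct, ← pow_two]
  exact h

/-- The orthonormal vectors. -/
noncomputable def gs (τ : ℝ) (w : Fin M → Fin n → ℝ) (k : Fin M) : Fin n → ℝ :=
  let u := w k - ∑ c ∈ (Iio k).attach, (gs τ w c.1 ⬝ᵥ w k) • gs τ w c.1
  if τ ^ 2 ≤ u ⬝ᵥ u then (√(u ⬝ᵥ u))⁻¹ • u else 0
  termination_by k.1
  decreasing_by all_goals exact Fin.lt_def.1 (mem_Iio.1 c.2)

/-- What is left of a vector after removing the earlier ones. -/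
noncomputable def gsRes (τ : ℝ) (w : Fin M → Fin n → ℝ) (k : Fin M) : Fin n → ℝ :=
  w k - ∑ c ∈ Iio k, (gs τ w c ⬝ᵥ w k) • gs τ w c

/-- The coefficients of the orthonormal vectors. -/
noncomputable def gsR (τ : ℝ) (w : Fin M → Fin n → ℝ) (k : Fin M) : Fin M → ℝ :=
  if τ ^ 2 ≤ gsRes τ w k ⬝ᵥ gsRes τ w k then
    (√(gsRes τ w k ⬝ᵥ gsRes τ w k))⁻¹ • ((Pi.single k 1 : Fin M → ℝ)
      - ∑ c ∈ (Iio k).attach, (gs τ w c.1 ⬝ᵥ w k) • gsR τ w c.1)
  else 0
  termination_by k.1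
  decreasing_by all_goals exact Fin.lt_def.1 (mem_Iio.1 c.2)

variable {τ : ℝ} {w : Fin M → Fin n → ℝ}

theorem gs_eq (k : Fin M) : gs τ w k = if τ ^ 2 ≤ gsRes τ w k ⬝ᵥ gsRes τ w k then
    (√(gsRes τ w k ⬝ᵥ gsRes τ w k))⁻¹ • gsRes τ w k else 0 := by
  rw [gs]
  simp only [gsRes, sum_attach (Iio k) fun c => (gs τ w c ⬝ᵥ w k) • gs τ w c]
  congr

theorem gsR_eq (k : Fin M) : gsR τ w k = if τ ^ 2 ≤ gsRes τ w k ⬝ᵥ gsRes τ w k then
    (√(gsRes τ w k ⬝ᵥ gsRes τ w k))⁻¹ • ((Pi.single k 1 : Fin M → ℝ)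
      - ∑ c ∈ Iio k, (gs τ w c ⬝ᵥ w k) • gsR τ w c) else 0 := by
  rw [gsR]
  simp only [sum_attach (Iio k) fun c => (gs τ w c ⬝ᵥ w k) • gsR τ w c]

theorem gs_unit (hτ : 0 < τ) (k : Fin M) : gs τ w k ⬝ᵥ gs τ w k = 1 ∨ gs τ w k = 0 := by
  rw [gs_eq]
  split
  · next h =>
    refine Or.inl ?_
    have hp : 0 < gsRes τ w k ⬝ᵥ gsRes τ w k := (pow_pos hτ 2).trans_le h
    rw [smul_dotProduct, dotProduct_smul, smul_eq_mul, smul_eq_mul, ← mul_assoc, ← mul_inv,
      mul_self_sqrt hp.le, inv_mul_cancel₀ hp.ne']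
  · exact Or.inr rfl

theorem gs_orth_lt (hτ : 0 < τ) : ∀ (N : ℕ) (k : Fin M), k.1 ≤ N → ∀ m, m < k →
    gs τ w m ⬝ᵥ gs τ w k = 0 := by
  intro N
  induction N with
  | zero => exact fun k hk m hm => absurd (Fin.lt_def.1 hm) (by omega)
  | succ N ih =>
    intro k hk m hm
    have hr : gs τ w m ⬝ᵥ gsRes τ w k = 0 := by
      rw [gsRes, dotProduct_sub, dotProduct_sum, Finset.sum_eq_single m]
      · rw [dotProduct_smul, smul_eq_mul]
        rcases gs_unit (w := w) hτ m with h | h <;> simp [h]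
      · intro c hc hne
        rw [dotProduct_smul, smul_eq_mul]
        rcases lt_or_gt_of_ne hne with h | h
        · rw [dotProduct_comm (gs τ w m), ih m (by have := Fin.lt_def.1 hm; omega) c h, mul_zero]
        · rw [ih c (by have := Fin.lt_def.1 (mem_Iio.1 hc); omega) m h, mul_zero]
      · exact fun h => absurd (mem_Iio.2 hm) h
    rw [gs_eq k]
    split
    · rw [dotProduct_smul, hr, smul_zero]
    · rw [dotProduct_zero]

theorem gs_orth (hτ : 0 < τ) (l m : Fin M) (h : l ≠ m) : gs τ w l ⬝ᵥ gs τ w m = 0 := by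
  rcases lt_or_gt_of_ne h with h | h
  · exact gs_orth_lt hτ m m le_rfl l h
  · rw [dotProduct_comm]; exact gs_orth_lt hτ l l le_rfl m h

/-- The orthonormal system of a family. -/
noncomputable def gsSys (hτ : 0 < τ) (w : Fin M → Fin n → ℝ) : OrthSys n M :=
  ⟨gs τ w, gs_orth hτ, gs_unit hτ⟩

theorem gs_dot_le (hτ : 0 < τ) (c : Fin M) (u : Fin n → ℝ) :
    (gs τ w c ⬝ᵥ u) ^ 2 ≤ u ⬝ᵥ u := by
  refine (dot_sq_le _ _).trans ?_
  rcases gs_unit (w := w) hτ c with h | h
  · rw [h, one_mul]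
  · simp [h, dot_self_nonneg']

/-- The square of a vector in the earlier directions and the rest. -/
theorem gsRes_sq (hτ : 0 < τ) (k : Fin M) : gsRes τ w k ⬝ᵥ gsRes τ w k
    = w k ⬝ᵥ w k - ∑ c ∈ Iio k, (gs τ w c ⬝ᵥ w k) ^ 2 := by
  have e : ∀ c ∈ Iio k, gs τ w c ⬝ᵥ gsRes τ w k = 0 := by
    intro c hc
    rw [gsRes, dotProduct_sub, dotProduct_sum, Finset.sum_eq_single c]
    · rw [dotProduct_smul, smul_eq_mul]
      rcases gs_unit (w := w) hτ c with h | h <;> simp [h]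
    · intro b _ hne
      rw [dotProduct_smul, gs_orth hτ c b (Ne.symm hne), smul_zero]
    · exact fun h => absurd hc h
  conv_lhs => arg 1; rw [gsRes]
  rw [sub_dotProduct, sum_dotProduct, sum_eq_zero fun c hc => by
      rw [smul_dotProduct, e c hc, smul_zero], sub_zero, gsRes, dotProduct_sub, dotProduct_sum]
  congr 1
  refine sum_congr rfl fun c _ => ?_
  rw [dotProduct_smul, smul_eq_mul, dotProduct_comm (w k), pow_two]

/-- The residual after all directions up to the vector itself. -/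
noncomputable def gsTail (τ : ℝ) (w : Fin M → Fin n → ℝ) (k : Fin M) : Fin n → ℝ :=
  w k - ∑ c ∈ Iic k, (gs τ w c ⬝ᵥ w k) • gs τ w c

theorem gs_self_dot (hτ : 0 < τ) (k : Fin M) (h : τ ^ 2 ≤ gsRes τ w k ⬝ᵥ gsRes τ w k) :
    gs τ w k ⬝ᵥ w k = √(gsRes τ w k ⬝ᵥ gsRes τ w k) ∧
      gsRes τ w k = (gs τ w k ⬝ᵥ w k) • gs τ w k := by
  have hp : 0 < gsRes τ w k ⬝ᵥ gsRes τ w k := (pow_pos hτ 2).trans_le h
  have he : gs τ w k = (√(gsRes τ w k ⬝ᵥ gsRes τ w k))⁻¹ • gsRes τ w k := by rw [gs_eq, if_pos h]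
  have hd : gs τ w k ⬝ᵥ w k = gs τ w k ⬝ᵥ gsRes τ w k := by
    rw [gsRes, dotProduct_sub, dotProduct_sum, sum_eq_zero fun c hc => by
      rw [dotProduct_smul, gs_orth hτ k c (ne_of_gt (mem_Iio.1 hc)), smul_zero], sub_zero]
  have h1 : gs τ w k ⬝ᵥ w k = √(gsRes τ w k ⬝ᵥ gsRes τ w k) := by
    rw [hd, he, smul_dotProduct, smul_eq_mul, inv_mul_eq_div, div_sqrt]
  refine ⟨h1, ?_⟩
  rw [h1, he, smul_smul, mul_inv_cancel₀ (sqrt_pos.2 hp).ne', one_smul]

theorem gsTail_sq (hτ : 0 < τ) (k : Fin M) : gsTail τ w k ⬝ᵥ gsTail τ w k ≤ τ ^ 2 := by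
  have e : gsTail τ w k = gsRes τ w k - (gs τ w k ⬝ᵥ w k) • gs τ w k := by
    rw [gsTail, gsRes, ← Finset.Iio_insert k, sum_insert (by simp)]
    abel
  rw [e]
  by_cases h : τ ^ 2 ≤ gsRes τ w k ⬝ᵥ gsRes τ w k
  · rw [← (gs_self_dot hτ k h).2, sub_self, zero_dotProduct]; positivity
  · have hz : gs τ w k = 0 := by rw [gs_eq, if_neg h]
    rw [hz, smul_zero, sub_zero]
    exact (not_le.1 h).le

/-- A later direction hardly sees an earlier vector. -/
theorem gs_dot_late (hτ : 0 < τ) {k l : Fin M} (hkl : k < l) : |gs τ w l ⬝ᵥ w k| ≤ τ := by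
  have e : gs τ w l ⬝ᵥ w k = gs τ w l ⬝ᵥ gsTail τ w k := by
    rw [gsTail, dotProduct_sub, dotProduct_sum, sum_eq_zero fun c hc => by
      rw [dotProduct_smul, gs_orth hτ l c (ne_of_gt ((mem_Iic.1 hc).trans_lt hkl)), smul_zero],
      sub_zero]
  rw [e]
  exact abs_le_of_sq_le_sq ((gs_dot_le hτ l _).trans (gsTail_sq hτ k)) hτ.le

theorem gs_comb (k : Fin M) : gs τ w k = ∑ j, gsR τ w k j • w j := by
  induction k using WellFoundedLT.induction with
  | _ k ih =>
    rw [gs_eq, gsR_eq]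
    split
    · simp only [Pi.smul_apply, smul_eq_mul, mul_smul, ← smul_sum, Pi.sub_apply, sub_smul,
        sum_sub_distrib, Finset.sum_apply, sum_smul]
      congr 1
      rw [gsRes]
      congr 1
      · rw [Finset.sum_eq_single k (fun j _ hj => by simp [hj]) (fun h => absurd (mem_univ _) h)]
        simp
      · rw [sum_comm]
        refine sum_congr rfl fun c hc => ?_
        rw [← smul_sum, ← ih c (mem_Iio.1 hc)]
    · simp

theorem gsR_tri (k : Fin M) : ∀ j, k < j → gsR τ w k j = 0 := by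
  induction k using WellFoundedLT.induction with
  | _ k ih =>
    intro j hj
    rw [gsR_eq]
    split
    · simp only [Pi.smul_apply, Pi.sub_apply, Finset.sum_apply, smul_eq_mul,
        Pi.single_eq_of_ne (ne_of_gt hj)]
      rw [sum_eq_zero fun c hc => by rw [ih c (mem_Iio.1 hc) j ((mem_Iio.1 hc).trans hj), mul_zero],
        sub_zero, mul_zero]
    · rfl

theorem gs_eq_zero_or {k : Fin M} : gs τ w k = 0 ∧ gsR τ w k = 0 ∨
    τ ^ 2 ≤ gsRes τ w k ⬝ᵥ gsRes τ w k := by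
  by_cases h : τ ^ 2 ≤ gsRes τ w k ⬝ᵥ gsRes τ w k
  · exact Or.inr h
  · exact Or.inl ⟨by rw [gs_eq, if_neg h], by rw [gsR_eq, if_neg h]⟩

theorem gsR_bound (hτ : 0 < τ) (hτ1 : τ ≤ 1) {B : ℝ} (hB : 0 ≤ B)
    (hw : ∀ k, w k ⬝ᵥ w k ≤ B ^ 2) (k : Fin M) :
    ∀ j, |gsR τ w k j| ≤ ((1 + M * B) / τ) ^ (k.1 + 1) := by
  set X := (1 + M * B) / τ with hX
  have hMB : 1 ≤ 1 + (M : ℝ) * B := le_add_of_nonneg_right (by positivity)
  have hX1 : 1 ≤ X := by rw [hX, le_div_iff₀ hτ]; linarith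
  induction k using WellFoundedLT.induction with
  | _ k ih =>
    intro j
    rw [gsR_eq]
    split
    · next h =>
      have hs : τ ≤ √(gsRes τ w k ⬝ᵥ gsRes τ w k) := by
        exact (sqrt_sq hτ.le).symm.trans_le (sqrt_le_sqrt h)
      simp only [Pi.smul_apply, Pi.sub_apply, Finset.sum_apply, smul_eq_mul, abs_mul,
        abs_inv, abs_of_pos (hτ.trans_le hs)]
      have hsum : |(Pi.single k 1 : Fin M → ℝ) j - ∑ c ∈ Iio k, (gs τ w c ⬝ᵥ w k) * gsR τ w c j|
          ≤ (1 + M * B) * X ^ k.1 := by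
        refine (abs_sub _ _).trans ?_
        have h1 : |(Pi.single k 1 : Fin M → ℝ) j| ≤ 1 := by
          by_cases hj : j = k <;> simp [hj]
        have h2 : |∑ c ∈ Iio k, (gs τ w c ⬝ᵥ w k) * gsR τ w c j| ≤ M * (B * X ^ k.1) := by
          refine (abs_sum_le_sum_abs _ _).trans ((sum_le_card_nsmul _ _ (B * X ^ k.1) ?_).trans ?_)
          · intro c hc
            rw [abs_mul]
            refine mul_le_mul (abs_le_of_sq_le_sq ((gs_dot_le hτ c _).trans (hw k)) hB)
              ((ih c (mem_Iio.1 hc) j).trans (pow_le_pow_right₀ hX1 ?_)) (abs_nonneg _) hB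
            exact Fin.lt_def.1 (mem_Iio.1 hc)
          · rw [nsmul_eq_mul]
            refine mul_le_mul_of_nonneg_right ?_ (by positivity)
            exact_mod_cast (card_le_univ _).trans (Fintype.card_fin M).le
        have h3 : (1 : ℝ) ≤ X ^ k.1 := one_le_pow₀ hX1
        calc _ ≤ 1 * X ^ k.1 + M * (B * X ^ k.1) := add_le_add (h1.trans (by rwa [one_mul])) h2
          _ = _ := by ring
      refine (mul_le_mul (inv_anti₀ hτ hs) hsum (abs_nonneg _) (inv_nonneg.2 hτ.le)).trans_eq ?_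
      rw [pow_succ, hX]; ring
    · simpa using pow_nonneg (zero_le_one.trans hX1) _

theorem measurable_gs {α : Type*} [MeasurableSpace α] {W : α → Fin M → Fin n → ℝ}
    (hW : Measurable W) (k : Fin M) :
    (Measurable fun a => gs τ (W a) k) ∧ Measurable fun a => gsR τ (W a) k := by
  induction k using WellFoundedLT.induction with
  | _ k ih =>
    have hr : Measurable fun a => gsRes τ (W a) k := by
      refine measurable_pi_lambda _ fun i => ?_
      simp only [gsRes, Pi.sub_apply, Finset.sum_apply, Pi.smul_apply, smul_eq_mul, dotProduct]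
      exact ((measurable_pi_iff.1 ((measurable_pi_iff.1 hW) k)) i).sub <|
        Finset.measurable_sum _ fun c hc => by
          have := (ih c (mem_Iio.1 hc)).1
          fun_prop
    have hs : MeasurableSet {a | τ ^ 2 ≤ gsRes τ (W a) k ⬝ᵥ gsRes τ (W a) k} :=
      measurableSet_le measurable_const (by simp only [dotProduct]; fun_prop)
    constructor
    · rw [show (fun a => gs τ (W a) k) = _ from funext fun a => gs_eq k]
      refine Measurable.ite hs ?_ measurable_const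
      refine measurable_pi_lambda _ fun i => ?_
      simp only [Pi.smul_apply, smul_eq_mul, dotProduct]
      fun_prop
    · rw [show (fun a => gsR τ (W a) k) = _ from funext fun a => gsR_eq k]
      refine Measurable.ite hs ?_ measurable_const
      refine measurable_pi_lambda _ fun j => ?_
      simp only [Pi.smul_apply, Pi.sub_apply, Finset.sum_apply, smul_eq_mul, dotProduct]
      refine Measurable.mul (by fun_prop) (measurable_const.sub ?_)
      exact Finset.measurable_sum _ fun c hc => by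
        have h1 := (ih c (mem_Iio.1 hc)).1
        have h2 := (ih c (mem_Iio.1 hc)).2
        fun_prop

end Vale.Agent.P150.Fast.Dom
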