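import Vale.Agent.P150.Fast.Dom.Point

/-!
The facts about the law of a path used inside module M3 of P150: linearity, the variational bound
against the reference path with a uniform start, and the typical behaviour of the noises.
-/

open MeasureTheory Real Finset
open scoped Matrix

namespace Vale.Agent.P150.Fast.Dom

/-- A path law is monotone and linear on bounded measurable functions. -/
def TrajLinStmt : Prop :=
  ∀ (n r : ℕ) (A : Matrix (Fin n) (Fin n) ℝ) (u : ℝ) (ν : Conf n → ℝ) (S : Finset (Fin n)),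
    A.PosDef → (∀ x, 0 < ν x) → ∑ x, ν x = 1 →
    ∀ F G : Traj n r → ℝ, Measurable F → Measurable G →
      (∃ B, ∀ P, |F P| ≤ B) → (∃ B, ∀ P, |G P| ≤ B) →
      ((∀ P, F P ≤ G P) → trajE A u ν S F ≤ trajE A u ν S G) ∧
      trajE A u ν S (fun P => F P + G P) = trajE A u ν S F + trajE A u ν S G ∧
      ∀ c : ℝ, trajE A u ν S (fun P => c * F P) = c * trajE A u ν S F ∧
        trajE A u ν S (fun _ : Traj n r => c) = c

/-- The variational bound: the start costs `n log 2`, the steps cost `trajD`. -/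
def TrajVarStmt : Prop :=
  ∀ (n r : ℕ) (A : Matrix (Fin n) (Fin n) ℝ) (u : ℝ) (ν : Conf n → ℝ) (S : Finset (Fin n)),
    A.PosDef → 0 ≤ u → (∀ x, 0 < ν x) → ∑ x, ν x = 1 →
    ∀ Φ : Traj n r → ℝ, Measurable Φ → (∃ B, ∀ P, |Φ P| ≤ B) →
      trajE A u ν S Φ ≤ trajD A u ν S r + n * log 2
        + log (∑ x, (1 / 2 : ℝ) ^ n * ∫ g, pathE qR (stepsOf A 0 (sideField u x g) S) x
            (fun ω => exp (Φ (x, g, ω))) ∂gp (Fin n))

/-- Outside an event of probability `C / n` the noises have their lengths and little weight in the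
earlier directions. -/
def TrajGoodStmt : Prop :=
  ∀ (r : ℕ) (τ a ε : ℝ), 0 < τ → 0 < a → 0 < ε → ∃ C : ℝ, 0 ≤ C ∧
    ∀ (n : ℕ) (A : Matrix (Fin n) (Fin n) ℝ) (u : ℝ) (ν : Conf n → ℝ) (S : Finset (Fin n)),
      1 ≤ n → A.PosDef → (∀ v, a * ∑ i, v i ^ 2 ≤ v ⬝ᵥ (A *ᵥ v)) → (∀ x, 0 < ν x) →
      ∑ x, ν x = 1 →
      trajE A u ν S ({P : Traj n r |
        ¬ PathOK τ ((n : ℝ)⁻¹ * A⁻¹.trace) ε (stateAt P) (noiseAt A P)}.indicator 1) ≤ C / n

end Vale.Agent.P150.Fast.Dom
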