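import Vale.Agent.P150.Fast.Dom.Meas
import Vale.Agent.P150.Fast.Dom.PathStmt

/-!
The good part of a site test along a path and its measurability. Used for P150 (module M3).
-/

open MeasureTheory ProbabilityTheory Real Finset
open scoped Matrix ENNReal

namespace Vale.Agent.P150.Fast.Dom

variable {n r : ℕ} {τ δ C β W η ε u Bd : ℝ}

/-- The sum of a test over the sites. -/
noncomputable def testSum (hτ : 0 < τ) (δ C β : ℝ) (S : Finset (Fin n))
    (f : Bool → Coef (ncol r) → Site r → ℝ) (d : Dis n) (x : Fin (r + 1) → Conf n)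
    (e : Fin (r + 1) → Fin n → ℝ) (q : Fin (ncol r) × Fin n → ℝ) : ℝ :=
  ∑ i, f (decide (i ∉ S)) (rdCoef τ δ C (kmat n β d) (wcols x e))
    (siteOf x e (innovOf hτ β (wcols x e) d q) i)

/-- The part of it on the typical event. -/
noncomputable def goodPart (hτ : 0 < τ) (δ C β W ε : ℝ) (S : Finset (Fin n))
    (f : Bool → Coef (ncol r) → Site r → ℝ) (d : Dis n) (x : Fin (r + 1) → Conf n)
    (e : Fin (r + 1) → Fin n → ℝ) (q : Fin (ncol r) × Fin n → ℝ) : ℝ :=
  {q' | PathOK τ W ε x e ∧ auxErr hτ (wcols x e) q' ≤ ε * √n}.indicator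
    (testSum hτ δ C β S f d x e) q

/-- Its mean over the auxiliary noise, along a path. -/
noncomputable def goodMean (hτ : 0 < τ) (δ C β W ε : ℝ) (S : Finset (Fin n))
    (f : Bool → Coef (ncol r) → Site r → ℝ) (d : Dis n) (P : Traj n r) : ℝ :=
  ∫ q, goodPart hτ δ C β W ε S f d (stateAt P) (noiseAt (aop n β d) P) q
    ∂gp (Fin (ncol r) × Fin n)

/-- The reference average of an exponential. -/
noncomputable def refExp (β u : ℝ) (S : Finset (Fin n)) (d : Dis n) (Φ : Traj n r → ℝ) : ℝ :=
  ∑ x, (1 / 2 : ℝ) ^ n * ∫ g, pathE qR (stepsOf (aop n β d) 0 (sideField u x g) S) x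
    (fun ω => exp (Φ (x, g, ω))) ∂gp (Fin n)

theorem abs_testSum_le (hτ : 0 < τ) (δ C β : ℝ) (S : Finset (Fin n))
    {f : Bool → Coef (ncol r) → Site r → ℝ} (hf : ∀ b θ p, |f b θ p| ≤ Bd) (d : Dis n)
    (x : Fin (r + 1) → Conf n) (e : Fin (r + 1) → Fin n → ℝ) (q : Fin (ncol r) × Fin n → ℝ) :
    |testSum hτ δ C β S f d x e q| ≤ n * Bd :=
  (abs_sum_le_sum_abs _ _).trans ((sum_le_sum fun i _ => hf _ _ _).trans_eq (by simp))

theorem abs_goodPart_le (hτ : 0 < τ) (hBd : 0 ≤ Bd) (δ C β W ε : ℝ) (S : Finset (Fin n))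
    {f : Bool → Coef (ncol r) → Site r → ℝ} (hf : ∀ b θ p, |f b θ p| ≤ Bd) (d : Dis n)
    (x : Fin (r + 1) → Conf n) (e : Fin (r + 1) → Fin n → ℝ) (q : Fin (ncol r) × Fin n → ℝ) :
    |goodPart hτ δ C β W ε S f d x e q| ≤ n * Bd := by
  classical
  rw [goodPart, Set.indicator_apply]
  split
  · exact abs_testSum_le hτ δ C β S hf d x e q
  · rw [abs_zero]; positivity

theorem measurable_siteOf {α : Type*} [MeasurableSpace α] (x : Fin (r + 1) → Conf n)
    {e : α → Fin (r + 1) → Fin n → ℝ} (he : Measurable e) {y : α → Fin (ncol r) → Fin n → ℝ}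
    (hy : Measurable y) (i : Fin n) : Measurable fun a => siteOf x (e a) (y a) i := by
  refine measurable_const.prodMk (Measurable.prodMk ?_ ?_) <;>
    exact measurable_pi_lambda _ fun b => by fun_prop

theorem measurable_test (hτ : 0 < τ) (hδ : 0 < δ) (hC : 0 ≤ C) (S : Finset (Fin n))
    {f : Bool → Coef (ncol r) → Site r → ℝ} (hf : ∀ b θ, Measurable (f b θ))
    (x : Fin (r + 1) → Conf n) {α : Type*} [MeasurableSpace α] {D : α → Dis n} (hD : Measurable D)
    {e : α → Fin (r + 1) → Fin n → ℝ} (he : Measurable e)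
    {q : α → Fin (ncol r) × Fin n → ℝ} (hq : Measurable q) :
    Measurable fun a => testSum hτ δ C β S f (D a) x (e a) (q a) := by
  classical
  have hw : Measurable fun a => wcols x (e a) := (continuous_wcols x).measurable.comp he
  refine Finset.measurable_sum _ fun i _ => ?_
  have hs : Measurable fun a =>
      siteOf x (e a) (innovOf hτ β (wcols x (e a)) (D a) (q a)) i :=
    measurable_siteOf x he (measurable_pi_lambda _ fun l => measurable_innovOf hτ β hD hw hq l) i
  have e1 : ∀ a, f (decide (i ∉ S)) (rdCoef τ δ C (kmat n β (D a)) (wcols x (e a)))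
        (siteOf x (e a) (innovOf hτ β (wcols x (e a)) (D a) (q a)) i)
      = ∑ θ ∈ triNet δ C (ncol r),
          {a | rdCoef τ δ C (kmat n β (D a)) (wcols x (e a)) = θ}.indicator
            (fun a => f (decide (i ∉ S)) θ
              (siteOf x (e a) (innovOf hτ β (wcols x (e a)) (D a) (q a)) i)) a := fun a => by
    simp only [Set.indicator_apply, Set.mem_ofPred_eq]
    rw [Finset.sum_ite_eq, if_pos (rdCoef_mem (τ := τ) hδ hC (kmat n β (D a)) (wcols x (e a)))]
  simp only [e1]
  exact Finset.measurable_sum _ fun θ _ =>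
    ((hf _ θ).comp hs).indicator (measurableSet_cell_eq hD hw θ)

theorem measurable_goodPart (hτ : 0 < τ) (hδ : 0 < δ) (hC : 0 ≤ C) (S : Finset (Fin n))
    {f : Bool → Coef (ncol r) → Site r → ℝ} (hf : ∀ b θ, Measurable (f b θ))
    (x : Fin (r + 1) → Conf n) {α : Type*} [MeasurableSpace α] {D : α → Dis n} (hD : Measurable D)
    {e : α → Fin (r + 1) → Fin n → ℝ} (he : Measurable e)
    {q : α → Fin (ncol r) × Fin n → ℝ} (hq : Measurable q) :
    Measurable fun a => goodPart hτ δ C β W ε S f (D a) x (e a) (q a) := by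
  classical
  have hw : Measurable fun a => wcols x (e a) := (continuous_wcols x).measurable.comp he
  have hs : MeasurableSet {a | PathOK τ W ε x (e a) ∧ auxErr hτ (wcols x (e a)) (q a) ≤ ε * √n} :=
    (measurableSet_pathOK he).inter
      (measurableSet_le (measurable_auxErr hτ hw hq) measurable_const)
  simp only [goodPart, Set.indicator_apply, Set.mem_ofPred_eq]
  exact Measurable.ite hs (measurable_test hτ hδ hC S hf x hD he hq) measurable_const

theorem measurable_noiseAt (A : Matrix (Fin n) (Fin n) ℝ) :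
    Measurable fun P : Traj n r => noiseAt A P := by
  have hst : ∀ b : Fin (r + 1), Measurable fun P : Traj n r => stateAt P b := fun b => by
    cases b using Fin.cases <;> simp only [stateAt, Fin.cons_zero, Fin.cons_succ] <;> fun_prop
  refine measurable_pi_lambda _ fun b => ?_
  cases b using Fin.cases with
  | zero => simp only [noiseAt, Fin.cons_zero]; fun_prop
  | succ t =>
    simp only [noiseAt, Fin.cons_succ]
    refine Measurable.sub (measurable_mulVec (fun _ _ => measurable_const) (by fun_prop)) ?_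
    exact (measurable_of_finite fun x : Conf n => vec x).comp (hst t.castSucc)

theorem measurable_stateAt : Measurable fun P : Traj n r => stateAt P :=
  measurable_pi_lambda _ fun b => by
    cases b using Fin.cases <;> simp only [stateAt, Fin.cons_zero, Fin.cons_succ] <;> fun_prop

theorem measurable_by_state {γ : Type*} [MeasurableSpace γ]
    {F : (Fin (r + 1) → Conf n) → Traj n r → γ} (hF : ∀ x, Measurable (F x)) :
    Measurable fun P => F (stateAt P) P :=
  (measurable_from_prod_countable_right (f := fun p : (Fin (r + 1) → Conf n) × Traj n r => F p.1 p.2)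
    hF).comp (measurable_stateAt.prodMk measurable_id)

theorem measurable_goodMean (hτ : 0 < τ) (hδ : 0 < δ) (hC : 0 ≤ C) (S : Finset (Fin n))
    {f : Bool → Coef (ncol r) → Site r → ℝ} (hf : ∀ b θ, Measurable (f b θ)) (d : Dis n) :
    Measurable (goodMean hτ δ C β W ε S f d) := by
  refine measurable_by_state (F := fun x P => ∫ q, goodPart hτ δ C β W ε S f d x
    (noiseAt (aop n β d) P) q ∂gp (Fin (ncol r) × Fin n)) fun x => ?_
  refine (StronglyMeasurable.integral_prod_right' (f := fun p : Traj n r × _ =>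
    goodPart hτ δ C β W ε S f d x (noiseAt (aop n β d) p.1) p.2) ?_).measurable
  exact (measurable_goodPart hτ hδ hC S hf x (D := fun _ => d) measurable_const
    ((measurable_noiseAt _).comp measurable_fst) measurable_snd).stronglyMeasurable

theorem abs_goodMean_le (hτ : 0 < τ) (hBd : 0 ≤ Bd) (S : Finset (Fin n))
    {f : Bool → Coef (ncol r) → Site r → ℝ} (hf : ∀ b θ p, |f b θ p| ≤ Bd) (d : Dis n) (P : Traj n r) :
    |goodMean hτ δ C β W ε S f d P| ≤ n * Bd := by
  refine abs_integral_le_integral_abs.trans ?_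
  refine (integral_mono_of_nonneg (ae_of_all _ fun q => abs_nonneg _) (integrable_const (n * Bd))
    (ae_of_all _ fun q => abs_goodPart_le hτ hBd δ C β W ε S hf d _ _ q)).trans_eq ?_
  simp

end Vale.Agent.P150.Fast.Dom
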