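import Vale.Agent.P150.Fast.Dom.Shift
import Vale.Agent.P150.Fast.Goe

/-!
For a fixed orthonormal system (some members may vanish) the images under a matrix of the Gaussian
orthogonal ensemble, with the known coordinates replaced by auxiliary noise, are exactly independent
standard vectors, independent also of the diagonal entries along the system, which have variance
two. Used for P150 (module M3).
-/

open MeasureTheory ProbabilityTheory Real Finset
open scoped Matrix ENNReal

namespace Vale.Agent.P150.Fast.Dom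

variable {n M : ℕ}

/-- Coefficients of the bilinear form. -/
noncomputable def bil (a b : Fin n → ℝ) : Pair n ⊕ Fin n → ℝ :=
  Sum.elim (fun p => a p.1.1 * b p.1.2 + a p.1.2 * b p.1.1) fun i => √2 * (a i * b i)

theorem bil_eq (d : Dis n) (a b : Fin n → ℝ) :
    a ⬝ᵥ (goe n d *ᵥ b) = ∑ j, bil a b j * d j := by
  have e : a ⬝ᵥ (goe n d *ᵥ b) = ∑ i, ∑ j, a i * goe n d i j * b j :=
    sum_congr rfl fun i _ => by simp [Matrix.mulVec, dotProduct, mul_sum, mul_assoc]
  rw [e, Edge.sum_sum_eq, Fintype.sum_sum_type]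
  congr 1
  · refine sum_congr rfl fun p _ => ?_
    rw [goe_symm d p.1.2 p.1.1, goe_pair]
    simp only [bil, Sum.elim_inl]; ring
  · refine sum_congr rfl fun i _ => ?_
    rw [goe_diag]
    simp only [bil, Sum.elim_inr]; ring

theorem bil_inner (a b c e : Fin n → ℝ) :
    ∑ j, bil a b j * bil c e j = (a ⬝ᵥ c) * (b ⬝ᵥ e) + (a ⬝ᵥ e) * (b ⬝ᵥ c) := by
  have h := Edge.sum_sum_eq n fun i j => a i * c i * (b j * e j) + a i * e i * (b j * c j)
  simp only [sum_add_distrib, ← mul_sum, ← sum_mul] at h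
  simp only [dotProduct]
  rw [h, Fintype.sum_sum_type]
  simp only [← sum_add_distrib]
  congr 1
  · exact sum_congr rfl fun p _ => by simp only [bil, Sum.elim_inl]; ring
  · refine sum_congr rfl fun i _ => ?_
    simp only [bil, Sum.elim_inr]
    linear_combination (a i * b i * c i * e i) * mul_self_sqrt (zero_le_two (α := ℝ))

/-- An orthonormal system in which some vectors may vanish. -/
structure OrthSys (n M : ℕ) where
  /-- The vectors. -/
  e : Fin M → Fin n → ℝ
  orth : ∀ l m, l ≠ m → e l ⬝ᵥ e m = 0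
  unit : ∀ l, e l ⬝ᵥ e l = 1 ∨ e l = 0

variable (E : OrthSys n M)

/-- The projection on the members up to `l`. -/
def OrthSys.proj (l : Fin M) (u : Fin n → ℝ) : Fin n → ℝ := fun i =>
  ∑ c ∈ Iic l, (E.e c ⬝ᵥ u) * E.e c i

/-- Its complement. -/
def OrthSys.comp (l : Fin M) (u : Fin n → ℝ) : Fin n → ℝ := u - E.proj l u

theorem OrthSys.dot_proj (l : Fin M) (u v : Fin n → ℝ) :
    v ⬝ᵥ E.proj l u = ∑ c ∈ Iic l, (E.e c ⬝ᵥ u) * (E.e c ⬝ᵥ v) := by
  simp only [dotProduct, OrthSys.proj, mul_sum]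
  rw [sum_comm]
  exact sum_congr rfl fun c _ => sum_congr rfl fun i _ => by ring

theorem OrthSys.proj_symm (l : Fin M) (u v : Fin n → ℝ) :
    v ⬝ᵥ E.proj l u = E.proj l v ⬝ᵥ u := by
  rw [dotProduct_comm (E.proj l v) u, E.dot_proj, E.dot_proj]
  exact sum_congr rfl fun c _ => mul_comm _ _

theorem OrthSys.comp_symm (l : Fin M) (u v : Fin n → ℝ) :
    v ⬝ᵥ E.comp l u = E.comp l v ⬝ᵥ u := by
  rw [OrthSys.comp, OrthSys.comp, dotProduct_sub, sub_dotProduct, E.proj_symm]

theorem OrthSys.dot_self (l : Fin M) :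
    (E.e l ⬝ᵥ E.e l) * (E.e l ⬝ᵥ E.e l) = E.e l ⬝ᵥ E.e l := by
  rcases E.unit l with h | h <;> simp [h]

theorem OrthSys.e_dot_comp {c l : Fin M} (u : Fin n → ℝ) :
    E.e c ⬝ᵥ E.comp l u = if c ≤ l then 0 else E.e c ⬝ᵥ u := by
  rw [OrthSys.comp, dotProduct_sub, E.dot_proj]
  have : ∀ b ∈ Iic l, (E.e b ⬝ᵥ u) * (E.e b ⬝ᵥ E.e c) = if b = c then E.e c ⬝ᵥ u else 0 := by
    intro b _
    split
    · next h =>
      subst h
      rcases E.unit b with h | h <;> simp [h]
    · next h => rw [E.orth b c h, mul_zero]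
  rw [sum_congr rfl this, sum_ite_eq']
  simp only [mem_Iic]
  split <;> simp

/-- The innovation number `l`. -/
noncomputable def OrthSys.innov (d : Dis n) (q : Fin M × Fin n → ℝ) (l : Fin M) : Fin n → ℝ :=
  E.comp l (goe n d *ᵥ E.e l) + E.proj l (fun i => q (l, i))
    + (1 - E.e l ⬝ᵥ E.e l) • E.comp l (fun i => q (l, i))

/-- The diagonal entry along member `l`. -/
noncomputable def OrthSys.xi (d : Dis n) (l : Fin M) : ℝ := E.e l ⬝ᵥ (goe n d *ᵥ E.e l)

/-- Innovations and diagonal entries as a linear map. -/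
noncomputable def OrthSys.arr : (Fin M × Fin n) ⊕ Fin M → (Pair n ⊕ Fin n) ⊕ (Fin M × Fin n) → ℝ :=
  Sum.elim
    (fun k => Sum.elim (bil (E.comp k.1 (Pi.single k.2 1)) (E.e k.1)) fun j =>
      if j.1 = k.1 then (E.proj k.1 (Pi.single j.2 1)
        + (1 - E.e k.1 ⬝ᵥ E.e k.1) • E.comp k.1 (Pi.single j.2 1)) k.2 else 0)
    fun l => Sum.elim (bil (E.e l) (E.e l)) fun _ => 0

/-- The model: independent standard vectors and entries of variance two. -/
noncomputable def OrthSys.modArr : (Fin M × Fin n) ⊕ Fin M → (Fin M × Fin n) ⊕ Fin M → ℝ :=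
  Sum.elim (fun k => Sum.elim (fun j => if j = k then 1 else 0) fun _ => 0)
    fun l => Sum.elim (fun _ => 0) fun m => if m = l then √2 * (E.e l ⬝ᵥ E.e l) else 0

theorem OrthSys.cov (z : (Fin M × Fin n) ⊕ Fin M → ℝ) :
    ∑ i, (∑ k, z k * E.arr k i) ^ 2 = ∑ j, (∑ k, z k * E.modArr k j) ^ 2 := by
  classical
  set U : Fin M → Fin n → ℝ := fun l i => z (Sum.inl (l, i)) with hU
  set w : Fin M → ℝ := fun l => z (Sum.inr l) with hw
  set a : Fin M → Fin n → ℝ := fun l => E.comp l (U l) + w l • E.e l with ha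
  have single : ∀ (l : Fin M) (i : Fin n) (v : Fin n → ℝ),
      E.comp l (Pi.single i 1) ⬝ᵥ v = E.comp l v i := fun l i v => by
    rw [← E.comp_symm, single_dotProduct, one_mul]
  have e : ∀ l i, E.comp l (U l) i = ∑ k, U l k * E.comp l (Pi.single k 1) i := by
    intro l i
    rw [← single l i (U l), dotProduct]
    refine sum_congr rfl fun k _ => ?_
    rw [mul_comm, ← single l i (Pi.single k 1)]
    congr 1
    rw [dotProduct_single, mul_one]
  have hA : ∀ j, ∑ k, z k * E.arr k (Sum.inl j) = ∑ l, bil (a l) (E.e l) j := by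
    intro j
    rw [Fintype.sum_sum_type, Fintype.sum_prod_type, ← sum_add_distrib]
    refine sum_congr rfl fun l _ => ?_
    cases j with
    | inl p =>
      simp only [OrthSys.arr, Sum.elim_inl, Sum.elim_inr, bil, ha, Pi.add_apply,
        Pi.smul_apply, smul_eq_mul, e]
      simp only [hU, hw, add_mul, sum_mul, mul_add, sum_add_distrib, ← mul_assoc]
      simp only [mul_comm, mul_left_comm, mul_assoc]
      ring
    | inr i =>
      simp only [OrthSys.arr, Sum.elim_inl, Sum.elim_inr, bil, ha, Pi.add_apply,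
        Pi.smul_apply, smul_eq_mul, e]
      simp only [hU, hw, add_mul, sum_mul, mul_add, mul_sum]
      congr 1
      · exact sum_congr rfl fun k _ => by ring
      · ring
  have hB : ∀ j : Fin M × Fin n, ∑ k, z k * E.arr k (Sum.inr j)
      = (E.proj j.1 (U j.1) + (1 - E.e j.1 ⬝ᵥ E.e j.1) • E.comp j.1 (U j.1)) j.2 := by
    intro j
    rw [Fintype.sum_sum_type, Fintype.sum_prod_type, Finset.sum_eq_single j.1
      (fun l _ hl => by simp [OrthSys.arr, Ne.symm hl]) (fun h => absurd (mem_univ _) h)]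
    have p1 : E.proj j.1 (U j.1) j.2 = U j.1 ⬝ᵥ E.proj j.1 (Pi.single j.2 1) := by
      rw [E.proj_symm, dotProduct_single, mul_one]
    have p2 : E.comp j.1 (U j.1) j.2 = U j.1 ⬝ᵥ E.comp j.1 (Pi.single j.2 1) := by
      rw [E.comp_symm, dotProduct_single, mul_one]
    rw [Pi.add_apply, Pi.smul_apply, smul_eq_mul, p1, p2]
    simp only [OrthSys.arr, Sum.elim_inl, Sum.elim_inr, if_true, mul_zero, sum_const_zero, add_zero,
      dotProduct, Pi.add_apply, Pi.smul_apply, smul_eq_mul, mul_sum, ← sum_add_distrib, hU]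
    exact sum_congr rfl fun i _ => by ring
  have hC : ∀ j : Fin M × Fin n, ∑ k, z k * E.modArr k (Sum.inl j) = z (Sum.inl j) := fun j => by
    simp [OrthSys.modArr, Fintype.sum_sum_type]
  have hD : ∀ l, ∑ k, z k * E.modArr k (Sum.inr l) = w l * (√2 * (E.e l ⬝ᵥ E.e l)) := fun l => by
    simp [OrthSys.modArr, Fintype.sum_sum_type, hw]
  have hae : ∀ l, a l ⬝ᵥ E.e l = w l * (E.e l ⬝ᵥ E.e l) := fun l => by
    rw [dotProduct_comm, ha]
    simp [dotProduct_add, E.e_dot_comp]
  rw [Fintype.sum_sum_type (fun i => (∑ k, z k * E.arr k i) ^ 2),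
    Fintype.sum_sum_type (fun j => (∑ k, z k * E.modArr k j) ^ 2)]
  simp only [hA, hB, hC, hD]
  have h1 : ∑ j, (∑ l, bil (a l) (E.e l) j) ^ 2
      = ∑ l, ((a l ⬝ᵥ a l) * (E.e l ⬝ᵥ E.e l) + (a l ⬝ᵥ E.e l) ^ 2) := by
    simp only [pow_two, sum_mul_sum]
    rw [sum_comm]
    refine sum_congr rfl fun l _ => ?_
    rw [sum_comm, Finset.sum_eq_single l]
    · rw [bil_inner, dotProduct_comm (E.e l) (a l)]
    · intro m _ hm
      have h0 : ∀ b c : Fin M, b ≠ c → c < b → a b ⬝ᵥ E.e c = 0 := fun b c hbc hc => by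
        rw [dotProduct_comm, ha]
        simp [dotProduct_add, E.e_dot_comp, hc.le, E.orth c b (Ne.symm hbc)]
      rw [bil_inner, E.orth l m (Ne.symm hm), mul_zero, zero_add, dotProduct_comm (E.e l) (a m)]
      rcases lt_or_gt_of_ne hm with h | h
      · rw [h0 l m (Ne.symm hm) h, zero_mul]
      · rw [h0 m l hm h, mul_zero]
    · exact fun h => absurd (mem_univ _) h
  rw [h1, Fintype.sum_prod_type, Fintype.sum_prod_type, ← sum_add_distrib, ← sum_add_distrib]
  refine sum_congr rfl fun l _ => ?_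
  set c := E.comp l (U l) with hc
  set p := E.proj l (U l) with hp
  have hec : E.e l ⬝ᵥ c = 0 := by simp [hc, E.e_dot_comp]
  have haa : a l ⬝ᵥ a l = c ⬝ᵥ c + w l ^ 2 * (E.e l ⬝ᵥ E.e l) := by
    rw [ha]
    simp only [← hc, add_dotProduct, dotProduct_add, smul_dotProduct, dotProduct_smul, smul_eq_mul,
      dotProduct_comm c (E.e l), hec]
    ring
  have hUl : U l = c + p := by simp [hc, hp, OrthSys.comp]
  have hcp : c ⬝ᵥ p = 0 := by
    rw [hp, E.dot_proj]
    refine sum_eq_zero fun b hb => ?_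
    rw [hc, E.e_dot_comp, if_pos (mem_Iic.1 hb), mul_zero]
  have hUU : ∑ i, z (Sum.inl (l, i)) ^ 2 = c ⬝ᵥ c + p ⬝ᵥ p := by
    have : ∑ i, z (Sum.inl (l, i)) ^ 2 = U l ⬝ᵥ U l := by simp [dotProduct, hU, pow_two]
    rw [this, hUl, add_dotProduct, dotProduct_add, dotProduct_add, hcp, dotProduct_comm p c, hcp]
    ring
  have hq : ∑ i, (p + (1 - E.e l ⬝ᵥ E.e l) • c) i ^ 2
      = p ⬝ᵥ p + (1 - E.e l ⬝ᵥ E.e l) * (c ⬝ᵥ c) := by
    have : ∑ i, (p + (1 - E.e l ⬝ᵥ E.e l) • c) i ^ 2
        = (p + (1 - E.e l ⬝ᵥ E.e l) • c) ⬝ᵥ (p + (1 - E.e l ⬝ᵥ E.e l) • c) := by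
      simp [dotProduct, pow_two]
    rw [this, add_dotProduct, dotProduct_add, dotProduct_add, dotProduct_smul, smul_dotProduct,
      smul_dotProduct, dotProduct_smul, hcp, dotProduct_comm p c, hcp]
    simp only [smul_eq_mul]
    linear_combination (c ⬝ᵥ c) * E.dot_self l
  rw [hq, hUU, haa, hae, mul_pow, mul_pow, mul_pow, sq_sqrt zero_le_two]
  rcases E.unit l with h | h
  · rw [h]; ring
  · simp [h]; ring

theorem OrthSys.arrMap_arr (d : Dis n) (q : Fin M × Fin n → ℝ) :
    arrMap E.arr (Sum.elim d q) = Sum.elim (fun k => E.innov d q k.1 k.2) (E.xi d) := by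
  classical
  have single : ∀ (l : Fin M) (i : Fin n) (v : Fin n → ℝ),
      E.comp l (Pi.single i 1) ⬝ᵥ v = E.comp l v i := fun l i v => by
    rw [← E.comp_symm, single_dotProduct, one_mul]
  have single' : ∀ (l : Fin M) (i : Fin n) (v : Fin n → ℝ),
      E.proj l v i = ∑ j, E.proj l (Pi.single j 1) i * v j := fun l i v => by
    rw [show E.proj l v i = E.proj l (Pi.single i 1) ⬝ᵥ v by
      rw [← E.proj_symm, single_dotProduct, one_mul], dotProduct]
    refine sum_congr rfl fun j _ => ?_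
    congr 1
    rw [show E.proj l (Pi.single i 1) j = (Pi.single j 1 : Fin n → ℝ) ⬝ᵥ E.proj l (Pi.single i 1) by
      rw [single_dotProduct, one_mul], E.proj_symm, dotProduct_single, mul_one]
  funext k
  rw [arrMap_apply, Fintype.sum_sum_type]
  rcases k with ⟨l, i⟩ | l
  · simp only [OrthSys.arr, Sum.elim_inl, Sum.elim_inr, ← bil_eq, single, Fintype.sum_prod_type]
    rw [Finset.sum_eq_single l (fun m _ hm => by simp [hm]) (fun h => absurd (mem_univ _) h)]
    simp only [if_true, OrthSys.innov, OrthSys.comp, Pi.add_apply, Pi.sub_apply, Pi.smul_apply,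
      smul_eq_mul, single' l i fun b => q (l, b), add_mul, sum_add_distrib, sub_mul, sum_sub_distrib,
      mul_sub, mul_assoc, ← mul_sum]
    have : ∑ j, (Pi.single j (1 : ℝ) : Fin n → ℝ) i * q (l, j) = q (l, i) := by
      simp [Pi.single_apply]
    rw [this]
    ring
  · simp only [OrthSys.arr, Sum.elim_inr, Sum.elim_inl, ← bil_eq, zero_mul, sum_const_zero, add_zero]
    rfl

theorem gauss_exp (a : ℝ) : ∫⁻ t, ENNReal.ofReal (exp (a * t)) ∂gaussianReal 0 1
    = ENNReal.ofReal (exp (a ^ 2 / 2)) := by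
  have hi : Integrable (fun t => exp (a * t)) (gaussianReal 0 1) := integrable_exp_mul_gaussianReal a
  rw [← ofReal_integral_eq_lintegral_ofReal hi (ae_of_all _ fun t => (exp_pos _).le)]
  congr 1
  have h := mgf_gaussianReal (p := gaussianReal 0 1) (μ := 0) (v := 1) (X := id) Measure.map_id a
  simpa [mgf] using h

/-- **The exact law**: the tilt along the system integrates to one and leaves standard vectors. -/
theorem OrthSys.innov_law (c : Fin M → ℝ) {F : (Fin M × Fin n → ℝ) → ℝ≥0∞} (hF : Measurable F) :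
    ∫⁻ q, ∫⁻ d, ENNReal.ofReal (exp (∑ l, (-(c l * E.xi d l) - c l ^ 2 * (E.e l ⬝ᵥ E.e l))))
        * F (fun k => E.innov d q k.1 k.2) ∂disX n ∂gp (Fin M × Fin n)
      = ∫⁻ x, F x ∂gp (Fin M × Fin n) := by
  classical
  set G : ((Fin M × Fin n) ⊕ Fin M → ℝ) → ℝ≥0∞ := fun z =>
    ENNReal.ofReal (exp (∑ l, (-(c l * z (Sum.inr l)) - c l ^ 2 * (E.e l ⬝ᵥ E.e l))))
      * F (fun k => z (Sum.inl k)) with hG
  have hGm : Measurable G := (by fun_prop : Measurable fun z : (Fin M × Fin n) ⊕ Fin M → ℝ =>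
    ENNReal.ofReal (exp (∑ l, (-(c l * z (Sum.inr l)) - c l ^ 2 * (E.e l ⬝ᵥ E.e l))))).mul
    (hF.comp (by fun_prop))
  have key := congrArg (fun μ => ∫⁻ z, G z ∂μ) (map_gp_eq E.arr E.modArr E.cov)
  simp only [lintegral_map hGm (arrMap E.arr).continuous.measurable,
    lintegral_map hGm (arrMap E.modArr).continuous.measurable] at key
  have hmp : ∀ (α β : Type) [Fintype α] [Fintype β], MeasurePreserving
      (MeasurableEquiv.sumPiEquivProdPi fun _ : α ⊕ β => ℝ) (gp (α ⊕ β)) ((gp α).prod (gp β)) :=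
    fun α β _ _ => measurePreserving_sumPiEquivProdPi fun _ => gaussianReal 0 1
  have hL : ∫⁻ w, G (arrMap E.arr w) ∂gp ((Pair n ⊕ Fin n) ⊕ (Fin M × Fin n))
      = ∫⁻ q, ∫⁻ d, G (arrMap E.arr (Sum.elim d q)) ∂disX n ∂gp (Fin M × Fin n) := by
    have hm : Measurable fun p : Dis n × (Fin M × Fin n → ℝ) =>
        G (arrMap E.arr (Sum.elim p.1 p.2)) :=
      hGm.comp ((arrMap E.arr).continuous.measurable.comp (measurable_pi_lambda _ fun k => by
        rcases k with k | k <;> simp only [Sum.elim_inl, Sum.elim_inr] <;> fun_prop))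
    rw [disX, ← lintegral_prod_symm' _ hm, ← (hmp _ _).lintegral_comp hm]
    refine lintegral_congr fun w => ?_
    congr 2
    funext k; rcases k with k | k <;> rfl
  have hR : ∫⁻ w, G (arrMap E.modArr w) ∂gp ((Fin M × Fin n) ⊕ Fin M)
      = ∫⁻ x, F x ∂gp (Fin M × Fin n) := by
    set g : (Fin M → ℝ) → ℝ≥0∞ := fun t => ∏ l, ENNReal.ofReal
      (exp (-(√2 * c l * (E.e l ⬝ᵥ E.e l)) * t l) * exp (-(c l ^ 2 * (E.e l ⬝ᵥ E.e l)))) with hg
    have hgm : Measurable g := by fun_prop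
    have e : ∀ w : (Fin M × Fin n) ⊕ Fin M → ℝ, G (arrMap E.modArr w)
        = F (fun k => w (Sum.inl k)) * g (fun l => w (Sum.inr l)) := by
      intro w
      rw [mul_comm (F _), hG, hg]
      simp only [arrMap_apply, OrthSys.modArr, Fintype.sum_sum_type, Sum.elim_inl, Sum.elim_inr,
        zero_mul, sum_const_zero, add_zero, zero_add, ite_mul, one_mul, sum_ite_eq', mem_univ, if_true]
      rw [← ENNReal.ofReal_prod_of_nonneg fun l _ => by positivity]
      congr 2
      rw [exp_sum]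
      refine prod_congr rfl fun l _ => ?_
      rw [← exp_add]
      congr 1; ring
    simp only [e]
    refine ((hmp (Fin M × Fin n) (Fin M)).lintegral_comp (f := fun p => F p.1 * g p.2)
      ((hF.comp measurable_fst).mul (hgm.comp measurable_snd))).trans ?_
    rw [lintegral_prod_mul hF.aemeasurable hgm.aemeasurable]
    convert mul_one _
    rw [hg, lintegral_gp_prod (fun l t => ENNReal.ofReal
      (exp (-(√2 * c l * (E.e l ⬝ᵥ E.e l)) * t) * exp (-(c l ^ 2 * (E.e l ⬝ᵥ E.e l)))))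
      fun l => by fun_prop]
    refine prod_eq_one fun l _ => ?_
    simp only [ENNReal.ofReal_mul (exp_pos _).le]
    rw [lintegral_mul_const _ (by fun_prop), gauss_exp, ← ENNReal.ofReal_mul (exp_pos _).le, ← exp_add,
      ← ENNReal.ofReal_one, ← exp_zero]
    congr 2
    rw [neg_sq, mul_pow, mul_pow, sq_sqrt zero_le_two, pow_two (E.e l ⬝ᵥ E.e l), E.dot_self]
    ring
  rw [← hR, ← key, hL]
  simp only [hG, E.arrMap_arr, Sum.elim_inl, Sum.elim_inr]

end Vale.Agent.P150.Fast.Dom
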