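import Vale.Agent.P150.Fast.Dom.GoodPart

/-!
The reference average of an exponential in standard variables. Used for P150 (module M3).
-/

open MeasureTheory ProbabilityTheory Real Finset
open scoped Matrix ENNReal

namespace Vale.Agent.P150.Fast.Dom

variable {n r : ℕ} {β W u : ℝ}

theorem pathE_qR_one {A : Matrix (Fin n) (Fin n) ℝ} (hA : A.PosDef) (h : Fin n → ℝ)
    (S : Finset (Fin n)) : ∀ (r : ℕ) (x : Conf n),
      pathE qR (fun _ : Fin r => (⟨A, h, S⟩ : Step n)) x (fun _ => 1) = 1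
  | 0, x => rfl
  | r + 1, x => by
    simp only [pathE]
    have e : ∀ y, ∑ z, qR ⟨A, h, S⟩ x y z
        * pathE qR (fun _ : Fin r => (⟨A, h, S⟩ : Step n)) z (fun _ => 1) = 1 := fun y => by
      simp only [pathE_qR_one hA h S r, mul_one, qR]
      exact sum_prodS _ _ _
    simp only [show Fin.tail (fun _ : Fin (r + 1) => (⟨A, h, S⟩ : Step n))
      = fun _ => ⟨A, h, S⟩ from rfl, e, mul_one, chan_eq]
    exact chanV_mass hA _

theorem pdens_nonneg (d : Dis n) (u W : ℝ) (S : Finset (Fin n)) (x : Fin (r + 1) → Conf n)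
    (g : Fin (r + 1) × Fin n → ℝ) : 0 ≤ pdens β d u W S x g :=
  mul_nonneg (by positivity) (prod_nonneg fun t _ => mul_nonneg (rho_nonneg _ _ _) (prodS_nonneg _ _ _ _))

theorem rowSplit_fun {r : ℕ} (g : Fin (r + 1) × Fin n → ℝ) :
    (rowSplit g).1 = (fun i => g (0, i)) ∧ (rowSplit g).2 = fun p => g (p.1.succ, p.2) := ⟨rfl, rfl⟩

/-- The integrand in standard variables, the side noise first. -/
noncomputable def refF (A : Matrix (Fin n) (Fin n) ℝ) (W u : ℝ) (S : Finset (Fin n)) (Φ : Traj n r → ℝ)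
    (x : Conf n) (zs : Fin r → Conf n) (p : (Fin n → ℝ) × (Fin r × Fin n → ℝ)) : ℝ :=
  pathW A 0 W (sideField u x p.1) S x zs p.2 * exp (Φ (x, p.1, omOf A 0 W x zs p.2))

/-- Joining the side noise to the other rows. -/
def joinRow (p : (Fin n → ℝ) × (Fin r × Fin n → ℝ)) : Fin (r + 1) × Fin n → ℝ :=
  fun k => (Fin.cons p.1 fun t i => p.2 (t, i) : Fin (r + 1) → Fin n → ℝ) k.1 k.2

theorem continuous_joinRow : Continuous (joinRow (n := n) (r := r)) := by
  refine continuous_pi fun k => ?_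
  obtain ⟨b, i⟩ := k
  cases b using Fin.cases <;> simp only [joinRow, Fin.cons_zero, Fin.cons_succ] <;> fun_prop

theorem measurable_pathW' (d : Dis n) (W u : ℝ) (S : Finset (Fin n)) (x : Conf n)
    (zs : Fin r → Conf n) : Measurable fun p : (Fin n → ℝ) × (Fin r × Fin n → ℝ) =>
      pathW (aop n β d) 0 W (sideField u x p.1) S x zs p.2 := by
  have h1 : Continuous fun p : (Fin n → ℝ) × (Fin r × Fin n → ℝ) => ((d, joinRow p) :
      Dis n × (Fin (r + 1) × Fin n → ℝ)) := continuous_const.prodMk continuous_joinRow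
  have h2 := continuous_pdens (β := β) u W S (Fin.cons x zs : Fin (r + 1) → Conf n)
  have hc := h2.comp h1
  have e : ∀ p : (Fin n → ℝ) × (Fin r × Fin n → ℝ), pathW (aop n β d) 0 W (sideField u x p.1) S x zs p.2
      = (((1 : ℝ) / 2) ^ n)⁻¹ * pdens β d u W S (Fin.cons x zs) (joinRow p) := fun p => by
    rw [pdens]
    simp only [joinRow, Fin.cons_zero, Fin.cons_succ, Fin.tail_cons]
    rw [inv_mul_cancel_left₀ (by positivity)]
  simp only [e]
  exact (hc.measurable).const_mul _

theorem measurable_refF (d : Dis n) (W u : ℝ) (S : Finset (Fin n)) {Φ : Traj n r → ℝ}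
    (hΦ : Measurable Φ) (x : Conf n) (zs : Fin r → Conf n) :
    Measurable (refF (aop n β d) W u S Φ x zs) := by
  have h : Measurable fun p : (Fin n → ℝ) × (Fin r × Fin n → ℝ) => omOf (aop n β d) 0 W x zs p.2 :=
    (measurable_omOf x zs).comp measurable_snd
  exact (measurable_pathW' d W u S x zs).mul (measurable_exp.comp (hΦ.comp
    (measurable_const.prodMk (measurable_fst.prodMk h))))

theorem integrable_refF (hW : 0 < W) {d : Dis n} (hA : (aop n β d).PosDef) (u : ℝ) (S : Finset (Fin n))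
    {Φ : Traj n r → ℝ} (hΦ : Measurable Φ) {B : ℝ} (hB : ∀ P, |Φ P| ≤ B) (x : Conf n)
    (zs : Fin r → Conf n) :
    Integrable (refF (aop n β d) W u S Φ x zs) ((gp (Fin n)).prod (gp (Fin r × Fin n))) := by
  refine ((integrable_const (exp B)).mul_prod (rho_rows_integrable hA hW r)).mono'
    (measurable_refF d W u S hΦ x zs).aestronglyMeasurable (ae_of_all _ fun p => ?_)
  rw [Real.norm_eq_abs, refF, abs_mul, mul_comm (exp B), pathW, abs_prod]
  refine mul_le_mul (prod_le_prod (fun _ _ => abs_nonneg _) fun t _ => ?_) ?_ (abs_nonneg _)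
    (prod_nonneg fun _ _ => rho_nonneg _ _ _)
  · rw [abs_mul, abs_of_nonneg (rho_nonneg _ _ _)]
    exact mul_le_of_le_one_right (rho_nonneg _ _ _) (qR_bounds _ _ _ _ _)
  · rw [abs_of_pos (exp_pos _)]; exact exp_le_exp.2 (abs_le.1 (hB _)).2

theorem refF_rowSplit (d : Dis n) (W u : ℝ) (S : Finset (Fin n)) (Φ : Traj n r → ℝ)
    (x : Fin (r + 1) → Conf n) (g : Fin (r + 1) × Fin n → ℝ) :
    pdens β d u W S x g * exp (Φ (pathOf (aop n β d) W x g))
      = (1 / 2) ^ n * refF (aop n β d) W u S Φ (x 0) (Fin.tail x) (rowSplit g) := by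
  simp only [refF, pdens, pathOf, (rowSplit_fun g).1, (rowSplit_fun g).2]
  ring

/-- The reference average in standard variables. -/
theorem refExp_eq (hW : 0 < W) {d : Dis n} (hA : (aop n β d).PosDef) (u : ℝ) (S : Finset (Fin n))
    {Φ : Traj n r → ℝ} (hΦ : Measurable Φ) {B : ℝ} (hB : ∀ P, |Φ P| ≤ B) :
    ENNReal.ofReal (refExp β u S d Φ) = ∑ x : Fin (r + 1) → Conf n,
      ∫⁻ g, ENNReal.ofReal (pdens β d u W S x g * exp (Φ (pathOf (aop n β d) W x g)))
        ∂gp (Fin (r + 1) × Fin n) := by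
  classical
  have hFi := integrable_refF hW hA u S hΦ hB
  have e1 : refExp β u S d Φ = ∑ x : Fin (r + 1) → Conf n, ∫ g,
      pdens β d u W S x g * exp (Φ (pathOf (aop n β d) W x g)) ∂gp (Fin (r + 1) × Fin n) := by
    rw [← (Fin.consEquiv fun _ : Fin (r + 1) => Conf n).sum_comp, Fintype.sum_prod_type, refExp]
    refine sum_congr rfl fun x _ => ?_
    have hq : ∀ g, pathE qR (stepsOf (aop n β d) 0 (sideField u x g) S) x
        (fun ω => exp (Φ (x, g, ω))) = ∑ zs, ∫ b, refF (aop n β d) W u S Φ x zs (g, b)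
          ∂gp (Fin r × Fin n) := fun g =>
      pathE_qR hA hW zero_lt_one (sideField u x g) S r x (fun ω => exp (Φ (x, g, ω)))
        (measurable_exp.comp (hΦ.comp (measurable_const.prodMk (measurable_const.prodMk measurable_id))))
        (exp B) fun ω => by rw [abs_of_pos (exp_pos _)]; exact exp_le_exp.2 (abs_le.1 (hB _)).2
    simp only [hq]
    rw [integral_finsetSum _ fun zs _ => (hFi x zs).integral_prod_left, mul_sum]
    refine sum_congr rfl fun zs _ => ?_
    simp only [refF_rowSplit, Fin.consEquiv, Equiv.coe_fn_mk, Fin.cons_zero, Fin.tail_cons]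
    rw [integral_const_mul, integral_rowSplit (hFi x zs)]
  have hint : ∀ x : Fin (r + 1) → Conf n, Integrable
      (fun g => pdens β d u W S x g * exp (Φ (pathOf (aop n β d) W x g)))
      (gp (Fin (r + 1) × Fin n)) := fun x => by
    simp only [refF_rowSplit]
    exact ((mp_rowSplit r).integrable_comp_of_integrable (hFi (x 0) (Fin.tail x))).const_mul _
  rw [e1, ENNReal.ofReal_sum_of_nonneg fun x _ => integral_nonneg fun g =>
    mul_nonneg (pdens_nonneg _ _ _ _ _ _) (exp_pos _).le]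
  exact sum_congr rfl fun x _ => ofReal_integral_eq_lintegral_ofReal (hint x)
    (ae_of_all _ fun g => mul_nonneg (pdens_nonneg _ _ _ _ _ _) (exp_pos _).le)

theorem refExp_zero {d : Dis n} (hA : (aop n β d).PosDef) (u : ℝ) (S : Finset (Fin n)) :
    refExp (r := r) β u S d (fun _ => 0) = 1 := by
  have e : ∀ (x : Conf n) (g : Fin n → ℝ),
      pathE qR (stepsOf (r := r) (aop n β d) 0 (sideField u x g) S) x (fun _ => (1 : ℝ)) = 1 :=
    fun x g => pathE_qR_one (show ((1 : ℝ) - 0) • aop n β d |>.PosDef by rwa [sub_zero, one_smul]) _ S r x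
  simp only [refExp, exp_zero, e]
  simp

end Vale.Agent.P150.Fast.Dom
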