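import Vale.Agent.P150.Fast.Dom.AuxNoise
import Vale.Agent.P150.Fast.Dom.FitsLem
import Vale.Agent.P150.Fast.Dom.RefExp

/-!
The observables of module M3 on one disorder: measurability, and their bounds on typical paths.
Used for P150 (module M3).
-/

open MeasureTheory ProbabilityTheory Real Finset
open scoped Matrix ENNReal

namespace Vale.Agent.P150.Fast.Dom

open LL (nrm)

variable {n r : ℕ} {τ δ C β W η ε u Bd : ℝ}

/-- The atypical paths. -/
def offPath (A : Matrix (Fin n) (Fin n) ℝ) (τ W ε : ℝ) (r : ℕ) : Set (Traj n r) :=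
  {P | ¬ PathOK τ W ε (stateAt P) (noiseAt A P)}

theorem measurableSet_offPath (A : Matrix (Fin n) (Fin n) ℝ) (τ W ε : ℝ) (r : ℕ) :
    MeasurableSet (offPath A τ W ε r) :=
  measurableSet_setOfPred.2 <| measurable_by_state
    (F := fun x P => ¬ PathOK τ W ε x (noiseAt A P)) fun x =>
    measurableSet_setOfPred.1 (measurableSet_pathOK (x := x) (measurable_noiseAt A)).compl

theorem measurable_colVec (A : Matrix (Fin n) (Fin n) ℝ) (k : Fin (ncol r)) :
    Measurable fun P : Traj n r => colVec A P k := by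
  refine measurable_by_state (F := fun x P => colsOf x (noiseAt A P) k) fun x => ?_
  refine (show Continuous fun e : Fin (r + 1) → Fin n → ℝ => colsOf x e k from
    continuous_pi fun i => ?_).measurable.comp (measurable_noiseAt A)
  simp only [colsOf, colOf]
  split <;> fun_prop

theorem measurable_reproErr (hτ : 0 < τ) (d : Dis n) :
    Measurable fun P => reproErr β (mkRead hτ δ C β n r) d P := by
  refine (StronglyMeasurable.integral_prod_right' (f := fun p : Traj n r × _ =>
    ∑ k, ∑ i, (zSite ((mkRead hτ δ C β n r).cell d p.1)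
      (siteData (mkRead hτ δ C β n r) (aop n β d) d p.1 p.2 i) k
      - (kmat n β d *ᵥ colVec (aop n β d) p.1 k) i) ^ 2) ?_).measurable.const_mul _
  refine Measurable.stronglyMeasurable ?_
  have hw : Measurable fun p : Traj n r × (Fin (ncol r) × Fin n → ℝ) =>
      wcols (stateAt p.1) (noiseAt (aop n β d) p.1) :=
    (measurable_wpath (r := r) (aop n β d)).comp measurable_fst
  have hc : ∀ k i, Measurable fun p : Traj n r × (Fin (ncol r) × Fin n → ℝ) =>
      colVec (aop n β d) p.1 k i := fun k i =>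
    ((measurable_pi_apply i).comp (measurable_colVec (aop n β d) k)).comp measurable_fst
  refine Finset.measurable_sum _ fun k _ => Finset.measurable_sum _ fun i _ =>
    (Measurable.sub ?_ ?_).pow_const 2
  · refine Finset.measurable_sum _ fun l _ =>
      (measurable_cell (D := fun _ => d) measurable_const hw k l).2.2.mul ?_
    refine ((measurable_pi_apply i).comp (measurable_innovOf hτ β measurable_const hw measurable_snd l)).add
      (Finset.measurable_sum _ fun c _ =>
        (measurable_cell (D := fun _ => d) measurable_const hw l c).2.1.mul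
          (Finset.measurable_sum _ fun j _ =>
            (measurable_cell (D := fun _ => d) measurable_const hw c j).1.mul (hc j i)))
  · simp only [Matrix.mulVec, dotProduct]
    exact Finset.measurable_sum _ fun j _ => (hc k j).const_mul _

theorem reproErr_nonneg (β : ℝ) (ro : Readout n r) (d : Dis n) (P : Traj n r) :
    0 ≤ reproErr β ro d P :=
  mul_nonneg (by positivity) (integral_nonneg fun q =>
    sum_nonneg fun k _ => sum_nonneg fun i _ => sq_nonneg _)

theorem measurableSet_fits (hτ : 0 < τ) (d : Dis n) (ε : ℝ) :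
    MeasurableSet {P | Fits β (mkRead hτ δ C β n r) d ε P} := by
  have hw := measurable_wpath (r := r) (aop n β d)
  have hR : ∀ l j, Measurable fun P => ((mkRead hτ δ C β n r).cell d P).R l j := fun l j =>
    (measurable_cell (D := fun _ => d) measurable_const hw l j).1
  have hA : ∀ l j, Measurable fun P => ((mkRead hτ δ C β n r).cell d P).al l j := fun l j =>
    (measurable_cell (D := fun _ => d) measurable_const hw l j).2.2
  have hc := measurable_colVec (r := r) (aop n β d)
  have hu : ∀ l, Measurable fun P =>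
      combVec (aop n β d) ((mkRead hτ δ C β n r).cell d P) P l := fun l =>
    measurable_pi_lambda _ fun i => Finset.measurable_sum _ fun j _ =>
      (hR l j).mul ((measurable_pi_apply i).comp (hc j))
  have hle : ∀ {F : Traj n r → ℝ} (b : ℝ), Measurable F → Measurable fun P => F P ≤ b :=
    fun b hF => measurableSet_setOfPred.1 (measurableSet_le hF measurable_const)
  rw [measurableSet_setOfPred]
  refine Measurable.and ?_ (Measurable.and ?_ (Measurable.and ?_ ?_))
  · exact Measurable.forall fun k => Measurable.forall fun l =>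
      hle ε ((hA k l).sub ((measurable_dot (hc k) (hu l)).const_mul _)).abs
  · refine Measurable.forall fun l => Measurable.forall fun m => ?_
    by_cases h : l ≠ m
    · simp only [h, ne_eq, not_false_eq_true, forall_const]
      exact hle ε ((measurable_dot (hu l) (hu m)).const_mul _).abs
    · simp only [h, IsEmpty.forall_iff]; exact measurable_const
  · exact Measurable.forall fun l => (Measurable.forall fun j =>
      measurableSet_setOfPred.1 (hR l j (measurableSet_singleton 0))).or
        (hle ε (((measurable_dot (hu l) (hu l)).const_mul _).sub_const 1).abs)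
  · exact Measurable.forall fun k => hle ε ((Finset.measurable_sum _ fun i _ =>
      (((measurable_pi_apply i).comp (hc k)).sub (Finset.measurable_sum _ fun l _ =>
        (hA k l).mul ((measurable_pi_apply i).comp (hu l)))).pow_const 2).const_mul _)

theorem measurable_siteAvg (hτ : 0 < τ) (hδ : 0 < δ) (hC : 0 ≤ C) (S : Finset (Fin n))
    {f : Bool → Coef (ncol r) → Site r → ℝ} (hf : ∀ b θ, Measurable (f b θ)) (d : Dis n) :
    Measurable fun P => siteAvg β (mkRead hτ δ C β n r) d S f P := by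
  refine measurable_by_state (F := fun x P => (n : ℝ)⁻¹ * ∫ q, testSum hτ δ C β S f d x
    (noiseAt (aop n β d) P) q ∂gp (Fin (ncol r) × Fin n)) fun x => ?_
  refine (StronglyMeasurable.integral_prod_right' (f := fun p : Traj n r × _ =>
    testSum hτ δ C β S f d x (noiseAt (aop n β d) p.1) p.2) ?_).measurable.const_mul _
  exact (measurable_test hτ hδ hC S hf x (D := fun _ => d) measurable_const
    ((measurable_noiseAt _).comp measurable_fst) measurable_snd).stronglyMeasurable

theorem siteAvg_eq (hτ : 0 < τ) (S : Finset (Fin n)) (f : Bool → Coef (ncol r) → Site r → ℝ)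
    (d : Dis n) (P : Traj n r) :
    siteAvg β (mkRead hτ δ C β n r) d S f P = (n : ℝ)⁻¹ * ∫ q, testSum hτ δ C β S f d (stateAt P)
      (noiseAt (aop n β d) P) q ∂gp (Fin (ncol r) × Fin n) := rfl

theorem abs_siteAvg_le (hτ : 0 < τ) (hn : 1 ≤ n) (S : Finset (Fin n))
    {f : Bool → Coef (ncol r) → Site r → ℝ} (hf : ∀ b θ p, |f b θ p| ≤ Bd) (d : Dis n) (P : Traj n r) :
    |siteAvg β (mkRead hτ δ C β n r) d S f P| ≤ Bd := by
  have hnp : (0 : ℝ) < n := by exact_mod_cast hn
  rw [siteAvg_eq, abs_mul, abs_inv, abs_of_pos hnp, inv_mul_le_iff₀ hnp]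
  refine abs_integral_le_integral_abs.trans ?_
  refine (integral_mono_of_nonneg (ae_of_all _ fun q => abs_nonneg _) (integrable_const (n * Bd))
    (ae_of_all _ fun q => abs_testSum_le hτ δ C β S hf d _ _ q)).trans_eq ?_
  simp

/-- The test average is at most the good part and the weight of the atypical events. -/
theorem siteAvg_le (hτ : 0 < τ) (hδ : 0 < δ) (hC : 0 ≤ C) (hn : 1 ≤ n) (hBd : 0 ≤ Bd) (hε : 0 < ε)
    (S : Finset (Fin n)) {f : Bool → Coef (ncol r) → Site r → ℝ} (hf : ∀ b θ, Measurable (f b θ))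
    (hfB : ∀ b θ p, |f b θ p| ≤ Bd) (d : Dis n) (P : Traj n r) :
    siteAvg β (mkRead hτ δ C β n r) d S f P ≤ (n : ℝ)⁻¹ * goodMean hτ δ C β W ε S f d P
      + Bd * (offPath (aop n β d) τ W ε r).indicator 1 P
      + Bd * ((ncol r : ℝ) ^ 3 / (ε ^ 2 * n)) := by
  classical
  have hnp : (0 : ℝ) < n := by exact_mod_cast hn
  set x := stateAt P
  set e := noiseAt (aop n β d) P
  set ok := PathOK τ W ε x e
  set bad : Set (Fin (ncol r) × Fin n → ℝ) := {q | ¬ (ok ∧ auxErr hτ (wcols x e) q ≤ ε * √n)} with hbad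
  have hbm : MeasurableSet bad := by
    by_cases h : ok
    · simp only [hbad, h, true_and, not_le]
      exact measurableSet_lt measurable_const (measurable_auxErr hτ measurable_const measurable_id)
    · simp [hbad, h]
  have hp : (gp (Fin (ncol r) × Fin n)).real bad
      ≤ (offPath (aop n β d) τ W ε r).indicator 1 P + (ncol r : ℝ) ^ 3 / (ε ^ 2 * n) := by
    by_cases h : ok
    · rw [Set.indicator_of_notMem (show P ∉ offPath (aop n β d) τ W ε r from fun h' => h' h), zero_add]
      simpa only [hbad, h, true_and, not_le] using auxErr_tail hτ hn hε (wcols x e)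
    · rw [Set.indicator_of_mem (show P ∈ offPath (aop n β d) τ W ε r from h), Pi.one_apply]
      exact (measureReal_le_one).trans (le_add_of_nonneg_right (by positivity))
  have hgm : Measurable fun q => goodPart hτ δ C β W ε S f d x e q :=
    measurable_goodPart hτ hδ hC S hf x measurable_const measurable_const measurable_id
  have hgi : Integrable (fun q => goodPart hτ δ C β W ε S f d x e q) (gp (Fin (ncol r) × Fin n)) :=
    (integrable_const (n * Bd : ℝ)).mono' hgm.aestronglyMeasurable (ae_of_all _ fun q =>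
      abs_goodPart_le hτ hBd δ C β W ε S hfB d x e q)
  have hti : Integrable (fun q => testSum hτ δ C β S f d x e q) (gp (Fin (ncol r) × Fin n)) :=
    (integrable_const (n * Bd : ℝ)).mono' (measurable_test hτ hδ hC S hf x measurable_const
      measurable_const measurable_id).aestronglyMeasurable (ae_of_all _ fun q =>
      abs_testSum_le hτ δ C β S hfB d x e q)
  have hii := (integrable_const (n * Bd : ℝ) (μ := gp (Fin (ncol r) × Fin n))).indicator hbm
  have hpt : ∀ q, testSum hτ δ C β S f d x e q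
      ≤ goodPart hτ δ C β W ε S f d x e q + bad.indicator (fun _ => n * Bd) q := fun q => by
    by_cases h : q ∈ bad
    · rw [goodPart, Set.indicator_of_notMem (by exact h), Set.indicator_of_mem h, zero_add]
      exact (abs_le.1 (abs_testSum_le hτ δ C β S hfB d x e q)).2
    · rw [goodPart, Set.indicator_of_mem (by exact not_not.1 h), Set.indicator_of_notMem h, add_zero]
  have hint := integral_mono hti (hgi.add hii) hpt
  simp only [Pi.add_apply] at hint
  rw [integral_add hgi hii, integral_indicator_const _ hbm, smul_eq_mul] at hint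
  rw [siteAvg_eq, goodMean, inv_mul_le_iff₀ hnp, mul_add, mul_add, mul_inv_cancel_left₀ hnp.ne']
  refine hint.trans ?_
  nlinarith [mul_le_mul_of_nonneg_right hp (mul_nonneg hnp.le hBd)]

theorem cols_of_pathOK (hn : 1 ≤ n) (hW2 : W ≤ 2) (hε1 : ε ≤ 1) {x : Fin (r + 1) → Conf n}
    {e : Fin (r + 1) → Fin n → ℝ} (h : PathOK τ W ε x e) (k : Fin (ncol r)) :
    nrm (colsOf x e k) ≤ 2 * √n :=
  cols_le hn (fun b => by
    cases b using Fin.cases with
    | zero => linarith [(abs_le.1 h.1).2]
    | succ b => linarith [(abs_le.1 (h.2 b).1).2]) k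

/-- The reconstruction on typical paths. -/
theorem repro_le (hτ : 0 < τ) (hτ1 : τ ≤ 1) (hδ : 0 < δ) (hδ1 : δ ≤ 1) (hn : 1 ≤ n) (hβ : 0 ≤ β)
    (hβ1 : β ≤ 1) (hη : η ≤ 1) (hW2 : W ≤ 2) (hε1 : ε ≤ 1) (hC : 5 ≤ C)
    (hCR : ((1 + ncol r * 2) / τ) ^ ncol r ≤ C) {d : Dis n} (hd : NormOK n β η d) {P : Traj n r}
    (hP : PathOK τ W ε (stateAt P) (noiseAt (aop n β d) P)) :
    reproErr β (mkRead hτ δ C β n r) d P
      ≤ 2 * ncol r * (errC (ncol r) 3 C * δ + 3 * τ) ^ 2 + 18 * (ncol r : ℝ) ^ 4 / n := by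
  have hnp : (0 : ℝ) < n := by exact_mod_cast hn
  set x := stateAt P
  set e := noiseAt (aop n β d) P
  set w := wcols x e
  set a := errC (ncol r) 3 C * δ + 3 * τ
  obtain ⟨hi, hv⟩ := auxSq_int hτ w
  have hpt : ∀ q, ∑ k, ∑ i, (zSite ((mkRead hτ δ C β n r).cell d P)
      (siteData (mkRead hτ δ C β n r) (aop n β d) d P q i) k
      - (kmat n β d *ᵥ colVec (aop n β d) P k) i) ^ 2
      ≤ (ncol r : ℝ) * (2 * n * a ^ 2 + 18 * auxSq τ w q) := by
    intro q
    refine (sum_le_card_nsmul _ _ (2 * n * a ^ 2 + 18 * auxSq τ w q) fun k _ => ?_).trans_eq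
      (by rw [card_univ, Fintype.card_fin, nsmul_eq_mul])
    have hz := zVec_err hτ hτ1 hδ hδ1 hn hβ (L := 3) (by norm_num) (kmat_nrm_le hβ1 hη hd)
      (cols_of_pathOK hn hW2 hε1 hP) (by linarith : (3 : ℝ) + 2 ≤ C) hCR q k
    have e1 : ∑ i, (zSite ((mkRead hτ δ C β n r).cell d P)
        (siteData (mkRead hτ δ C β n r) (aop n β d) d P q i) k
        - (kmat n β d *ᵥ colVec (aop n β d) P k) i) ^ 2
        = nrm (zVec (rdCoef τ δ C (kmat n β d) w) (colsOf x e) (innovOf hτ β w d q) k
          - kmat n β d *ᵥ colsOf x e k) ^ 2 := by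
      rw [LL.nrm_sq]
      refine sum_congr rfl fun i _ => ?_
      rw [Pi.sub_apply, ← zSite_eq]
      rfl
    rw [e1]
    refine (pow_le_pow_left₀ (LL.nrm_nonneg _) hz 2).trans (le_trans (add_sq_le) ?_)
    have h0 := auxErr_nonneg hτ w q
    have h1 : (3 * β * auxErr hτ w q) ^ 2 ≤ 9 * auxSq τ w q := by
      refine (pow_le_pow_left₀ (by positivity)
        (mul_le_mul_of_nonneg_right (by linarith : 3 * β ≤ 3) h0) 2).trans ?_
      linarith [auxErr_sq_le hτ w q]
    rw [mul_pow, sq_sqrt hnp.le]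
    simp only [a]
    linarith [show (3 * β * auxErr hτ w q) ^ 2 =
      (3 * β * auxErr hτ (fun k => (√(n : ℝ))⁻¹ • colsOf x e k) q) ^ 2 from rfl]
  have hint := integral_mono_of_nonneg (μ := gp (Fin (ncol r) × Fin n))
    (ae_of_all _ fun q => sum_nonneg fun k _ => sum_nonneg fun i _ => sq_nonneg _)
    (((integrable_const _).add (hi.const_mul 18)).const_mul _) (ae_of_all _ hpt)
  have e2 : ∫ q, (ncol r : ℝ) * (2 * n * a ^ 2 + 18 * auxSq τ w q) ∂gp (Fin (ncol r) × Fin n)
      = ncol r * (2 * n * a ^ 2 + 18 * ∫ q, auxSq τ w q ∂gp (Fin (ncol r) × Fin n)) := by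
    rw [integral_const_mul, integral_add (integrable_const _) (hi.const_mul 18), integral_const,
      probReal_univ, one_smul, integral_const_mul]
  simp only [Pi.add_apply] at hint
  rw [e2] at hint
  rw [reproErr, inv_mul_le_iff₀ hnp]
  refine hint.trans ?_
  rw [mul_add (n : ℝ), mul_div_cancel₀ _ hnp.ne']
  nlinarith [mul_le_mul_of_nonneg_left hv (ncol r).cast_nonneg]

/-- The geometry on typical paths. -/
theorem fits_of_pathOK (hτ : 0 < τ) (hτ1 : τ ≤ 1) (hδ : 0 < δ) (hδ1 : δ ≤ 1) (hn : 1 ≤ n)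
    (hW2 : W ≤ 2) (hε1 : ε ≤ 1) (hC : 5 ≤ C) (hCR : ((1 + ncol r * 2) / τ) ^ ncol r ≤ C)
    {b : ℝ} (hb : fitC (ncol r) * (δ + τ) ≤ b) (hb2 : (fitC (ncol r) * (δ + τ)) ^ 2 ≤ b)
    {d : Dis n} {P : Traj n r} (hP : PathOK τ W ε (stateAt P) (noiseAt (aop n β d) P)) :
    Fits β (mkRead hτ δ C β n r) d b P := by
  obtain ⟨h1, h2, h3, h4⟩ := coef_fits hτ hτ1 hδ hδ1 hn (by linarith : (2 : ℝ) ≤ C) hCR (kmat n β d)
    (cols_of_pathOK hn hW2 hε1 hP)
  have e : ∀ l, combVec (aop n β d) ((mkRead hτ δ C β n r).cell d P) P l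
      = ∑ j, ((mkRead hτ δ C β n r).cell d P).R l j • colVec (aop n β d) P j := fun l =>
    funext fun i => by simp only [combVec, Finset.sum_apply, Pi.smul_apply, smul_eq_mul]
  refine ⟨fun k l => ?_, fun l m h => ?_, fun l => ?_, fun k => ?_⟩
  · rw [e]; exact (h1 k l).trans hb
  · rw [e, e]; exact (h2 l m h).trans hb
  · rw [e]; exact (h3 l).imp id fun h => h.trans hb
  · simp only [e]; exact (h4 k).trans hb2

/-- Monotonicity and linearity of a path law, packed. -/
theorem traj_split (hlin : TrajLinStmt) {A : Matrix (Fin n) (Fin n) ℝ} (hA : A.PosDef)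
    {ν : Conf n → ℝ} (hν : ∀ x, 0 < ν x) (hν1 : ∑ x, ν x = 1) (S : Finset (Fin n))
    {F G : Traj n r → ℝ} {s : Set (Traj n r)} {a b c : ℝ} (hF : Measurable F) (hG : Measurable G)
    (hs : MeasurableSet s) {BF BG : ℝ} (hFB : ∀ P, |F P| ≤ BF) (hGB : ∀ P, |G P| ≤ BG)
    (h : ∀ P, F P ≤ a * G P + b * s.indicator 1 P + c) :
    trajE A u ν S F ≤ a * trajE A u ν S G + b * trajE A u ν S (s.indicator 1) + c := by
  have L := hlin n r A u ν S hA hν hν1
  have hi : Measurable (s.indicator (1 : Traj n r → ℝ)) := measurable_one.indicator hs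
  have hib : ∀ P, |s.indicator (1 : Traj n r → ℝ) P| ≤ 1 := fun P => by
    by_cases h : P ∈ s <;> simp [h]
  have hGi : ∀ P, |a * G P + b * s.indicator 1 P| ≤ |a| * BG + |b| * 1 := fun P => by
    refine (abs_add_le _ _).trans ?_
    rw [abs_mul, abs_mul]
    exact add_le_add (mul_le_mul_of_nonneg_left (hGB P) (abs_nonneg _))
      (mul_le_mul_of_nonneg_left (hib P) (abs_nonneg _))
  have m1 : Measurable fun P => a * G P := hG.const_mul a
  have m2 : Measurable fun P => b * s.indicator (1 : Traj n r → ℝ) P := hi.const_mul b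
  have m3 : Measurable fun P => a * G P + b * s.indicator (1 : Traj n r → ℝ) P := m1.add m2
  refine ((L F _ hF (m3.add_const c) ⟨BF, hFB⟩
    ⟨|a| * BG + |b| * 1 + |c|, fun P => (abs_add_le _ _).trans (add_le_add (hGi P) le_rfl)⟩).1 h).trans
    (le_of_eq ?_)
  rw [(L (fun P => a * G P + b * s.indicator 1 P) (fun _ => c) m3 measurable_const ⟨_, hGi⟩
      ⟨|c|, fun _ => le_rfl⟩).2.1,
    (L (fun P => a * G P) (fun P => b * s.indicator 1 P) m1 m2
      ⟨|a| * BG, fun P => by rw [abs_mul]; exact mul_le_mul_of_nonneg_left (hGB P) (abs_nonneg _)⟩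
      ⟨|b|, fun P => by rw [abs_mul]; exact mul_le_of_le_one_right (abs_nonneg _) (hib P)⟩).2.1,
    ((L G G hG hG ⟨BG, hGB⟩ ⟨BG, hGB⟩).2.2 a).1, ((L _ _ hi hi ⟨1, hib⟩ ⟨1, hib⟩).2.2 b).1,
    ((L G G hG hG ⟨BG, hGB⟩ ⟨BG, hGB⟩).2.2 c).2]

/-- The reference average is positive. -/
theorem refExp_pos (hW : 0 < W) {d : Dis n} (hA : (aop n β d).PosDef) (u : ℝ) (S : Finset (Fin n))
    {Φ : Traj n r → ℝ} (hΦ : Measurable Φ) {B : ℝ} (hB : ∀ P, |Φ P| ≤ B) :
    0 < refExp β u S d Φ := by
  have h0 := refExp_eq (r := r) hW hA u S measurable_const (Φ := fun _ => 0) (B := 0) (by simp)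
  simp only [refExp_zero hA, ENNReal.ofReal_one, exp_zero, mul_one] at h0
  have h : ENNReal.ofReal (exp (-B)) ≤ ENNReal.ofReal (refExp β u S d Φ) := by
    rw [refExp_eq hW hA u S hΦ hB, ← mul_one (ENNReal.ofReal (exp (-B))), h0, mul_sum]
    refine sum_le_sum fun x _ => ?_
    rw [← lintegral_const_mul' _ _ ENNReal.ofReal_ne_top]
    refine lintegral_mono fun g => ?_
    rw [← ENNReal.ofReal_mul (exp_pos _).le, mul_comm]
    exact ENNReal.ofReal_le_ofReal (mul_le_mul_of_nonneg_left
      (exp_le_exp.2 (abs_le.1 (hB _)).1) (pdens_nonneg _ _ _ _ _ _))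
  exact ENNReal.ofReal_pos.1 ((ENNReal.ofReal_pos.2 (exp_pos _)).trans_le h)

end Vale.Agent.P150.Fast.Dom
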