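import Vale.Agent.P150.Fast.Dom.Annealed
import Vale.Agent.P150.Fast.Dom.Diag
import Vale.Agent.P150.Fast.Dom.LogDet
import Vale.Agent.P150.Fast.Dom.PathBound
import Vale.Agent.P150.Fast.GoeNorm

/-!
The master inequality of module M3 of P150, from the three facts about the law of a path.
-/

open MeasureTheory ProbabilityTheory Real Finset Filter
open scoped Matrix Topology

namespace Vale.Agent.P150.Fast.Dom

variable {n r : ℕ}

/-- The margin kept below the critical value. -/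
noncomputable def margin (β : ℝ) : ℝ := min (1 / 4) ((1 - β) / 2)

theorem margin_spec {β : ℝ} (hβ1 : β < 1) :
    0 < margin β ∧ margin β ≤ 1 / 4 ∧ β ≤ 1 - 2 * margin β :=
  ⟨lt_min (by norm_num) (by linarith), min_le_left _ _,
    by linarith [min_le_right (1 / 4 : ℝ) ((1 - β) / 2), show margin β = min (1 / 4) ((1 - β) / 2) from rfl]⟩

/-- The good disorder. -/
def GoodDis (n : ℕ) (β W ε : ℝ) (d : Dis n) : Prop :=
  DOK n β W (margin β) ε d ∧ (n : ℝ)⁻¹ * ∑ i, |(aop n β d)⁻¹ i i - W| ≤ ε / 2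

theorem aop_lower_bound {β η : ℝ} {d : Dis n} (h : NormOK n β η d) (v : Fin n → ℝ) :
    (1 - η) * ∑ i, v i ^ 2 ≤ v ⬝ᵥ (aop n β d *ᵥ v) := by
  have h1 := (abs_le.1 (h v)).1
  have h2 : v ⬝ᵥ v = ∑ i, v i ^ 2 := by simp [dotProduct, pow_two]
  rw [aop, Matrix.add_mulVec, dotProduct_add, ← qform_eq_dot, Matrix.smul_mulVec, Matrix.one_mulVec,
    dotProduct_smul, smul_eq_mul, h2, shift]
  linarith

/-- On the good disorder the paths are typical up to `C / n`. -/
theorem offPath_small (hlin : TrajLinStmt) {τ ε Cg β W : ℝ} (hβ : 0 ≤ β) (hβ1 : β < 1)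
    (hg : ∀ (n : ℕ) (A : Matrix (Fin n) (Fin n) ℝ) (u : ℝ) (ν : Conf n → ℝ) (S : Finset (Fin n)),
      1 ≤ n → A.PosDef → (∀ v, (1 - margin β) * ∑ i, v i ^ 2 ≤ v ⬝ᵥ (A *ᵥ v)) → (∀ x, 0 < ν x) →
      ∑ x, ν x = 1 →
      trajE A u ν S ({P : Traj n r |
        ¬ PathOK τ ((n : ℝ)⁻¹ * A⁻¹.trace) (ε / 2) (stateAt P) (noiseAt A P)}.indicator 1) ≤ Cg / n)
    (hε : 0 ≤ ε) (hn : 1 ≤ n) {d : Dis n} (hd : GoodDis n β W ε d) (u : ℝ) {ν : Conf n → ℝ}
    (hν : ∀ x, 0 < ν x) (hν1 : ∑ x, ν x = 1) (S : Finset (Fin n)) :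
    trajE (aop n β d) u ν S ((offPath (aop n β d) τ W ε r).indicator 1) ≤ Cg / n := by
  set A := aop n β d
  set w := (n : ℝ)⁻¹ * A⁻¹.trace
  have hη := margin_spec hβ1
  have hA : A.PosDef := aop_posDef (by linarith [hη.2.1] : margin β < 1) hβ hd.1.1
  have hw : |w - W| ≤ ε / 2 := by
    refine le_trans ?_ hd.2
    have hnp : (0 : ℝ) < n := by exact_mod_cast hn
    have e : w - W = (n : ℝ)⁻¹ * ∑ i, (A⁻¹ i i - W) := by
      simp only [w, Matrix.trace, Matrix.diag_apply, sum_sub_distrib, sum_const, card_univ,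
        Fintype.card_fin, nsmul_eq_mul, mul_sub]
      rw [inv_mul_cancel_left₀ hnp.ne']
    rw [e, abs_mul, abs_of_pos (inv_pos.2 hnp)]
    exact mul_le_mul_of_nonneg_left (abs_sum_le_sum_abs _ _) (inv_nonneg.2 hnp.le)
  have hsub : offPath A τ W ε r ⊆ offPath A τ w (ε / 2) r := fun P hP h => hP
    ⟨h.1.trans (by linarith), fun b => ⟨by
      have := (h.2 b).1
      rw [abs_le] at this hw ⊢
      constructor <;> linarith, (h.2 b).2.trans (by linarith)⟩⟩
  refine le_trans ?_ (hg n A u ν S hn hA (aop_lower_bound hd.1.1) hν hν1)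
  have h1 : Measurable ((offPath A τ W ε r).indicator (1 : Traj n r → ℝ)) :=
    measurable_one.indicator (measurableSet_offPath A τ W ε r)
  have h2 : Measurable ((offPath A τ w (ε / 2) r).indicator (1 : Traj n r → ℝ)) :=
    measurable_one.indicator (measurableSet_offPath A τ w (ε / 2) r)
  exact (hlin n r A u ν S hA hν hν1 _ _ h1 h2
    ⟨1, fun P => by by_cases h : P ∈ offPath A τ W ε r <;> simp [h]⟩
    ⟨1, fun P => by by_cases h : P ∈ offPath A τ w (ε / 2) r <;> simp [h]⟩).1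
    fun P => Set.indicator_le_indicator_of_subset hsub (fun _ => zero_le_one) P

/-- The good disorder is typical. -/
theorem goodDis_eventually {β : ℝ} (hβ : 0 ≤ β) (hβ1 : β < 1) {W : ℕ → ℝ}
    (hW : ∀ n, 0 < W n ∧ W n ≤ 2 ∧ 1 / (4 * β + 2) ≤ W n)
    (hdg : ∀ ε δ : ℝ, 0 < ε → 0 < δ → ∀ᶠ n : ℕ in atTop,
      (disX n).real {d | ε < (n : ℝ)⁻¹ * ∑ i, |(aop n β d)⁻¹ i i - W n|} ≤ δ)
    (hWu : ∀ η : ℝ, 0 < η → η ≤ 1 / 4 → ∀ᶠ n : ℕ in atTop, W n ≤ 1 / (1 - 2 * η))
    {ε δ : ℝ} (hε : 0 < ε) (hδ : 0 < δ) :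
    ∀ᶠ n : ℕ in atTop, (disX n).real {d | ¬ GoodDis n β (W n) ε d} ≤ δ := by
  obtain ⟨hη0, hη4, hηβ⟩ := margin_spec hβ1
  obtain ⟨c₁, hc₁, h₁⟩ := normEvent β (margin β) hβ hη0
  obtain ⟨c₂, hc₂, h₂⟩ := logDetThm hβ (margin β) ε hη0 hη4 hε
  have hl : ∀ c : ℝ, 0 < c → ∀ᶠ n : ℕ in atTop, exp (-(c * n)) ≤ δ / 3 := fun c hc =>
    (tendsto_exp_neg_atTop_nhds_zero.comp
      ((tendsto_natCast_atTop_atTop (R := ℝ)).const_mul_atTop hc)).eventually_le_const (by linarith)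
  filter_upwards [h₁, h₂, hl c₁ hc₁, hl c₂ hc₂, hdg (ε / 2) (δ / 3) (by linarith) (by linarith),
    hWu (margin β) hη0 hη4] with n hn1 hn2 he1 he2 hn3 hWn
  obtain ⟨hW0, hW2, hWl⟩ := hW n
  have hp : 0 < 1 - 2 * margin β := by linarith
  have hβW : β ^ 2 * W n ≤ 1 - 2 * margin β := by
    calc β ^ 2 * W n ≤ (1 - 2 * margin β) ^ 2 * (1 / (1 - 2 * margin β)) :=
          mul_le_mul (pow_le_pow_left₀ hβ hηβ 2) hWn hW0.le (sq_nonneg _)
      _ = 1 - 2 * margin β := by field_simp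
  refine le_trans (measureReal_mono (s₂ := ({d | ¬ NormOK n β (margin β) d} ∪
      {d | NormOK n β (margin β) d ∧
        n * (-log (W n) - 1 + shift β * W n - β ^ 2 * W n ^ 2 / 2 + ε) < log (aop n β d).det}) ∪
      {d | ε / 2 < (n : ℝ)⁻¹ * ∑ i, |(aop n β d)⁻¹ i i - W n|}) fun d hd => ?_) ?_
  · simp only [GoodDis, DOK, Set.mem_ofPred_eq, not_and_or, not_le] at hd
    simp only [Set.mem_union, Set.mem_ofPred_eq]
    by_cases h : NormOK n β (margin β) d
    · rcases hd with (h' | h') | h'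
      · exact absurd h h'
      · exact Or.inl (Or.inr ⟨h, h'⟩)
      · exact Or.inr h'
    · exact Or.inl (Or.inl h)
  · refine (measureReal_union_le _ _).trans ((add_le_add ((measureReal_union_le _ _).trans
      (add_le_add (hn1.trans he1) ((hn2 (W n) hWl hW2 hβW).trans he2))) hn3).trans ?_)
    linarith

/-- The parameters of the readout. -/
theorem exists_params (r : ℕ) {ε : ℝ} (hε : 0 < ε) :
    ∃ τ δ C : ℝ, 0 < τ ∧ τ ≤ 1 / 8 ∧ 0 < δ ∧ δ ≤ 1 ∧ 5 ≤ C ∧
      ((1 + ncol r * 2) / τ) ^ ncol r ≤ C ∧ ptErr r τ δ C (τ ^ 2) ≤ ε / 8 ∧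
      fitC (ncol r) * (δ + τ) ≤ ε ∧ (fitC (ncol r) * (δ + τ)) ^ 2 ≤ ε ∧
      2 * ncol r * (errC (ncol r) 3 C * δ + 3 * τ) ^ 2 ≤ ε / 4 := by
  set M : ℝ := (ncol r : ℝ)
  have hM : 0 ≤ M := Nat.cast_nonneg _
  have hF : 0 ≤ fitC (ncol r) := by unfold fitC; positivity
  set K := 58 * (r : ℝ) + 2 * fitC (ncol r) + 32 * M + 1 with hK
  have hK0 : 1 ≤ K := by rw [hK]; linarith [(Nat.cast_nonneg r : (0 : ℝ) ≤ r)]
  set τ := min (1 / 8) (min ε 1 / (16 * K)) with hτd
  have hτ : 0 < τ := lt_min (by norm_num) (by positivity)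
  have hKτ : K * τ ≤ min ε 1 / 16 := by
    refine (mul_le_mul_of_nonneg_left (min_le_right _ _) (by linarith)).trans_eq ?_
    field_simp
  have hτ8 : τ ≤ 1 / 8 := min_le_left _ _
  set C := max 5 (((1 + ncol r * 2) / τ) ^ ncol r) with hC
  have hC5 : (5 : ℝ) ≤ C := le_max_left _ _
  set E := errC (ncol r) 3 C with hE
  have hE1 : 1 ≤ E := by
    have h1 : (1 : ℝ) ≤ ((ncol r : ℕ) + 1 : ℝ) ^ 3 := one_le_pow₀ (by linarith)
    have h2 : (1 : ℝ) ≤ (C + 2) ^ 2 := one_le_pow₀ (by linarith)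
    rw [hE, errC]
    linarith [one_le_mul_of_one_le_of_one_le h1 h2]
  have hδ0 : 0 < τ / E := by positivity
  have hδτ : τ / E ≤ τ := div_le_self hτ.le hE1
  have hEδ : E * (τ / E) = τ := mul_div_cancel₀ _ (by linarith)
  have hm1 : min ε 1 ≤ ε := min_le_left _ _
  have hm2 : min ε 1 ≤ 1 := min_le_right _ _
  have hr : 0 ≤ (r : ℝ) * τ := by positivity
  have hFτ : 0 ≤ fitC (ncol r) * τ := by positivity
  have hMτ : 0 ≤ M * τ := by positivity
  have hKe : K * τ = 58 * (r * τ) + 2 * (fitC (ncol r) * τ) + 32 * (M * τ) + τ := by rw [hK]; ring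
  refine ⟨τ, τ / E, C, hτ, hτ8, hδ0, by linarith, hC5, le_max_right _ _, ?_, ?_, ?_, ?_⟩
  · rw [ptErr, sqrt_sq hτ.le, ← hE, hEδ]
    have : (r : ℝ) * τ ^ 2 ≤ r * τ :=
      mul_le_mul_of_nonneg_left (by nlinarith) (Nat.cast_nonneg r)
    linarith
  · linarith [mul_le_mul_of_nonneg_left hδτ hF]
  · have h1 : fitC (ncol r) * (τ / E + τ) ≤ min ε 1 := by linarith [mul_le_mul_of_nonneg_left hδτ hF]
    have h0 : 0 ≤ fitC (ncol r) * (τ / E + τ) := by positivity
    nlinarith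
  · rw [hEδ]
    have : M * τ ^ 2 ≤ M * τ := mul_le_mul_of_nonneg_left (by nlinarith) hM
    linarith

/-- **The master inequality from the law of a path.** -/
theorem domStmt {β : ℝ} (hβ : 0 ≤ β) (hβ1 : β < 1) (hlin : TrajLinStmt) (hvar : TrajVarStmt)
    (hgood : TrajGoodStmt) : DomStmt β := by
  obtain ⟨W, hW, hdg, hWu⟩ := diagThm hβ
  refine ⟨W, hW, hdg, fun r ε hε => ?_⟩
  obtain ⟨hη0, hη4, hηβ⟩ := margin_spec hβ1
  have hη : margin β < 1 := by linarith
  obtain ⟨τ, δ, C, hτ, hτ8, hδ, hδ1, hC, hCR, hpt, hfit, hfit2, hrep⟩ := exists_params r hε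
  have hτ1 : τ ≤ 1 := by linarith
  have hC0 : 0 ≤ C := by linarith
  have he : 0 < τ ^ 2 := pow_pos hτ 2
  have he64 : τ ^ 2 ≤ 1 / 64 := by nlinarith
  obtain ⟨Cg, hCg, hg⟩ := hgood r τ (1 - margin β) (τ ^ 2 / 2) hτ (by linarith) (by linarith)
  refine ⟨C + δ, triNet δ C (ncol r), fun θ hθ => triNet_ok hδ hC0 hθ, fun Bd p hp => ?_⟩
  set B := max Bd 0
  have hB : 0 ≤ B := le_max_right _ _
  set M : ℝ := (ncol r : ℝ)
  have h0 : ∀ c : ℝ, Tendsto (fun n : ℕ => c / (n : ℝ)) atTop (𝓝 0) := fun c =>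
    tendsto_const_nhds.div_atTop tendsto_natCast_atTop_atTop
  have hexp : Tendsto (fun n : ℕ => (1 + (triNet δ C (ncol r)).card : ℝ) * exp (-(ε / 8 * n)))
      atTop (𝓝 0) := by
    simpa using ((tendsto_exp_neg_atTop_nhds_zero.comp
      ((tendsto_natCast_atTop_atTop (R := ℝ)).const_mul_atTop (by linarith : 0 < ε / 8)))).const_mul
      (1 + (triNet δ C (ncol r)).card : ℝ)
  filter_upwards [goodDis_eventually hβ hβ1 hW hdg hWu he (half_pos hp), eventually_ge_atTop 1,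
    (h0 (Cg + 18 * M ^ 4)).eventually_le_const (by linarith : 0 < ε / 2),
    (h0 (B * Cg + B * (M ^ 3 / (τ ^ 2) ^ 2))).eventually_le_const (by linarith : 0 < ε / 2),
    (h0 Cg).eventually_le_const hε,
    hexp.eventually_le_const (half_pos hp)] with n hbad hn hN1 hN2 hN3 hN4 u hu
  have hnp : (0 : ℝ) < n := by exact_mod_cast hn
  obtain ⟨hW0, hW2, hWl⟩ := hW n
  have hW6 : 1 / 6 ≤ W n := le_trans (one_div_le_one_div_of_le (by linarith) (by linarith)) hWl
  have hA : ∀ {d}, GoodDis n β (W n) (τ ^ 2) d → (aop n β d).PosDef := fun hd =>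
    aop_posDef hη hβ hd.1.1
  have hoff : ∀ {d}, GoodDis n β (W n) (τ ^ 2) d → ∀ (ν : Conf n → ℝ) (S : Finset (Fin n)),
      (∀ x, 0 < ν x) → ∑ x, ν x = 1 →
      trajE (aop n β d) u ν S ((offPath (aop n β d) τ (W n) (τ ^ 2) r).indicator 1) ≤ Cg / n :=
    fun hd ν S hν hν1 => offPath_small hlin hβ hβ1 hg he.le hn hd u hν hν1 S
  have hsplit1 : (Cg + 18 * M ^ 4) / n = Cg / n + 18 * M ^ 4 / n := add_div _ _ _
  refine ⟨mkRead hτ δ C β n r, fun d P => rdCoef_mem hδ hC0 _ _, mkRead_ok hτ,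
    le_trans (measureReal_mono (s₂ := {d | ¬ GoodDis n β (W n) (τ ^ 2) d}) fun d hd hgd => hd ?_)
      (hbad.trans (by linarith)), fun f hf hfB hm => ?_⟩
  · intro ν S hν hν1
    set A := aop n β d
    have hmo := measurableSet_offPath A τ (W n) (τ ^ 2) r
    constructor
    · refine (traj_split hlin (hA hgd) hν hν1 S (a := 0) (b := 1)
        (c := ε / 4 + 18 * M ^ 4 / n) (G := fun _ => 0)
        (measurable_const.min (measurable_reproErr hτ d)) measurable_const hmo (BF := 1) (BG := 0)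
        (fun P => ?_) (fun P => by simp) fun P => ?_).trans ?_
      · rw [abs_of_nonneg (le_min zero_le_one (reproErr_nonneg _ _ _ _))]; exact min_le_left _ _
      · by_cases h : P ∈ offPath A τ (W n) (τ ^ 2) r
        · rw [Set.indicator_of_mem h, Pi.one_apply]
          have : 0 ≤ 18 * M ^ 4 / n := by positivity
          linarith [min_le_left (1 : ℝ) (reproErr β (mkRead hτ δ C β n r) d P)]
        · rw [Set.indicator_of_notMem h]
          have := repro_le hτ hτ1 hδ hδ1 hn hβ hβ1.le hη.le hW2 (by linarith : τ ^ 2 ≤ 1) hC hCR hgd.1.1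
            (not_not.1 h)
          linarith [min_le_right (1 : ℝ) (reproErr β (mkRead hτ δ C β n r) d P)]
      · linarith [hoff hgd ν S hν hν1]
    · refine (traj_split hlin (hA hgd) hν hν1 S (a := 0) (b := 1) (c := 0) (G := fun _ => 0)
        (measurable_one.indicator (measurableSet_fits hτ d ε).compl) measurable_const hmo (BF := 1)
        (BG := 0) (fun P => ?_) (fun P => by simp) fun P => ?_).trans ?_
      · by_cases h : Fits β (mkRead hτ δ C β n r) d ε P <;> simp [h]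
      · by_cases h : P ∈ offPath A τ (W n) (τ ^ 2) r
        · rw [Set.indicator_of_mem h, Pi.one_apply]
          by_cases h' : Fits β (mkRead hτ δ C β n r) d ε P <;> simp [h']
        · have := fits_of_pathOK (δ := δ) hτ hτ1 hδ hδ1 hn hW2 (by linarith : τ ^ 2 ≤ 1) hC hCR hfit
            hfit2 (not_not.1 h)
          rw [Set.indicator_of_notMem h, Set.indicator_of_notMem (by exact fun h' => h' this)]
          simp
      · linarith [hoff hgd ν S hν hν1]
  · have hfB' : ∀ b θ p, |f b θ p| ≤ B := fun b θ p => (hfB b θ p).trans (le_max_left _ _)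
    set T := exp (n * (log 2 + ε / 4))
    set bad : Finset (Fin n) → Set (Dis n) := fun S => {d | DOK n β (W n) (margin β) (τ ^ 2) d ∧
      T < refExp β u S d (goodMean hτ δ C β (W n) (τ ^ 2) S f d)}
    refine le_trans (measureReal_mono (s₂ := {d | ¬ GoodDis n β (W n) (τ ^ 2) d} ∪ ⋃ S, bad S)
      fun d hd => ?_) ?_
    · rw [Set.mem_ofPred_eq] at hd
      by_contra hc
      simp only [Set.mem_union, Set.mem_iUnion, Set.mem_ofPred_eq, not_or, not_not, not_exists, bad,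
        not_and, not_lt] at hc
      obtain ⟨hgd, hT⟩ := hc
      refine hd fun ν S hν hν1 => ?_
      set A := aop n β d
      set Φ := goodMean hτ δ C β (W n) (τ ^ 2) S f d
      have hΦm : Measurable Φ := measurable_goodMean hτ hδ hC0 S hf d
      have hΦb : ∀ P, |Φ P| ≤ n * B := abs_goodMean_le hτ hB S hfB' d
      have hv := hvar n r A u ν S (hA hgd) hu hν hν1 Φ hΦm ⟨_, hΦb⟩
      have hlog : log (refExp β u S d Φ) ≤ n * (log 2 + ε / 4) := by
        have := log_le_log (refExp_pos hW0 (hA hgd) u S hΦm hΦb) (hT S hgd.1)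
        rwa [log_exp] at this
      have hs := traj_split hlin (hA hgd) hν hν1 S (u := u) (a := (n : ℝ)⁻¹) (b := B)
        (c := B * (M ^ 3 / ((τ ^ 2) ^ 2 * n))) (measurable_siteAvg hτ hδ hC0 S hf d) hΦm
        (measurableSet_offPath A τ (W n) (τ ^ 2) r) (abs_siteAvg_le hτ hn S hfB' d) hΦb
        (siteAvg_le hτ hδ hC0 hn hB he S hf hfB' d)
      have h1 : (n : ℝ)⁻¹ * trajE A u ν S Φ ≤ 2 * log 2 + trajD A u ν S r / n + ε / 4 := by
        have : trajE A u ν S Φ ≤ n * (2 * log 2 + trajD A u ν S r / n + ε / 4) := by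
          rw [mul_add, mul_add, mul_div_cancel₀ _ hnp.ne']
          have : log (∑ x, (1 / 2 : ℝ) ^ n * ∫ g, pathE qR (stepsOf A 0 (sideField u x g) S) x
              (fun ω => exp (Φ (x, g, ω))) ∂gp (Fin n)) = log (refExp β u S d Φ) := rfl
          linarith
        rw [inv_mul_le_iff₀ hnp]
        exact this
      have h2 : B * trajE A u ν S ((offPath A τ (W n) (τ ^ 2) r).indicator 1) ≤ B * (Cg / n) :=
        mul_le_mul_of_nonneg_left (hoff hgd ν S hν hν1) hB
      have h3 : (B * Cg + B * (M ^ 3 / (τ ^ 2) ^ 2)) / n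
          = B * (Cg / n) + B * (M ^ 3 / ((τ ^ 2) ^ 2 * n)) := by
        rw [add_div, mul_div_assoc, mul_div_assoc, div_div]
      linarith
    · refine (measureReal_union_le _ _).trans ((add_le_add hbad ?_).trans_eq (add_halves p))
      refine (measureReal_iUnion_fintype_le bad).trans ?_
      have hmk : ∀ S, (disX n).real (bad S)
          ≤ (1 + (triNet δ C (ncol r)).card * exp (n * ptErr r τ δ C (τ ^ 2))) / T := fun S =>
        refExp_markov hτ hτ1 hδ hδ1 hn hβ hβ1.le hη hW6 hW2 he (by linarith) (by linarith) hC hCR hB S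
          hf hfB' hm (exp_pos _)
      refine (sum_le_sum fun S _ => hmk S).trans (le_trans ?_ hN4)
      rw [sum_const, card_univ, Fintype.card_finset, Fintype.card_fin, nsmul_eq_mul, Nat.cast_pow,
        Nat.cast_ofNat, mul_div_assoc', div_le_iff₀ (exp_pos _)]
      have e2 : exp (-(ε / 8 * n)) * T = (2 : ℝ) ^ n * exp (n * (ε / 8)) := by
        rw [← exp_log (show (0 : ℝ) < 2 ^ n by positivity), ← exp_add, ← exp_add, log_pow]
        ring_nf
      rw [mul_assoc, e2, ← mul_assoc, mul_comm (1 + ((triNet δ C (ncol r)).card : ℝ)), mul_assoc]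
      refine mul_le_mul_of_nonneg_left ?_ (by positivity)
      have hc1 : exp (n * ptErr r τ δ C (τ ^ 2)) ≤ exp (n * (ε / 8)) :=
        exp_le_exp.2 (mul_le_mul_of_nonneg_left hpt hnp.le)
      have hc2 : (1 : ℝ) ≤ exp (n * (ε / 8)) := one_le_exp (by positivity)
      linarith [mul_le_mul_of_nonneg_left hc1 ((triNet δ C (ncol r)).card.cast_nonneg (α := ℝ))]

end Vale.Agent.P150.Fast.Dom
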