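import Vale.Agent.P150.Fast.Dom.PathStmt
import Vale.Agent.P150.Fast.ChainPath

/-!
Path expectations with a parameter in the prior and the field; linearity and monotonicity of the
law of a path (`TrajLinStmt`). Used for P150 (module M3).
-/

open MeasureTheory Real Finset
open scoped Matrix

namespace Vale.Agent.P150.Fast.Dom

variable {n : ℕ}

theorem measurable_cons (y : Fin n → ℝ) (z : Conf n) {r : ℕ} :
    Measurable fun ω : Fin r → (Fin n → ℝ) × Conf n =>
      (Fin.cons (y, z) ω : Fin (r + 1) → (Fin n → ℝ) × Conf n) := by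
  refine measurable_pi_lambda _ fun i => ?_
  refine Fin.cases ?_ (fun j => ?_) i
  · simp only [Fin.cons_zero]; exact measurable_const
  · simp only [Fin.cons_succ]; exact measurable_pi_apply j

/-- Path expectations depend measurably on parameters of the rule and of the test. -/
theorem pathE_param : ∀ (r : ℕ) (A : Matrix (Fin n) (Fin n) ℝ) (P : Type) [MeasurableSpace P]
    (R : P → Step n → Kern n) (st : P → Step n),
    (∀ p, (st p).A = A) → (∀ p, OkStep (R p) (st p)) →
    (∀ x z, Measurable fun q : P × (Fin n → ℝ) => R q.1 (st q.1) x q.2 z) →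
    ∀ F : P → (Fin r → (Fin n → ℝ) × Conf n) → ℝ, Measurable (Function.uncurry F) →
      ∀ M : ℝ, (∀ p ω, |F p ω| ≤ M) → ∀ x,
      Measurable (fun p => pathE (R p) (fun _ : Fin r => st p) x (F p)) ∧
        ∀ p, |pathE (R p) (fun _ : Fin r => st p) x (F p)| ≤ M
  | 0, _, P, _, R, st, _, _, _, F, hF, M, hM, x =>
    ⟨hF.comp (measurable_id.prodMk measurable_const), fun p => hM p _⟩
  | r + 1, A, P, _, R, st, hA, hok, hR, F, hF, M, hM, x => by
    have hc : ∀ z : Conf n, Measurable fun q : (P × (Fin n → ℝ)) × (Fin r → (Fin n → ℝ) × Conf n) =>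
        (q.1.1, (Fin.cons (q.1.2, z) q.2 : Fin (r + 1) → (Fin n → ℝ) × Conf n)) := fun z => by
      refine (measurable_fst.comp measurable_fst).prodMk (measurable_pi_lambda _ fun i => ?_)
      refine Fin.cases ?_ (fun j => ?_) i
      · simp only [Fin.cons_zero]
        exact (measurable_snd.comp measurable_fst).prodMk measurable_const
      · simp only [Fin.cons_succ]
        exact (measurable_pi_apply j).comp measurable_snd
    have ih := fun z => pathE_param r A (P × (Fin n → ℝ)) (fun q => R q.1) (fun q => st q.1)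
      (fun q => hA q.1) (fun q => hok q.1)
      (fun x' z' => (hR x' z').comp ((measurable_fst.comp measurable_fst).prodMk measurable_snd))
      (fun q ω => F q.1 (Fin.cons (q.2, z) ω)) (hF.comp (hc z)) M (fun q ω => hM _ _) z
    have hG : Measurable fun q : P × (Fin n → ℝ) => ∑ z, R q.1 (st q.1) x q.2 z
        * pathE (R q.1) (fun _ : Fin r => st q.1) z fun ω => F q.1 (Fin.cons (q.2, z) ω) :=
      Finset.measurable_sum _ fun z _ => (hR x z).mul (ih z).1
    have hGb : ∀ p y, |∑ z, R p (st p) x y z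
        * pathE (R p) (fun _ : Fin r => st p) z fun ω => F p (Fin.cons (y, z) ω)| ≤ M := fun p y =>
      avg_bound ((hok p).nn x y) ((hok p).sum x y) fun z => (ih z).2 (p, y)
    have hH : Measurable fun q : P × (Fin n → ℝ) => chan A x q.2 * ∑ z, R q.1 (st q.1) x q.2 z
        * pathE (R q.1) (fun _ : Fin r => st q.1) z fun ω => F q.1 (Fin.cons (q.2, z) ω) :=
      (((continuous_chanV _ _).measurable).comp measurable_snd).mul hG
    refine ⟨?_, fun p => ?_⟩
    · simp only [pathE, hA]
      exact hH.stronglyMeasurable.integral_prod_right'.measurable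
    · exact chanV_int_bound (hok p).pd _ (hG.comp (measurable_const.prodMk measurable_id)) (hGb p)

variable {R : Step n → Kern n}

theorem pathE_add : ∀ {r : ℕ} (σ : Fin r → Step n), (∀ t, OkStep R (σ t)) →
    ∀ (F G : (Fin r → (Fin n → ℝ) × Conf n) → ℝ), Measurable F → Measurable G →
      ∀ M M' : ℝ, (∀ ω, |F ω| ≤ M) → (∀ ω, |G ω| ≤ M') → ∀ x,
        pathE R σ x (fun ω => F ω + G ω) = pathE R σ x F + pathE R σ x G
  | 0, _, _, _, _, _, _, _, _, _, _, _ => rfl
  | r + 1, σ, hσ, F, G, hF, hG, M, M', hM, hM', x => by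
    have ih : ∀ y z, pathE R (Fin.tail σ) z (fun ω => F (Fin.cons (y, z) ω) + G (Fin.cons (y, z) ω))
        = pathE R (Fin.tail σ) z (fun ω => F (Fin.cons (y, z) ω))
          + pathE R (Fin.tail σ) z (fun ω => G (Fin.cons (y, z) ω)) := fun y z =>
      pathE_add (Fin.tail σ) (fun t => hσ t.succ) _ _ (hF.comp (measurable_cons y z))
        (hG.comp (measurable_cons y z)) M M' (fun _ => hM _) (fun _ => hM' _) z
    simp only [pathE, ih, mul_add, sum_add_distrib]
    rw [integral_add (pathE_step_int σ hσ hF hM x) (pathE_step_int σ hσ hG hM' x)]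

theorem pathE_mono : ∀ {r : ℕ} (σ : Fin r → Step n), (∀ t, OkStep R (σ t)) →
    ∀ (F G : (Fin r → (Fin n → ℝ) × Conf n) → ℝ), Measurable F → Measurable G →
      ∀ M M' : ℝ, (∀ ω, |F ω| ≤ M) → (∀ ω, |G ω| ≤ M') → (∀ ω, F ω ≤ G ω) → ∀ x,
        pathE R σ x F ≤ pathE R σ x G
  | 0, _, _, _, _, _, _, _, _, _, _, h, _ => h _
  | r + 1, σ, hσ, F, G, hF, hG, M, M', hM, hM', h, x => by
    refine integral_mono (pathE_step_int σ hσ hF hM x) (pathE_step_int σ hσ hG hM' x) fun y => ?_
    refine mul_le_mul_of_nonneg_left (sum_le_sum fun z _ => mul_le_mul_of_nonneg_left ?_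
      ((hσ 0).nn x y z)) (chanV_pos (hσ 0).pd _ y).le
    exact pathE_mono (Fin.tail σ) (fun t => hσ t.succ) _ _ (hF.comp (measurable_cons y z))
      (hG.comp (measurable_cons y z)) M M' (fun _ => hM _) (fun _ => hM' _) (fun _ => h _) z

theorem pathE_const {r : ℕ} (σ : Fin r → Step n) (hσ : ∀ t, OkStep R (σ t)) (c : ℝ) (x : Conf n) :
    pathE R σ x (fun _ => c) = c := by
  have h := pathE_affine σ hσ (fun _ => 0) measurable_const 0 (by simp) 0 c x
  simpa using h

variable {r : ℕ} {A : Matrix (Fin n) (Fin n) ℝ} {u : ℝ} {ν : Conf n → ℝ} {S : Finset (Fin n)}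

theorem prior_pos (hν : ∀ x, 0 < ν x) (s : ℝ) (h : Fin n → ℝ) (x : Conf n) :
    0 < priorAt A s ν h x :=
  div_pos (mul_pos (hν x) (exp_pos _)) (sum_pos (fun z _ => mul_pos (hν z) (exp_pos _)) univ_nonempty)

theorem prior_sum (hν : ∀ x, 0 < ν x) (s : ℝ) (h : Fin n → ℝ) : ∑ x, priorAt A s ν h x = 1 := by
  simp only [priorAt, ← sum_div]
  exact div_self (sum_pos (fun z _ => mul_pos (hν z) (exp_pos _)) univ_nonempty).ne'

theorem prior_cont (hν : ∀ x, 0 < ν x) (s : ℝ) (x : Conf n) :
    Continuous fun h => priorAt A s ν h x := by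
  unfold priorAt lin
  exact Continuous.div (by fun_prop) (by fun_prop) fun h =>
    (sum_pos (fun z _ => mul_pos (hν z) (exp_pos _)) univ_nonempty).ne'

theorem side_cont (u : ℝ) (x : Conf n) : Continuous (sideField u x) := by
  unfold sideField; fun_prop

theorem steps_ok_p (hA : A.PosDef) (hν : ∀ x, 0 < ν x) (h h' : Fin n → ℝ) (t : Fin r) :
    OkStep (pR (priorAt A 0 ν h')) (stepsOf A 0 h S t) :=
  ok_pR (prior_pos hν 0 h') (by simpa [stepsOf] using hA)

theorem steps_ok_q (hA : A.PosDef) (h : Fin n → ℝ) (t : Fin r) :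
    OkStep qR (stepsOf A 0 h S t) :=
  ok_qR (by simpa [stepsOf] using hA)

/-- Along a field read measurably from a parameter, the path of the prior is measurable. -/
theorem pR_path_meas (hA : A.PosDef) (hν : ∀ x, 0 < ν x) {P : Type} [MeasurableSpace P]
    {h : P → Fin n → ℝ} (hh : Measurable h) (S : Finset (Fin n))
    {F : P → (Fin r → (Fin n → ℝ) × Conf n) → ℝ} (hF : Measurable (Function.uncurry F)) {M : ℝ}
    (hM : ∀ p ω, |F p ω| ≤ M) (x : Conf n) :
    Measurable (fun p => pathE (pR (priorAt A 0 ν (h p))) (stepsOf A 0 (h p) S) x (F p)) ∧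
      ∀ p, |pathE (pR (priorAt A 0 ν (h p))) (stepsOf A 0 (h p) S) x (F p)| ≤ M := by
  refine pathE_param r ((1 - (0 : ℝ)) • A) P (fun p => pR (priorAt A 0 ν (h p)))
    (fun p => ⟨(1 - (0 : ℝ)) • A, h p, S⟩) (fun _ => rfl)
    (fun p => ok_pR (prior_pos hν 0 _) (by simpa using hA)) (fun x z => ?_) F hF M hM x
  have hc : ∀ w, Measurable fun q : P × (Fin n → ℝ) =>
      priorAt A 0 ν (h q.1) w * chan ((1 - (0 : ℝ)) • A) w q.2 := fun w =>
    (((prior_cont hν 0 w).measurable.comp hh).comp measurable_fst).mul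
      ((continuous_chanV _ _).measurable.comp measurable_snd)
  simp only [pR, postS]
  by_cases hz : z ∈ fib S x
  · simp only [hz, if_true]
    exact (hc z).div (Finset.measurable_sum _ fun w _ => hc w)
  · simp only [hz, if_false]
    exact measurable_const

theorem qR_path_meas (hA : A.PosDef) {P : Type} [MeasurableSpace P]
    {h : P → Fin n → ℝ} (hh : Measurable h) (S : Finset (Fin n))
    {F : P → (Fin r → (Fin n → ℝ) × Conf n) → ℝ} (hF : Measurable (Function.uncurry F)) {M : ℝ}
    (hM : ∀ p ω, |F p ω| ≤ M) (x : Conf n) :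
    Measurable (fun p => pathE qR (stepsOf A 0 (h p) S) x (F p)) ∧
      ∀ p, |pathE qR (stepsOf A 0 (h p) S) x (F p)| ≤ M := by
  refine pathE_param r ((1 - (0 : ℝ)) • A) P (fun _ => qR)
    (fun p => ⟨(1 - (0 : ℝ)) • A, h p, S⟩) (fun _ => rfl)
    (fun p => ok_qR (by simpa using hA)) (fun x z => ?_) F hF M hM x
  simp only [qR, prodS]
  by_cases hz : z ∈ fib S x
  · simp only [hz, if_true, sig, Pi.add_apply]
    fun_prop
  · simp only [hz, if_false]
    exact measurable_const

/-- The function under the Gaussian integral of `trajE`. -/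
theorem traj_int (hA : A.PosDef) (hν : ∀ x, 0 < ν x) {F : Traj n r → ℝ} (hF : Measurable F) {B : ℝ}
    (hB : ∀ P, |F P| ≤ B) (x : Conf n) :
    Integrable (fun g => pathE (pR (priorAt A 0 ν (sideField u x g))) (stepsOf A 0 (sideField u x g) S) x
      fun ω => F (x, g, ω)) (gp (Fin n)) := by
  obtain ⟨h1, h2⟩ := pR_path_meas (F := fun g ω => F (x, g, ω)) hA hν (side_cont u x).measurable S
    (hF.comp (measurable_const.prodMk (measurable_fst.prodMk measurable_snd)))
    (fun p ω => hB _) x
  exact Integrable.of_bound h1.aestronglyMeasurable B (ae_of_all _ h2)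

theorem trajLin : TrajLinStmt := by
  intro n r A u ν S hA hν h1 F G hF hG ⟨B, hB⟩ ⟨B', hB'⟩
  have mF : ∀ x g, Measurable fun ω : Fin r → (Fin n → ℝ) × Conf n => F (x, g, ω) := fun x g =>
    hF.comp (measurable_const.prodMk (measurable_const.prodMk measurable_id))
  have mG : ∀ x g, Measurable fun ω : Fin r → (Fin n → ℝ) × Conf n => G (x, g, ω) := fun x g =>
    hG.comp (measurable_const.prodMk (measurable_const.prodMk measurable_id))
  refine ⟨fun h => sum_le_sum fun x _ => mul_le_mul_of_nonneg_left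
    (integral_mono (traj_int hA hν hF hB x) (traj_int hA hν hG hB' x) fun g =>
      pathE_mono _ (steps_ok_p hA hν _ _) _ _ (mF x g) (mG x g) B B' (fun _ => hB _) (fun _ => hB' _)
        (fun _ => h _) x) (hν x).le, ?_, fun c => ⟨?_, ?_⟩⟩
  · simp only [trajE]
    rw [← sum_add_distrib]
    refine sum_congr rfl fun x _ => ?_
    rw [← mul_add, ← integral_add (traj_int hA hν hF hB x) (traj_int hA hν hG hB' x)]
    congr 1
    exact integral_congr_ae (ae_of_all _ fun g =>
      pathE_add _ (steps_ok_p hA hν _ _) _ _ (mF x g) (mG x g) B B' (fun _ => hB _) (fun _ => hB' _) x)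
  · simp only [trajE, mul_sum]
    refine sum_congr rfl fun x _ => ?_
    rw [mul_left_comm c]
    refine congrArg (ν x * ·) (Eq.trans ?_ (integral_const_mul c _))
    refine integral_congr_ae (ae_of_all _ fun g => ?_)
    have := pathE_affine _ (steps_ok_p (S := S) hA hν (sideField u x g) (sideField u x g)) _ (mF x g) B
      (fun _ => hB _) c 0 x
    simpa using this
  · simp only [trajE]
    have e : ∀ (x : Conf n) (g : Fin n → ℝ), pathE (pR (priorAt A 0 ν (sideField u x g)))
        (stepsOf A 0 (sideField u x g) S : Fin r → Step n) x (fun _ => c) = c := fun x g =>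
      pathE_const _ (steps_ok_p hA hν _ _) c x
    simp only [e, integral_const, probReal_univ, one_smul]
    rw [← sum_mul, h1, one_mul]

end Vale.Agent.P150.Fast.Dom
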