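import Vale.Agent.P150.Fast.GoeStmt

/-!
Two statements about the resolvent of the shifted coupling matrix used inside module M3 of P150:
the diagonal is self-averaging, and the log-determinant has its annealed upper bound.
-/

open MeasureTheory Real Finset Filter
open scoped Matrix

namespace Vale.Agent.P150.Fast.Dom

/-- The event that the coupling matrix has norm at most `2 * β + η`. -/
def NormOK (n : ℕ) (β η : ℝ) (d : Dis n) : Prop :=
  ∀ v, |Ent.qform (kmat n β d) v| ≤ (2 * β + η) * ∑ i, v i ^ 2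

/-- The diagonal of the resolvent is self-averaging. -/
def DiagStmt (β : ℝ) : Prop :=
  ∃ W : ℕ → ℝ, (∀ n, 0 < W n ∧ W n ≤ 2 ∧ 1 / (4 * β + 2) ≤ W n) ∧
    (∀ ε δ : ℝ, 0 < ε → 0 < δ → ∀ᶠ n : ℕ in atTop,
      (disX n).real {d | ε < (n : ℝ)⁻¹ * ∑ i, |(aop n β d)⁻¹ i i - W n|} ≤ δ) ∧
    ∀ η : ℝ, 0 < η → η ≤ 1 / 4 → ∀ᶠ n : ℕ in atTop, W n ≤ 1 / (1 - 2 * η)

/-- The upper bound on the log-determinant, at every candidate value of the diagonal. -/
def LogDetStmt (β : ℝ) : Prop :=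
  ∀ η ε : ℝ, 0 < η → η ≤ 1 / 4 → 0 < ε → ∃ c : ℝ, 0 < c ∧ ∀ᶠ n : ℕ in atTop,
    ∀ w : ℝ, 1 / (4 * β + 2) ≤ w → w ≤ 2 → β ^ 2 * w ≤ 1 - 2 * η →
      (disX n).real {d | NormOK n β η d ∧
        n * (-log w - 1 + shift β * w - β ^ 2 * w ^ 2 / 2 + ε) < log (aop n β d).det}
        ≤ exp (-(c * n))

end Vale.Agent.P150.Fast.Dom
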