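import Vale.Agent.P150.Fast.Path
import Vale.Agent.P150.Fast.StepKL
import Vale.Agent.P150.Fast.Dom.Rows

/-!
The reference path as an integral over standard Gaussian noises. Used for P150 (module M3).
-/

open MeasureTheory ProbabilityTheory Real Finset
open scoped Matrix

namespace Vale.Agent.P150.Fast.Dom

variable {n r : ℕ} {A : Matrix (Fin n) (Fin n) ℝ} {s W : ℝ}

/-- The density of the noise against the normal law of variance `W`, in standard variables. -/
noncomputable def rho (A : Matrix (Fin n) (Fin n) ℝ) (W : ℝ) (g : Fin n → ℝ) : ℝ :=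
  √(W • A).det * exp ((g ⬝ᵥ g - g ⬝ᵥ ((W • A) *ᵥ g)) / 2)

theorem rho_nonneg (A : Matrix (Fin n) (Fin n) ℝ) (W : ℝ) (g : Fin n → ℝ) : 0 ≤ rho A W g :=
  mul_nonneg (sqrt_nonneg _) (exp_pos _).le

@[fun_prop]
theorem continuous_rho (A : Matrix (Fin n) (Fin n) ℝ) (W : ℝ) : Continuous (rho A W) := by
  unfold rho dotProduct Matrix.mulVec dotProduct
  fun_prop

/-- The field of a step from a state and a noise. -/
noncomputable def yOf (A : Matrix (Fin n) (Fin n) ℝ) (s : ℝ) (x : Conf n) (e : Fin n → ℝ) :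
    Fin n → ℝ := (1 - s) • (A *ᵥ vec x) + √(1 - s) • (A *ᵥ e)

theorem noiseDens_eq (hA : A.PosDef) (e : Fin n → ℝ) : noiseDens A e = chanV A⁻¹ 0 e := by
  have hu : IsUnit A.det := Ne.isUnit hA.det_pos.ne'
  rw [noiseDens, chanV, Matrix.nonsing_inv_nonsing_inv A hu, sub_zero, Matrix.det_nonsing_inv,
    Ring.inverse_eq_inv', ← div_eq_mul_inv, sqrt_div (by positivity)]
  have h2 : (0 : ℝ) < √((2 * π) ^ n) := by positivity
  have h3 : 0 < √A.det := sqrt_pos.2 hA.det_pos
  field_simp

theorem rho_eq (hW : 0 < W) (g : Fin n → ℝ) :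
    noiseDens A (√W • g) = chanV (W • (1 : Matrix (Fin n) (Fin n) ℝ)) 0 (√W • g) * rho A W g := by
  have hq : ∀ v : Fin n → ℝ, (√W • v) ⬝ᵥ (√W • g) = W * (v ⬝ᵥ g) := fun v => by
    rw [smul_dotProduct, dotProduct_smul, smul_eq_mul, smul_eq_mul, ← mul_assoc,
      mul_self_sqrt hW.le]
  have hi : (W • (1 : Matrix (Fin n) (Fin n) ℝ))⁻¹ = W⁻¹ • 1 := by
    refine Matrix.inv_eq_right_inv ?_
    rw [smul_mul_smul_comm, one_mul, mul_inv_cancel₀ hW.ne', one_smul]
  have h1 : (√W • g) ⬝ᵥ (A *ᵥ (√W • g)) = g ⬝ᵥ ((W • A) *ᵥ g) := by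
    rw [Matrix.mulVec_smul, Matrix.smul_mulVec, smul_dotProduct, dotProduct_smul, dotProduct_smul]
    simp only [smul_eq_mul]
    rw [← mul_assoc, mul_self_sqrt hW.le]
  simp only [noiseDens, chanV, rho, sub_zero, hi, Matrix.smul_mulVec, Matrix.one_mulVec,
    dotProduct_smul, hq, h1, Matrix.det_smul, Matrix.det_one, Fintype.card_fin, mul_one, smul_eq_mul]
  rw [inv_mul_cancel_left₀ hW.ne', sqrt_mul (by positivity) (W ^ n), sqrt_mul (by positivity) A.det]
  have hz : ∀ a b : ℝ, exp (-a / 2) = exp (-(b / 2)) * exp ((b - a) / 2) := fun a b => by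
    rw [← exp_add]; ring_nf
  rw [hz (W * g ⬝ᵥ (A *ᵥ g)) (g ⬝ᵥ g)]
  have : (0 : ℝ) < √((2 * π) ^ n) := by positivity
  have : (0 : ℝ) < √(W ^ n) := by positivity
  field_simp

/-- Integrals against the noise in standard variables. -/
theorem noise_integral (hA : A.PosDef) (hW : 0 < W) {G : (Fin n → ℝ) → ℝ} (hG : Measurable G) {B : ℝ}
    (hB : ∀ e, |G e| ≤ B) :
    ∫ e, noiseDens A e * G e = ∫ g, rho A W g * G (√W • g) ∂gp (Fin n) ∧
      Integrable (fun g => rho A W g * G (√W • g)) (gp (Fin n)) := by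
  have hd : (√W • (1 : Matrix (Fin n) (Fin n) ℝ)).det ≠ 0 := by
    simp [(sqrt_pos.2 hW).ne']
  have hB' : (√W • (1 : Matrix (Fin n) (Fin n) ℝ)) * (√W • (1 : Matrix (Fin n) (Fin n) ℝ)).transpose
      = W • 1 := by
    rw [Matrix.transpose_smul, Matrix.transpose_one, smul_mul_smul_comm, one_mul, mul_self_sqrt hW.le]
  set H : (Fin n → ℝ) → ℝ := fun e => rho A W ((√W)⁻¹ • e) * G e with hH
  have key := chan_integral hB' hd 0 H
  have e1 : ∀ e, chanV (W • (1 : Matrix (Fin n) (Fin n) ℝ)) 0 e * H e = noiseDens A e * G e := by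
    intro e
    have := rho_eq (A := A) hW ((√W)⁻¹ • e)
    rw [smul_smul, mul_inv_cancel₀ (sqrt_pos.2 hW).ne', one_smul] at this
    rw [this, hH]; ring
  have e2 : ∀ g, H (0 + (√W • (1 : Matrix (Fin n) (Fin n) ℝ)) *ᵥ g) = rho A W g * G (√W • g) := by
    intro g
    rw [zero_add, Matrix.smul_mulVec, Matrix.one_mulVec, hH]
    simp only [smul_smul, inv_mul_cancel₀ (sqrt_pos.2 hW).ne', one_smul]
  have hint : Integrable fun e => noiseDens A e * G e := by
    simp only [noiseDens_eq hA]
    exact chanV_bdd hA.inv 0 hG hB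
  simp only [e1, e2] at key
  exact ⟨key.1, key.2.1 hint⟩

/-- The channel of a step in standard variables. -/
theorem step_integral (hA : A.PosDef) (hW : 0 < W) (hs : s < 1) (x : Conf n)
    {G : (Fin n → ℝ) → ℝ} (hG : Measurable G) {B : ℝ} (hB : ∀ e, |G e| ≤ B) :
    ∫ y, chan ((1 - s) • A) x y * G y
      = ∫ g, rho A W g * G (yOf A s x (√W • g)) ∂gp (Fin n) := by
  obtain ⟨C, hC, hCd⟩ := exists_root hA.inv
  have hu : IsUnit A.det := Ne.isUnit hA.det_pos.ne'
  set D : Matrix (Fin n) (Fin n) ℝ := √(1 - s) • (A * C) with hD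
  have hDd : D.det ≠ 0 := by
    simp [hD, Matrix.det_mul, hA.det_pos.ne', hCd, (sqrt_pos.2 (sub_pos.2 hs)).ne']
  have hDD : D * D.transpose = (1 - s) • A := by
    rw [hD, Matrix.transpose_smul, smul_mul_smul_comm, mul_self_sqrt (sub_pos.2 hs).le,
      Matrix.transpose_mul, Matrix.mul_assoc, ← Matrix.mul_assoc C, hC, posDef_symm hA,
      Matrix.nonsing_inv_mul _ hu, Matrix.mul_one]
  have hy : Measurable fun e => G (yOf A s x e) :=
    hG.comp (by unfold yOf Matrix.mulVec dotProduct; fun_prop)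
  rw [chan_eq, (chan_integral hDD hDd _ G).1, ← (noise_integral hA hW hy fun e => hB _).1]
  simp only [noiseDens_eq hA]
  rw [(chan_integral hC hCd 0 fun e => G (yOf A s x e)).1]
  refine integral_congr_ae (ae_of_all _ fun g => ?_)
  simp only [yOf, hD, zero_add, Matrix.smul_mulVec, ← Matrix.mulVec_mulVec]

/-- The state before step `t`. -/
def prevAt (x : Conf n) (zs : Fin r → Conf n) (t : Fin r) : Conf n :=
  (Fin.cons x zs : Fin (r + 1) → Conf n) t.castSucc

/-- The path made of states and standard noises. -/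
noncomputable def omOf (A : Matrix (Fin n) (Fin n) ℝ) (s W : ℝ) (x : Conf n) (zs : Fin r → Conf n)
    (g : Fin r × Fin n → ℝ) : Fin r → (Fin n → ℝ) × Conf n :=
  fun t => (yOf A s (prevAt x zs t) (√W • fun i => g (t, i)), zs t)

/-- The weight of the path in standard variables. -/
noncomputable def pathW (A : Matrix (Fin n) (Fin n) ℝ) (s W : ℝ) (h : Fin n → ℝ) (S : Finset (Fin n))
    (x : Conf n) (zs : Fin r → Conf n) (g : Fin r × Fin n → ℝ) : ℝ :=
  ∏ t, rho A W (fun i => g (t, i))
    * qR ⟨(1 - s) • A, h, S⟩ (prevAt x zs t) (omOf A s W x zs g t).1 (zs t)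

theorem continuous_yOf (A : Matrix (Fin n) (Fin n) ℝ) (s : ℝ) (x : Conf n) :
    Continuous (yOf A s x) := by
  unfold yOf Matrix.mulVec dotProduct; fun_prop

theorem measurable_omOf (x : Conf n) (zs : Fin r → Conf n) :
    Measurable (omOf A s W x zs) := by
  refine measurable_pi_lambda _ fun t => Measurable.prodMk ?_ measurable_const
  exact (continuous_yOf A s _).measurable.comp (by fun_prop)

theorem measurable_pathW (h : Fin n → ℝ) (S : Finset (Fin n)) (x : Conf n) (zs : Fin r → Conf n) :
    Measurable (pathW A s W h S x zs) := by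
  refine Finset.measurable_prod _ fun t _ => ?_
  refine ((continuous_rho A W).measurable.comp (by fun_prop)).mul ?_
  exact (measurable_prodS h S _ _).comp (measurable_fst.comp
    ((measurable_pi_apply t).comp (measurable_omOf x zs)))

theorem qR_bounds (h : Fin n → ℝ) (S : Finset (Fin n)) (x : Conf n) (y : Fin n → ℝ) (z : Conf n) :
    |qR ⟨(1 - s) • A, h, S⟩ x y z| ≤ 1 := by
  have h1 : qR ⟨(1 - s) • A, h, S⟩ x y z ≤ ∑ w, qR ⟨(1 - s) • A, h, S⟩ x y w :=
    single_le_sum (fun w _ => prodS_nonneg _ _ _ w) (mem_univ z)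
  rw [abs_of_nonneg (show 0 ≤ qR ⟨(1 - s) • A, h, S⟩ x y z from prodS_nonneg _ _ _ _)]
  exact h1.trans_eq (sum_prodS _ _ _)

theorem rho_rows_integrable (hA : A.PosDef) (hW : 0 < W) : ∀ r : ℕ,
    Integrable (fun g : Fin r × Fin n → ℝ => ∏ t, rho A W fun i => g (t, i)) (gp (Fin r × Fin n))
  | 0 => by simp
  | r + 1 => by
    have h := (noise_integral (G := fun _ => 1) hA hW measurable_const (B := 1) (by simp)).2
    simp only [mul_one] at h
    have := (mp_rowSplit r).integrable_comp_of_integrable (h.mul_prod (rho_rows_integrable hA hW r))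
    refine this.congr (ae_of_all _ fun g => ?_)
    simp only [Function.comp_apply, Fin.prod_univ_succ, rowSplit]

theorem pathW_integrable (hA : A.PosDef) (hW : 0 < W) (h : Fin n → ℝ) (S : Finset (Fin n))
    (x : Conf n) (zs : Fin r → Conf n) {G : (Fin r × Fin n → ℝ) → ℝ} (hG : Measurable G) {B : ℝ}
    (hB : ∀ g, |G g| ≤ B) :
    Integrable (fun g => pathW A s W h S x zs g * G g) (gp (Fin r × Fin n)) := by
  refine ((rho_rows_integrable hA hW r).const_mul B).mono'
    ((measurable_pathW h S x zs).mul hG).aestronglyMeasurable (ae_of_all _ fun g => ?_)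
  rw [Real.norm_eq_abs, abs_mul, pathW, abs_prod, mul_comm B]
  refine mul_le_mul (prod_le_prod (fun _ _ => abs_nonneg _) fun t _ => ?_) (hB g) (abs_nonneg _)
    (prod_nonneg fun _ _ => rho_nonneg _ _ _)
  rw [abs_mul, abs_of_nonneg (rho_nonneg _ _ _)]
  exact mul_le_of_le_one_right (rho_nonneg _ _ _) (qR_bounds _ _ _ _ _)

/-- **The reference path in standard variables.** -/
theorem pathE_qR (hA : A.PosDef) (hW : 0 < W) (hs : s < 1) (h : Fin n → ℝ) (S : Finset (Fin n)) :
    ∀ (r : ℕ) (x : Conf n) (F : (Fin r → (Fin n → ℝ) × Conf n) → ℝ), Measurable F →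
      ∀ B : ℝ, (∀ ω, |F ω| ≤ B) →
      pathE qR (fun _ => ⟨(1 - s) • A, h, S⟩) x F
        = ∑ zs, ∫ g, pathW A s W h S x zs g * F (omOf A s W x zs g) ∂gp (Fin r × Fin n)
  | 0, x, F, _, _, _ => by
    simp only [pathE, pathW, Finset.univ_eq_empty, prod_empty, one_mul, Fintype.sum_unique]
    have e : ∀ zs g, F (omOf A s W x zs g) = F Fin.elim0 := fun zs g =>
      congrArg F (Subsingleton.elim _ _)
    simp [e]
  | r + 1, x, F, hF, B, hB => by
    set st : Step n := ⟨(1 - s) • A, h, S⟩ with hst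
    set Fc : (Fin n → ℝ) → Conf n → (Fin r → (Fin n → ℝ) × Conf n) → ℝ :=
      fun y z ω => F (Fin.cons (y, z) ω) with hFc
    have hcons : ∀ z, Measurable fun p : (Fin n → ℝ) × (Fin r → (Fin n → ℝ) × Conf n) =>
        Fc p.1 z p.2 := fun z => hF.comp (measurable_pi_lambda _ fun t => by
      cases t using Fin.cases <;> simp <;> fun_prop)
    have hI : ∀ y z, pathE qR (fun _ => st) z (Fc y z)
        = ∑ zs, ∫ g, pathW A s W h S z zs g * Fc y z (omOf A s W z zs g) ∂gp (Fin r × Fin n) :=
      fun y z => pathE_qR hA hW hs h S r z _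
        ((hcons z).comp (measurable_const.prodMk measurable_id)) B fun ω => hB _
    set K : Conf n → (Fin r → Conf n) → (Fin n → ℝ) → ℝ := fun z zs y =>
      qR st x y z * ∫ g, pathW A s W h S z zs g * Fc y z (omOf A s W z zs g) ∂gp (Fin r × Fin n)
      with hK
    have hKm : ∀ z zs, Measurable (K z zs) := fun z zs => by
      refine (measurable_prodS h S x z).mul ?_
      refine (StronglyMeasurable.integral_prod_right' (f := fun p : (Fin n → ℝ) × (Fin r × Fin n → ℝ) =>
        pathW A s W h S z zs p.2 * Fc p.1 z (omOf A s W z zs p.2)) ?_).measurable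
      exact (((measurable_pathW h S z zs).comp measurable_snd).mul ((hcons z).comp
        (measurable_fst.prodMk ((measurable_omOf z zs).comp measurable_snd)))).stronglyMeasurable
    set I0 := ∫ g : Fin r × Fin n → ℝ, ∏ t, rho A W (fun i => g (t, i)) ∂gp (Fin r × Fin n) with hI0
    have hKb : ∀ z zs y, |K z zs y| ≤ B * I0 := fun z zs y => by
      rw [hK, abs_mul]
      refine (mul_le_of_le_one_left (abs_nonneg _) (qR_bounds _ _ _ _ _)).trans ?_
      refine abs_integral_le_integral_abs.trans ?_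
      rw [hI0, ← integral_const_mul]
      refine integral_mono_of_nonneg (ae_of_all _ fun g => abs_nonneg _)
        ((rho_rows_integrable hA hW r).const_mul B) (ae_of_all _ fun g => ?_)
      dsimp only
      rw [abs_mul, pathW, abs_prod, mul_comm B]
      refine mul_le_mul (prod_le_prod (fun _ _ => abs_nonneg _) fun t _ => ?_) (hB _) (abs_nonneg _)
        (prod_nonneg fun _ _ => rho_nonneg _ _ _)
      rw [abs_mul, abs_of_nonneg (rho_nonneg _ _ _)]
      exact mul_le_of_le_one_right (rho_nonneg _ _ _) (qR_bounds _ _ _ _ _)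
    have e0 : pathE qR (fun _ : Fin (r + 1) => st) x F
        = ∫ y, chan ((1 - s) • A) x y * ∑ z, ∑ zs, K z zs y := by
      simp only [pathE, hK, ← mul_sum]
      refine integral_congr_ae (ae_of_all _ fun y => ?_)
      dsimp only
      congr 1
      refine sum_congr rfl fun z _ => ?_
      rw [← hI]
      rfl
    have hsum : ∀ y, |∑ z, ∑ zs, K z zs y| ≤ ∑ _z : Conf n, ∑ _zs : Fin r → Conf n, B * I0 := fun y =>
      (abs_sum_le_sum_abs _ _).trans (sum_le_sum fun z _ =>
        (abs_sum_le_sum_abs _ _).trans (sum_le_sum fun zs _ => hKb z zs y))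
    rw [e0, step_integral hA hW hs x (Finset.measurable_sum _ fun z _ =>
      Finset.measurable_sum _ fun zs _ => hKm z zs) hsum]
    have hIa : ∀ z zs, Integrable (fun a => rho A W a * K z zs (yOf A s x (√W • a))) (gp (Fin n)) :=
      fun z zs => (noise_integral hA hW (G := fun e => K z zs (yOf A s x e))
        ((hKm z zs).comp (continuous_yOf A s x).measurable) fun e => hKb z zs _).2
    simp only [mul_sum]
    rw [integral_finsetSum _ fun z _ => integrable_finsetSum _ fun zs _ => hIa z zs,
      ← (Fin.consEquiv fun _ : Fin (r + 1) => Conf n).sum_comp, Fintype.sum_prod_type]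
    refine sum_congr rfl fun z _ => ?_
    rw [integral_finsetSum _ fun zs _ => hIa z zs]
    refine sum_congr rfl fun zs _ => ?_
    set P : (Fin n → ℝ) × (Fin r × Fin n → ℝ) → ℝ := fun p =>
      rho A W p.1 * (qR st x (yOf A s x (√W • p.1)) z * (pathW A s W h S z zs p.2
        * Fc (yOf A s x (√W • p.1)) z (omOf A s W z zs p.2))) with hP
    have esp : ∀ g, pathW A s W h S x (Fin.cons z zs) g * F (omOf A s W x (Fin.cons z zs) g)
        = P (rowSplit g) := by
      intro g
      have eo : omOf A s W x (Fin.cons z zs) g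
          = Fin.cons (yOf A s x (√W • (rowSplit g).1), z) (omOf A s W z zs (rowSplit g).2) := by
        funext t
        cases t using Fin.cases <;> simp [omOf, prevAt, rowSplit]
      have ew : pathW A s W h S x (Fin.cons z zs) g = rho A W (rowSplit g).1
          * qR st x (yOf A s x (√W • (rowSplit g).1)) z * pathW A s W h S z zs (rowSplit g).2 := by
        rw [pathW, Fin.prod_univ_succ, eo]
        simp [pathW, prevAt, rowSplit, hst]
      rw [eo, ew, hP]; simp only [hFc]; ring
    have hPi : Integrable P ((gp (Fin n)).prod (gp (Fin r × Fin n))) := by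
      refine ((mp_rowSplit r).integrable_comp ?_).1 ?_
      · refine Measurable.aestronglyMeasurable ?_
        refine ((continuous_rho A W).measurable.comp measurable_fst).mul (Measurable.mul ?_ ?_)
        · exact (measurable_prodS h S x z).comp ((continuous_yOf A s x).measurable.comp (by fun_prop))
        · exact ((measurable_pathW h S z zs).comp measurable_snd).mul ((hcons z).comp
            (((continuous_yOf A s x).measurable.comp (by fun_prop)).prodMk
              ((measurable_omOf z zs).comp measurable_snd)))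
      · simp only [Function.comp_def, ← esp]
        exact pathW_integrable hA hW h S x _ (hF.comp (measurable_omOf x _)) fun g => hB _
    show _ = ∫ g, pathW A s W h S x (Fin.cons z zs) g * F (omOf A s W x (Fin.cons z zs) g) ∂gp _
    simp only [esp]
    rw [integral_rowSplit hPi]
    refine integral_congr_ae (ae_of_all _ fun a => ?_)
    simp only [hP, hK, integral_const_mul]

end Vale.Agent.P150.Fast.Dom
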