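import Vale.Agent.P150.Fast.Dom.Read
import Vale.Agent.P150.Fast.Dom.Stmt
import Vale.Agent.P150.Fast.Dom.Unfold

/-!
On the good event the reference density of a path is at most the tilted product of the site model,
up to `exp (small * n)`. Used for P150 (module M3).
-/

open MeasureTheory Real Finset
open scoped Matrix

namespace Vale.Agent.P150.Fast.Dom

open LL (nrm)

variable {n r : ℕ} {β W η ε u τ δ C : ℝ}

/-- The path made of states and standard noises, the noise of the side field included. -/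
noncomputable def pathOf (A : Matrix (Fin n) (Fin n) ℝ) (W : ℝ) (x : Fin (r + 1) → Conf n)
    (g : Fin (r + 1) × Fin n → ℝ) : Traj n r :=
  (x 0, fun i => g (0, i), omOf A 0 W (x 0) (Fin.tail x) fun p => g (p.1.succ, p.2))

/-- The noises: standard for the side field, of variance `W` after it. -/
noncomputable def esOf (W : ℝ) (g : Fin (r + 1) × Fin n → ℝ) : Fin (r + 1) → Fin n → ℝ :=
  Fin.cons (fun i => g (0, i)) fun t => √W • fun i => g (t.succ, i)

theorem stateAt_pathOf (A : Matrix (Fin n) (Fin n) ℝ) (W : ℝ) (x : Fin (r + 1) → Conf n)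
    (g : Fin (r + 1) × Fin n → ℝ) : stateAt (pathOf A W x g) = x := by
  funext b; cases b using Fin.cases <;> simp [stateAt, pathOf, omOf, Fin.tail]

theorem noiseAt_pathOf {A : Matrix (Fin n) (Fin n) ℝ} (hA : A.PosDef)
    (x : Fin (r + 1) → Conf n) (g : Fin (r + 1) × Fin n → ℝ) :
    noiseAt A (pathOf A W x g) = esOf W g := by
  have hu : IsUnit A.det := Ne.isUnit hA.det_pos.ne'
  funext b
  cases b using Fin.cases with
  | zero => simp [noiseAt, pathOf, esOf]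
  | succ t =>
    simp only [noiseAt, esOf, Fin.cons_succ, stateAt_pathOf]
    simp only [pathOf, omOf, yOf, prevAt, Fin.cons_self_tail, sub_zero, sqrt_one, one_smul,
      Matrix.mulVec_add, Matrix.mulVec_smul, Matrix.mulVec_mulVec, Matrix.nonsing_inv_mul A hu,
      Matrix.one_mulVec, add_sub_cancel_left]

/-- The density of a path of the reference chain with a uniform start, in standard variables. -/
noncomputable def pdens (β : ℝ) (d : Dis n) (u W : ℝ) (S : Finset (Fin n))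
    (x : Fin (r + 1) → Conf n) (g : Fin (r + 1) × Fin n → ℝ) : ℝ :=
  (1 / 2) ^ n * pathW (aop n β d) 0 W (sideField u (x 0) fun i => g (0, i)) S (x 0)
    (Fin.tail x) fun p => g (p.1.succ, p.2)

/-- The event of the disorder. -/
def DOK (n : ℕ) (β W η ε : ℝ) (d : Dis n) : Prop :=
  NormOK n β η d ∧ log (aop n β d).det ≤ n * (-log W - 1 + shift β * W - β ^ 2 * W ^ 2 / 2 + ε)

/-- The event of the noises: their lengths, and little weight in the earlier directions. -/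
def PathOK (τ W ε : ℝ) (x : Fin (r + 1) → Conf n) (e : Fin (r + 1) → Fin n → ℝ) : Prop :=
  |e 0 ⬝ᵥ e 0 / n - 1| ≤ ε ∧ ∀ b : Fin r, |e b.succ ⬝ᵥ e b.succ / n - W| ≤ ε ∧
    ∑ c ∈ Iio (ecol b.succ), (gs τ (wcols x e) c ⬝ᵥ wcols x e (ecol b.succ)) ^ 2 ≤ ε

theorem aop_posDef (hη : η < 1) (hβ : 0 ≤ β) {d : Dis n} (h : NormOK n β η d) :
    (aop n β d).PosDef := by
  refine Matrix.PosDef.of_dotProduct_mulVec_pos ?_ fun v hv => ?_
  · rw [Matrix.IsHermitian, Matrix.conjTranspose_eq_transpose_of_trivial]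
    exact LL.aop_transpose β d
  · have h1 := (abs_le.1 (h v)).1
    rw [star_trivial, aop, Matrix.add_mulVec, dotProduct_add, ← qform_eq_dot, Matrix.smul_mulVec,
      Matrix.one_mulVec, dotProduct_smul, smul_eq_mul]
    have hvp : 0 < v ⬝ᵥ v := (dot_self_nonneg' v).lt_of_ne' fun h => hv (dotProduct_self_eq_zero.1 h)
    have e : ∑ i, v i ^ 2 = v ⬝ᵥ v := by simp [dotProduct, pow_two]
    rw [e] at h1
    rw [shift]
    nlinarith

theorem kmat_nrm_le (hβ1 : β ≤ 1) (hη1 : η ≤ 1) {d : Dis n} (h : NormOK n β η d) (u : Fin n → ℝ) :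
    nrm (kmat n β d *ᵥ u) ≤ 3 * nrm u := by
  open scoped Matrix.Norms.L2Operator in
  refine (LL.nrm_mulVec _ u).trans (mul_le_mul_of_nonneg_right ?_ (LL.nrm_nonneg _))
  refine LL.norm_kmat_le (by norm_num) fun v => (h v).trans ?_
  gcongr
  linarith

theorem qform_err {K : Matrix (Fin n) (Fin n) ℝ} {L : ℝ} (hL : 0 ≤ L)
    (hK : ∀ u, nrm (K *ᵥ u) ≤ L * nrm u) (a : ℝ) {e P : Fin n → ℝ} (he : nrm e ≤ 1) :
    |(a • e + P) ⬝ᵥ (K *ᵥ (a • e + P)) - a ^ 2 * (e ⬝ᵥ (K *ᵥ e))|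
      ≤ L * (2 * |a| * nrm P + nrm P ^ 2) := by
  simp only [Matrix.mulVec_add, Matrix.mulVec_smul, add_dotProduct, dotProduct_add, smul_dotProduct,
    dotProduct_smul, smul_eq_mul]
  have h1 : |e ⬝ᵥ (K *ᵥ P)| ≤ L * nrm P := (abs_dot_le _ _).trans ((mul_le_mul he (hK P)
    (LL.nrm_nonneg _) zero_le_one).trans_eq (one_mul _))
  have h2 : |P ⬝ᵥ (K *ᵥ e)| ≤ L * nrm P := by
    refine (abs_dot_le _ _).trans ?_
    nlinarith [LL.nrm_nonneg P, hK e, mul_le_mul_of_nonneg_left he hL, LL.nrm_nonneg (K *ᵥ e)]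
  have h3 : |P ⬝ᵥ (K *ᵥ P)| ≤ L * nrm P ^ 2 := (abs_dot_le _ _).trans (by
    nlinarith [LL.nrm_nonneg P, hK P])
  rw [show a * (a * (e ⬝ᵥ (K *ᵥ e)) + P ⬝ᵥ (K *ᵥ e)) + (a * (e ⬝ᵥ (K *ᵥ P)) + P ⬝ᵥ (K *ᵥ P))
      - a ^ 2 * (e ⬝ᵥ (K *ᵥ e))
    = a * (e ⬝ᵥ (K *ᵥ P)) + a * (P ⬝ᵥ (K *ᵥ e)) + P ⬝ᵥ (K *ᵥ P) by ring]
  refine (abs_add_three _ _ _).trans ?_
  rw [abs_mul, abs_mul]
  linarith [mul_le_mul_of_nonneg_left h1 (abs_nonneg a), mul_le_mul_of_nonneg_left h2 (abs_nonneg a)]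

/-- **The channel against the normal law**, tilted along the own direction. -/
theorem rho_le (hn : 1 ≤ n) (hβ : 0 ≤ β) (hβ1 : β ≤ 1) (hη : η < 1) (hW : 1 / 6 ≤ W)
    (hε : 0 < ε) (hε1 : ε ≤ 1) {d : Dis n} (hd : DOK n β W η ε d) {g e : Fin n → ℝ}
    (hlen : |(√W • g) ⬝ᵥ (√W • g) / n - W| ≤ ε) {a : ℝ} {P : Fin n → ℝ}
    (hdec : (√(n : ℝ))⁻¹ • (√W • g) = a • e + P) (he : nrm e ≤ 1) (ha : |a ^ 2 - W| ≤ 2 * ε)
    (hW2 : W ≤ 2) (hP : nrm P ≤ √ε) :
    rho (aop n β d) W g ≤ exp (n * (30 * √ε)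
      + (-(√n * β * W / 2 * (e ⬝ᵥ (goe n d *ᵥ e))) - (√n * β * W / 2) ^ 2)) := by
  have hA := aop_posDef hη hβ hd.1
  have hK := kmat_nrm_le hβ1 hη.le hd.1
  have hnp : (0 : ℝ) < n := by exact_mod_cast hn
  have hWp : 0 < W := by linarith
  set K := kmat n β d with hKd
  set A := aop n β d with hAd
  set w := (√(n : ℝ))⁻¹ • (√W • g) with hw
  set ξ := e ⬝ᵥ (goe n d *ᵥ e) with hξ
  set sn := √(n : ℝ) with hsn
  have hsp : 0 < sn := sqrt_pos.2 hnp
  have hsq : sn ^ 2 = n := sq_sqrt hnp.le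
  have hG : sn * (e ⬝ᵥ (K *ᵥ e)) = β * ξ := by
    rw [hξ, hKd, kmat_eq, Matrix.smul_mulVec, dotProduct_smul, smul_eq_mul, ← hsn]
    field_simp
  have hww : ∀ M : Matrix (Fin n) (Fin n) ℝ, n * (w ⬝ᵥ (M *ᵥ w)) = W * (g ⬝ᵥ (M *ᵥ g)) := by
    intro M
    simp only [hw, Matrix.mulVec_smul, smul_dotProduct, dotProduct_smul, smul_eq_mul]
    rw [← hsq]
    field_simp
    rw [sq_sqrt hWp.le, mul_comm]
  have h1 : n * (w ⬝ᵥ w) = W * (g ⬝ᵥ g) := by simpa using hww 1
  have hl : |w ⬝ᵥ w - W| ≤ ε := by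
    have : w ⬝ᵥ w = (√W • g) ⬝ᵥ (√W • g) / n := by
      rw [hw, smul_dotProduct, dotProduct_smul, smul_eq_mul, smul_eq_mul, ← hsq]
      field_simp
    rwa [this]
  have hq : g ⬝ᵥ ((W • A) *ᵥ g) = shift β * (n * (w ⬝ᵥ w)) + n * (w ⬝ᵥ (K *ᵥ w)) := by
    rw [h1, hww, Matrix.smul_mulVec, dotProduct_smul, smul_eq_mul, hAd, aop, Matrix.add_mulVec,
      dotProduct_add, Matrix.smul_mulVec, Matrix.one_mulVec, dotProduct_smul, smul_eq_mul]
    ring
  have hdet : 0 < A.det := hA.det_pos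
  rw [rho, hq, Matrix.det_smul, Fintype.card_fin,
    ← exp_log (sqrt_pos.2 (mul_pos (pow_pos hWp n) hdet)), ← exp_add, exp_le_exp,
    log_sqrt (mul_pos (pow_pos hWp n) hdet).le, log_mul (pow_pos hWp n).ne' hdet.ne', log_pow]
  have herr : |w ⬝ᵥ (K *ᵥ w) - a ^ 2 * (e ⬝ᵥ (K *ᵥ e))| ≤ 3 * (2 * |a| * nrm P + nrm P ^ 2) := by
    rw [hdec]; exact qform_err (by norm_num) hK a he
  have hG3 : |e ⬝ᵥ (K *ᵥ e)| ≤ 3 :=
    (abs_dot_le _ _).trans (by nlinarith [hK e, LL.nrm_nonneg e, LL.nrm_nonneg (K *ᵥ e)])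
  have hse : √ε * √ε = ε := mul_self_sqrt hε.le
  have hse1 : ε ≤ √ε := by nlinarith [sqrt_nonneg ε, sqrt_le_one.2 hε1]
  have ha2 : |a| ≤ 2 := abs_le_of_sq_le_sq (by linarith [(abs_le.1 ha).2]) (by norm_num)
  have hP2 : nrm P ^ 2 ≤ √ε :=
    (pow_le_pow_left₀ (LL.nrm_nonneg _) hP 2).trans ((sq_sqrt hε.le).trans_le hse1)
  have hmix : W * (e ⬝ᵥ (K *ᵥ e)) - 21 * √ε ≤ w ⬝ᵥ (K *ᵥ w) := by
    have b1 := (abs_le.1 herr).1
    have b2 := mul_le_mul ha2 hP (LL.nrm_nonneg _) zero_le_two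
    have b3 : |(a ^ 2 - W) * (e ⬝ᵥ (K *ᵥ e))| ≤ 2 * ε * 3 := by
      rw [abs_mul]; exact mul_le_mul ha hG3 (abs_nonneg _) (by linarith)
    have b3' := (abs_le.1 b3).1
    linarith
  have hWinv : W⁻¹ ≤ 6 := inv_le_of_inv_le₀ (by norm_num) (by linarith)
  have hsh : 0 ≤ shift β ∧ shift β ≤ 3 := by rw [shift]; constructor <;> linarith
  have hlen' : (W⁻¹ - shift β) * (w ⬝ᵥ w - W) ≤ 9 * √ε := by
    refine (le_abs_self _).trans ?_
    rw [abs_mul]
    refine (mul_le_mul ?_ hl (abs_nonneg _) (by norm_num)).trans (by linarith : (9 : ℝ) * ε ≤ 9 * √ε)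
    have := inv_nonneg.2 hWp.le
    rw [abs_le]; constructor <;> linarith [hsh.1, hsh.2]
  have hgg : g ⬝ᵥ g = W⁻¹ * (n * (w ⬝ᵥ w)) := by rw [h1, ← mul_assoc, inv_mul_cancel₀ hWp.ne', one_mul]
  have hc : sn * β * W / 2 * ξ = n * (W * (e ⬝ᵥ (K *ᵥ e))) / 2 := by
    rw [← hsq]; linear_combination -(sn * W / 2) * hG
  rw [hgg, hc, show (sn * β * W / 2) ^ 2 = n * (β ^ 2 * W ^ 2 / 4) by rw [← hsq]; ring]
  have hld : log A.det / 2 ≤ n * (-log W - 1 + shift β * W - β ^ 2 * W ^ 2 / 2 + √ε) / 2 := by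
    have := mul_le_mul_of_nonneg_left hse1 hnp.le
    linarith [hd.2]
  have e9 := mul_le_mul_of_nonneg_left hlen' hnp.le
  have e21 := mul_le_mul_of_nonneg_left hmix hnp.le
  have eW : W⁻¹ * (n * W) = n := by field_simp
  have hsn0 : 0 ≤ (n : ℝ) * √ε := by positivity
  linarith

theorem sig_lip (b : Bool) (y y' : ℝ) : sig b y ≤ exp (2 * |y - y'|) * sig b y' := by
  set a := |y - y'|
  have h1 : spin b * y ≤ spin b * y' + a := by
    cases b <;> simp [spin, a] <;> linarith [le_abs_self (y - y'), neg_le_abs (y - y')]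
  have h2 : exp y' + exp (-y') ≤ exp a * (exp y + exp (-y)) := by
    rw [mul_add, ← exp_add, ← exp_add]
    exact add_le_add (exp_le_exp.2 (by linarith [neg_le_abs (y - y')]))
      (exp_le_exp.2 (by linarith [le_abs_self (y - y')]))
  have p1 : 0 < exp y + exp (-y) := by positivity
  have p2 : 0 < exp y' + exp (-y') := by positivity
  rw [sig, sig, mul_div_assoc', div_le_div_iff₀ p1 p2]
  refine (mul_le_mul (exp_le_exp.2 h1) h2 p2.le (exp_pos _).le).trans_eq ?_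
  rw [exp_add, show 2 * a = a + a by ring, exp_add a a]
  ring

theorem qR_le (S : Finset (Fin n)) (h : Fin n → ℝ) (A : Matrix (Fin n) (Fin n) ℝ)
    (x z : Conf n) (y y' : Fin n → ℝ) :
    qR ⟨A, h, S⟩ x y z ≤ exp (2 * ∑ i, |(y + h) i - y' i|)
      * ∏ i, (if decide (i ∉ S) = true then sig (z i) (y' i) else if z i = x i then 1 else 0) := by
  have hsp : ∀ b u, 0 ≤ sig b u := fun b u => div_nonneg (exp_pos _).le (by positivity)
  have h0 : 0 ≤ ∏ i, (if decide (i ∉ S) = true then sig (z i) (y' i) else if z i = x i then 1 else 0) :=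
    prod_nonneg fun i _ => by split_ifs <;> first | exact hsp _ _ | norm_num
  simp only [qR, prodS]
  split
  · next hz =>
    rw [mul_sum, exp_sum, ← prod_mul_distrib, ← prod_mul_prod_compl S]
    have hS : ∀ i ∈ S, 1 ≤ exp (2 * |(y + h) i - y' i|)
        * (if decide (i ∉ S) = true then sig (z i) (y' i) else if z i = x i then 1 else 0) := by
      intro i hi
      have : z i = x i := (mem_filter.1 hz).2 i hi
      simp [hi, this]
    refine le_trans ?_ (le_mul_of_one_le_left (prod_nonneg fun i _ =>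
      mul_nonneg (exp_pos _).le (by split_ifs <;> first | exact hsp _ _ | norm_num))
      (Finset.one_le_prod hS))
    refine prod_le_prod (fun i _ => hsp _ _) fun i hi => ?_
    simpa [mem_compl.1 hi] using sig_lip (z i) ((y + h) i) (y' i)
  · exact mul_nonneg (exp_pos _).le h0

/-- The weight removed by the exact law. -/
noncomputable def tiltOf (hτ : 0 < τ) (β W : ℝ) (w : Fin (ncol r) → Fin n → ℝ) (d : Dis n) : ℝ :=
  ∑ l, (-((if l.1 % 2 = 0 ∧ l.1 ≠ 0 then √n * β * W / 2 else 0) * (gsSys hτ w).xi d l)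
    - (if l.1 % 2 = 0 ∧ l.1 ≠ 0 then √n * β * W / 2 else 0) ^ 2
      * ((gsSys hτ w).e l ⬝ᵥ (gsSys hτ w).e l))

/-- The data of a site from states, noises and innovations. -/
def siteOf (x : Fin (r + 1) → Conf n) (e : Fin (r + 1) → Fin n → ℝ) (y : Fin (ncol r) → Fin n → ℝ)
    (i : Fin n) : Site r := (fun b => x b i, fun b => e b i, fun l => y l i)

theorem colsOf_xcol (x : Fin (r + 1) → Conf n) (e : Fin (r + 1) → Fin n → ℝ) (b : Fin (r + 1)) :
    colsOf x e (xcol b) = vec (x b) := by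
  funext i
  have h1 : ¬ (2 * b.1 + 1) % 2 = 0 := by omega
  have h2 : (2 * b.1 + 1) / 2 = b.1 := by omega
  simp [colsOf, colOf, xcol, vec, h1, h2]

theorem colsOf_ecol (x : Fin (r + 1) → Conf n) (e : Fin (r + 1) → Fin n → ℝ) (b : Fin (r + 1)) :
    colsOf x e (ecol b) = e b := by
  funext i
  have h1 : (2 * b.1) % 2 = 0 := by omega
  simp only [colsOf, colOf, ecol, h1, if_true]
  congr 1
  exact Fin.ext (by dsimp only; omega)

theorem tiltOf_eq (hτ : 0 < τ) (β W : ℝ) (w : Fin (ncol r) → Fin n → ℝ) (d : Dis n) :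
    tiltOf hτ β W w d = ∑ b : Fin r, (-(√n * β * W / 2 * (gsSys hτ w).xi d (ecol b.succ))
      - (√n * β * W / 2) ^ 2
        * ((gsSys hτ w).e (ecol b.succ) ⬝ᵥ (gsSys hτ w).e (ecol b.succ))) := by
  classical
  rw [tiltOf]
  have hinj : Set.InjOn (fun b : Fin r => ecol b.succ) (univ : Finset (Fin r)) :=
    fun a _ b _ h => by
      have := congrArg Fin.val h
      simp only [ecol, Fin.val_succ] at this
      exact Fin.ext (by omega)
  rw [← sum_subset (subset_univ (univ.image fun b : Fin r => ecol b.succ)) fun l _ hl => ?_,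
    sum_image hinj]
  · refine sum_congr rfl fun b _ => ?_
    have h1 : ((ecol b.succ : Fin (ncol r)).1) % 2 = 0 := by simp [ecol]
    have h2 : ((ecol b.succ : Fin (ncol r)).1) ≠ 0 := by simp [ecol]
    simp [h1, h2]
  · have h1 : ¬ (l.1 % 2 = 0 ∧ l.1 ≠ 0) := fun h => hl (mem_image.2
      ⟨⟨l.1 / 2 - 1, by have := l.2; unfold ncol at this; omega⟩, mem_univ _,
        Fin.ext (by simp [ecol]; omega)⟩)
    simp [h1]

/-- The error of the pointwise bound. -/
noncomputable def ptErr (r : ℕ) (τ δ C ε : ℝ) : ℝ :=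
  30 * r * √ε + 2 * r * (2 * (errC (ncol r) 3 C * δ + 3 * τ + 3 * ε))

theorem abs_sum_le_nrm (u : Fin n → ℝ) : ∑ i, |u i| ≤ √n * nrm u := by
  have := sum_mul_le_sqrt_mul_sqrt univ (fun i => |u i|) fun _ => (1 : ℝ)
  simp only [mul_one, sq_abs, one_pow, sum_const, card_univ, Fintype.card_fin, nsmul_eq_mul] at this
  rw [nrm, mul_comm]
  exact this

theorem nrm_le_of_dot {u : Fin n → ℝ} {B : ℝ} (hB : 0 ≤ B) (h : u ⬝ᵥ u ≤ B ^ 2) : nrm u ≤ B := by
  rw [nrm_dot]; exact (sqrt_le_left hB).2 h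

theorem cols_le (hn : 1 ≤ n) {x : Fin (r + 1) → Conf n}
    {e : Fin (r + 1) → Fin n → ℝ} (hP : ∀ b, e b ⬝ᵥ e b / n ≤ 3) (k : Fin (ncol r)) :
    nrm (colsOf x e k) ≤ 2 * √n := by
  have hnp : (0 : ℝ) < n := by exact_mod_cast hn
  refine nrm_le_of_dot (by positivity) ?_
  rw [mul_pow, sq_sqrt hnp.le]
  have hk := k.2; unfold ncol at hk
  rcases Nat.mod_two_eq_zero_or_one k.1 with h | h
  · rw [show k = ecol ⟨k.1 / 2, by omega⟩ from Fin.ext (by simp [ecol]; omega), colsOf_ecol]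
    have := hP ⟨k.1 / 2, by omega⟩
    rw [div_le_iff₀ hnp] at this
    linarith
  · rw [show k = xcol ⟨k.1 / 2, by omega⟩ from Fin.ext (by simp [xcol]; omega), colsOf_xcol]
    have : vec (x ⟨k.1 / 2, by omega⟩) ⬝ᵥ vec (x ⟨k.1 / 2, by omega⟩) = n := by
      simp [vec, dotProduct, spin_sq]
    rw [this]; linarith

/-- **The pointwise bound.** -/
theorem point_bound (hτ : 0 < τ) (hτ1 : τ ≤ 1) (hδ : 0 < δ) (hδ1 : δ ≤ 1) (hn : 1 ≤ n) (hβ : 0 ≤ β)
    (hβ1 : β ≤ 1) (hη : η < 1) (hW : 1 / 6 ≤ W) (hW2 : W ≤ 2) (hε : 0 < ε) (hετ : τ ^ 2 + 2 * ε ≤ W)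
    (hε1 : ε ≤ 1) (hC : 5 ≤ C) (hCR : ((1 + ncol r * 2) / τ) ^ ncol r ≤ C)
    (S : Finset (Fin n)) {d : Dis n} (hd : DOK n β W η ε d) {x : Fin (r + 1) → Conf n}
    {g : Fin (r + 1) × Fin n → ℝ} (hP : PathOK τ W ε x (esOf W g))
    {q : Fin (ncol r) × Fin n → ℝ} (hq : auxErr hτ (wcols x (esOf W g)) q ≤ ε * √n) :
    pdens β d u W S x g ≤ exp (n * ptErr r τ δ C ε + tiltOf hτ β W (wcols x (esOf W g)) d)
      * ∏ i, flipW (shift β) u (rdCoef τ δ C (kmat n β d) (wcols x (esOf W g))) (decide (i ∉ S))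
          (siteOf x (esOf W g) (innovOf hτ β (wcols x (esOf W g)) d q) i) := by
  set A := aop n β d with hAd
  set K := kmat n β d
  set e := esOf W g with he
  set w := wcols x e with hw
  set θ := rdCoef τ δ C K w
  set y := innovOf hτ β w d q
  have hnp : (0 : ℝ) < n := by exact_mod_cast hn
  set sn := √(n : ℝ) with hsn
  have hsp : 0 < sn := sqrt_pos.2 hnp
  have hsq : sn * sn = n := mul_self_sqrt hnp.le
  have hK := kmat_nrm_le hβ1 hη.le hd.1
  -- channels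
  have hrho : ∀ b : Fin r, rho A W (fun i => g (b.succ, i)) ≤ exp (n * (30 * √ε)
      + (-(sn * β * W / 2 * (gsSys hτ w).xi d (ecol b.succ)) - (sn * β * W / 2) ^ 2
        * ((gsSys hτ w).e (ecol b.succ) ⬝ᵥ (gsSys hτ w).e (ecol b.succ)))) := by
    intro b
    obtain ⟨hl, hp⟩ := hP.2 b
    have heb : e b.succ = √W • fun i => g (b.succ, i) := by simp [he, esOf]
    set k := ecol b.succ with hk
    have hwk : w k = sn⁻¹ • e b.succ := by rw [hw, wcols, colsOf_ecol]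
    have hww : w k ⬝ᵥ w k = e b.succ ⬝ᵥ e b.succ / n := by
      rw [hwk, smul_dotProduct, dotProduct_smul, smul_eq_mul, smul_eq_mul, ← mul_assoc, ← mul_inv, hsq,
        inv_mul_eq_div]
    have hres := gsRes_sq (w := w) hτ k
    rw [hww] at hres
    obtain ⟨hl1, hl2⟩ := abs_le.1 hl
    have hsum0 : 0 ≤ ∑ c ∈ Iio k, (gs τ w c ⬝ᵥ w k) ^ 2 := sum_nonneg fun c _ => sq_nonneg _
    have hbig : τ ^ 2 ≤ gsRes τ w k ⬝ᵥ gsRes τ w k := by rw [hres]; linarith
    obtain ⟨ha, hr⟩ := gs_self_dot hτ k hbig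
    have hunit : gs τ w k ⬝ᵥ gs τ w k = 1 := (gs_unit hτ k).resolve_right fun h => by
      rw [h, zero_dotProduct] at ha
      exact (sqrt_pos.2 ((pow_pos hτ 2).trans_le hbig)).ne ha
    have hdec : sn⁻¹ • (√W • fun i => g (b.succ, i))
        = (gs τ w k ⬝ᵥ w k) • gs τ w k + ∑ c ∈ Iio k, (gs τ w c ⬝ᵥ w k) • gs τ w c := by
      rw [← hr, gsRes, sub_add_cancel, hwk, heb]
    have hPn : nrm (∑ c ∈ Iio k, (gs τ w c ⬝ᵥ w k) • gs τ w c) ≤ √ε := by
      rw [nrm_dot]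
      refine sqrt_le_sqrt (le_trans (le_of_eq ?_) hp)
      rw [sum_dotProduct]
      refine sum_congr rfl fun c hc => ?_
      rw [smul_dotProduct, dotProduct_sum, Finset.sum_eq_single c]
      · rw [dotProduct_smul, smul_eq_mul, smul_eq_mul]
        rcases gs_unit (w := w) hτ c with h | h <;> simp [h, pow_two, hk, w, e]
      · intro c' _ hne; rw [dotProduct_smul, gs_orth hτ c c' (Ne.symm hne), smul_zero]
      · exact fun h => absurd hc h
    have h := rho_le hn hβ hβ1 hη hW hε hε1 hd (e := gs τ w k) (g := fun i => g (b.succ, i))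
      (by rw [← heb]; exact hl) hdec
      (by rw [nrm_dot, hunit]; simp) (by
        rw [ha, sq_sqrt (dot_self_nonneg' _), hres, abs_le]; constructor <;> linarith) hW2 hPn
    refine h.trans_eq ?_
    show _ = exp (_ + (-(_ * (gs τ w k ⬝ᵥ (goe n d *ᵥ gs τ w k))) - _ * (gs τ w k ⬝ᵥ gs τ w k)))
    rw [hunit, mul_one]
  -- reconstruction
  have hcols : ∀ k, nrm (colsOf x e k) ≤ 2 * sn := cols_le hn fun b => by
    cases b using Fin.cases with
    | zero => linarith [(abs_le.1 hP.1).2]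
    | succ b => linarith [(abs_le.1 (hP.2 b).1).2]
  set E := sn * (errC (ncol r) 3 C * δ + 3 * τ + 3 * ε) with hE
  have hz : ∀ k, nrm (zVec θ (colsOf x e) y k - K *ᵥ colsOf x e k) ≤ E := fun k => by
    have := zVec_err hτ hτ1 hδ hδ1 hn hβ (by norm_num) hK hcols (by linarith) hCR q k
    refine this.trans ?_
    have h3 : 3 * β * auxErr hτ w q ≤ 3 * (ε * sn) := by
      refine mul_le_mul (by linarith) hq ?_ (by norm_num)
      exact sum_nonneg fun l _ => LL.nrm_nonneg _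
    rw [hE, ← hsn]
    change sn * _ + 3 * β * auxErr hτ w q ≤ _
    linarith
  set aV : Fin (ncol r) → Fin n → ℝ := fun k => shift β • colsOf x e k + zVec θ (colsOf x e) y k
  have haV : ∀ k, nrm (A *ᵥ colsOf x e k - aV k) ≤ E := fun k => by
    rw [show A *ᵥ colsOf x e k - aV k = -(zVec θ (colsOf x e) y k - K *ᵥ colsOf x e k) by
      rw [hAd, aop, Matrix.add_mulVec, Matrix.smul_mulVec, Matrix.one_mulVec]
      simp only [aV, K]; abel, LL.nrm_neg]
    exact hz k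
  have haS : ∀ k i, aSite (shift β) θ (siteOf x e y i) k = aV k i := fun k i => by
    simp only [aSite, siteOf, zSite_eq θ x e y k i, aV, Pi.add_apply, Pi.smul_apply, smul_eq_mul]
    rfl
  -- steps
  set h := sideField u (x 0) fun i => g (0, i)
  have hstep : ∀ t : Fin r, qR ⟨(1 - 0 : ℝ) • A, h, S⟩ (x t.castSucc)
      (yOf A 0 (x t.castSucc) (e t.succ)) (x t.succ)
      ≤ exp (n * (2 * (2 * (errC (ncol r) 3 C * δ + 3 * τ + 3 * ε))))
        * ∏ i, (if decide (i ∉ S) = true then sig (x t.succ i) (ySite (shift β) u θ (siteOf x e y i) t)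
          else if x t.succ i = x t.castSucc i then 1 else 0) := by
    intro t
    refine (qR_le S h _ _ _ _ fun i => ySite (shift β) u θ (siteOf x e y i) t).trans ?_
    refine mul_le_mul_of_nonneg_right (exp_le_exp.2 ?_) (prod_nonneg fun i _ => by
      split_ifs <;> first | exact div_nonneg (exp_pos _).le (by positivity) | norm_num)
    have hD : (fun i => (yOf A 0 (x t.castSucc) (e t.succ) + h) i
        - ySite (shift β) u θ (siteOf x e y i) t)
        = (A *ᵥ colsOf x e (xcol t.castSucc) - aV (xcol t.castSucc))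
          + (A *ᵥ colsOf x e (ecol t.succ) - aV (ecol t.succ)) := by
      funext i
      simp only [ySite, haS, colsOf_xcol, colsOf_ecol, yOf, sub_zero, sqrt_one, one_smul,
        Pi.add_apply, Pi.sub_apply]
      have h0 : hSite u (siteOf x e y i) = h i := by
        simp [hSite, siteOf, h, sideField, vec, he, esOf]
      rw [h0]
      ring
    have := (abs_sum_le_nrm _).trans (mul_le_mul_of_nonneg_left ((LL.nrm_add _ _).trans
      (add_le_add (haV (xcol t.castSucc)) (haV (ecol t.succ)))) hsp.le)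
    rw [← hD] at this
    refine (mul_le_mul_of_nonneg_left this zero_le_two).trans_eq ?_
    rw [hE, ← hsq]
    ring_nf
    rw [sqrt_sq hsp.le]
    ring
  -- assembly
  have hρ : (∏ b : Fin r, rho A W fun i => g (b.succ, i))
      ≤ exp (r * (n * (30 * √ε)) + tiltOf hτ β W w d) := by
    refine (prod_le_prod (fun b _ => rho_nonneg _ _ _) fun b _ => hrho b).trans_eq ?_
    rw [← exp_sum, sum_add_distrib, tiltOf_eq, sum_const, card_univ, Fintype.card_fin, nsmul_eq_mul]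
  have hq' : ∀ t : Fin r, 0 ≤ qR ⟨(1 - 0 : ℝ) • A, h, S⟩ (x t.castSucc)
      (yOf A 0 (x t.castSucc) (e t.succ)) (x t.succ) := fun t => prodS_nonneg _ _ _ _
  have hde : pdens β d u W S x g = (1 / 2) ^ n * (∏ b : Fin r, rho A W fun i => g (b.succ, i))
      * ∏ t : Fin r, qR ⟨(1 - 0 : ℝ) • A, h, S⟩ (x t.castSucc)
          (yOf A 0 (x t.castSucc) (e t.succ)) (x t.succ) := by
    rw [pdens, pathW, prod_mul_distrib]
    simp only [omOf, prevAt, Fin.cons_self_tail, Fin.tail, he, esOf, Fin.cons_succ, h, A]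
    ring
  rw [hde]
  refine (mul_le_mul (mul_le_mul_of_nonneg_left hρ (by positivity))
    (prod_le_prod (fun t _ => hq' t) fun t _ => hstep t) (prod_nonneg fun t _ => hq' t)
    (by positivity)).trans_eq ?_
  rw [prod_mul_distrib, prod_const, card_univ, Fintype.card_fin, ← exp_nat_mul]
  have hfl : ∏ i, flipW (shift β) u θ (decide (i ∉ S)) (siteOf x e y i) = (1 / 2) ^ n
      * ∏ t : Fin r, ∏ i, (if decide (i ∉ S) = true then
          sig (x t.succ i) (ySite (shift β) u θ (siteOf x e y i) t)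
        else if x t.succ i = x t.castSucc i then 1 else 0) := by
    rw [prod_comm, ← Fin.prod_const n (1 / 2 : ℝ), ← prod_mul_distrib]
    exact prod_congr rfl fun i _ => rfl
  rw [hfl, show (n : ℝ) * ptErr r τ δ C ε + tiltOf hτ β W w d
    = (r * (n * (30 * √ε)) + tiltOf hτ β W w d)
      + r * (n * (2 * (2 * (errC (ncol r) 3 C * δ + 3 * τ + 3 * ε)))) by rw [ptErr]; ring]
  ring_nf
  simp only [exp_add]
  ring

end Vale.Agent.P150.Fast.Dom
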