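import Vale.Agent.P150.Fast.DomStmt
import Vale.Agent.P150.Fast.LLBase
import Vale.Agent.P150.Fast.Dom.GS

/-!
The readout of a path: the rounded coefficients of the columns and their innovations, with the
reconstruction of the coupling fields. Used for P150 (module M3).
-/

open MeasureTheory Real Finset
open scoped Matrix

namespace Vale.Agent.P150.Fast.Dom

open LL (nrm)

variable {n r M : ℕ}

theorem nrm_smul (a : ℝ) (u : Fin n → ℝ) : nrm (a • u) = |a| * nrm u := by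
  simp only [nrm, Pi.smul_apply, smul_eq_mul, mul_pow, ← mul_sum]
  rw [sqrt_mul (sq_nonneg a), sqrt_sq_eq_abs]

theorem nrm_sum {α : Type*} (s : Finset α) (f : α → Fin n → ℝ) :
    nrm (∑ a ∈ s, f a) ≤ ∑ a ∈ s, nrm (f a) := by
  classical
  induction s using Finset.induction_on with
  | empty => simp [nrm]
  | insert a s ha ih =>
    rw [sum_insert ha, sum_insert ha]
    exact (LL.nrm_add _ _).trans (add_le_add le_rfl ih)

theorem nrm_dot (u : Fin n → ℝ) : nrm u = √(u ⬝ᵥ u) := by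
  simp [nrm, dotProduct, pow_two]

theorem abs_dot_le (u w : Fin n → ℝ) : |u ⬝ᵥ w| ≤ nrm u * nrm w := by
  rw [abs_le]
  refine ⟨?_, LL.dot_le u w⟩
  have := LL.dot_le u (-w)
  rw [LL.nrm_neg, dotProduct_neg] at this
  linarith

/-- The grid point next below a number clamped to `[-C, C]`. -/
noncomputable def rnd (δ C t : ℝ) : ℝ := δ * ⌊max (-C) (min C t) / δ⌋

@[fun_prop]
theorem measurable_rnd (δ C : ℝ) : Measurable (rnd δ C) := by unfold rnd; fun_prop

theorem rnd_zero {δ C : ℝ} (hC : 0 ≤ C) : rnd δ C 0 = 0 := by simp [rnd, hC]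

theorem rnd_err {δ C t : ℝ} (hδ : 0 < δ) (ht : |t| ≤ C) : |rnd δ C t - t| ≤ δ := by
  obtain ⟨h1, h2⟩ := abs_le.1 ht
  rw [rnd, min_eq_right h2, max_eq_right h1]
  have a := Int.floor_le (t / δ)
  have b := Int.lt_floor_add_one (t / δ)
  rw [abs_le]
  constructor <;> nlinarith [mul_div_cancel₀ t hδ.ne']

theorem rnd_bound {δ C t : ℝ} (hδ : 0 < δ) (hC : 0 ≤ C) : |rnd δ C t| ≤ C + δ := by
  have h1 : -C ≤ max (-C) (min C t) := le_max_left _ _
  have h2 : max (-C) (min C t) ≤ C := max_le (by linarith) (min_le_left _ _)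
  set u := max (-C) (min C t) with hu
  have a := Int.floor_le (u / δ)
  have b := Int.lt_floor_add_one (u / δ)
  rw [rnd, ← hu, abs_le]
  constructor <;> nlinarith [mul_div_cancel₀ u hδ.ne']

/-- The finite grid. -/
noncomputable def grid (δ C : ℝ) : Finset ℝ :=
  (Icc ⌊-C / δ⌋ ⌊C / δ⌋).image fun k : ℤ => δ * k

theorem rnd_mem {δ C : ℝ} (hδ : 0 < δ) (hC : 0 ≤ C) (t : ℝ) : rnd δ C t ∈ grid δ C := by
  refine mem_image.2 ⟨⌊max (-C) (min C t) / δ⌋, mem_Icc.2 ⟨?_, ?_⟩, rfl⟩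
  · exact Int.floor_le_floor (div_le_div_of_nonneg_right (le_max_left _ _) hδ.le)
  · exact Int.floor_le_floor (div_le_div_of_nonneg_right
      (max_le (by linarith) (min_le_left _ _)) hδ.le)

/-- Triangular tables with values in a grid. -/
noncomputable def triNet (δ C : ℝ) (M : ℕ) : Finset (Coef M) := by
  classical
  exact ((Fintype.piFinset fun _ : Fin 3 × Fin M × Fin M => insert 0 (grid δ C)).filter
    fun u => ∀ a l j, l < j → u (a, l, j) = 0).image
    fun u => ⟨fun l j => u (0, l, j), fun l j => u (1, l, j), fun l j => u (2, l, j)⟩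

/-- The columns of a path from its states and noises. -/
noncomputable def colsOf (x : Fin (r + 1) → Conf n) (e : Fin (r + 1) → Fin n → ℝ) (k : Fin (ncol r)) :
    Fin n → ℝ := fun i => colOf (fun b => spin (x b i)) (fun b => e b i) k

theorem colVec_eq (A : Matrix (Fin n) (Fin n) ℝ) (P : Traj n r) :
    colVec A P = colsOf (stateAt P) (noiseAt A P) := rfl

/-- The normalised columns. -/
noncomputable def wcols (x : Fin (r + 1) → Conf n) (e : Fin (r + 1) → Fin n → ℝ) (k : Fin (ncol r)) :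
    Fin n → ℝ := (√(n : ℝ))⁻¹ • colsOf x e k

variable (τ δ C β : ℝ)

/-- The coefficients of a family of normalised vectors under a matrix. -/
noncomputable def exCoef (K : Matrix (Fin n) (Fin n) ℝ) (w : Fin M → Fin n → ℝ) : Coef M :=
  ⟨gsR τ w, fun l c => if c ≤ l then gs τ w c ⬝ᵥ (K *ᵥ gs τ w l) else 0,
    fun k l => if l ≤ k then gs τ w l ⬝ᵥ w k else 0⟩

/-- The rounded coefficients. -/
noncomputable def rdCoef (K : Matrix (Fin n) (Fin n) ℝ) (w : Fin M → Fin n → ℝ) : Coef M :=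
  ⟨fun l j => rnd δ C ((exCoef τ K w).R l j), fun l j => rnd δ C ((exCoef τ K w).G l j),
    fun l j => rnd δ C ((exCoef τ K w).al l j)⟩

theorem exCoef_tri (K : Matrix (Fin n) (Fin n) ℝ) (w : Fin M → Fin n → ℝ) {l j : Fin M} (h : l < j) :
    (exCoef τ K w).R l j = 0 ∧ (exCoef τ K w).G l j = 0 ∧ (exCoef τ K w).al l j = 0 :=
  ⟨gsR_tri l j h, if_neg h.not_ge, if_neg h.not_ge⟩

variable {τ δ C β}

theorem rdCoef_mem (hδ : 0 < δ) (hC : 0 ≤ C) (K : Matrix (Fin n) (Fin n) ℝ) (w : Fin M → Fin n → ℝ) :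
    rdCoef τ δ C K w ∈ triNet δ C M := by
  classical
  rw [triNet, mem_image]
  let u : Fin 3 × Fin M × Fin M → ℝ := fun p => ![(rdCoef τ δ C K w).R p.2.1 p.2.2,
    (rdCoef τ δ C K w).G p.2.1 p.2.2, (rdCoef τ δ C K w).al p.2.1 p.2.2] p.1
  refine ⟨u, mem_filter.2 ⟨Fintype.mem_piFinset.2 fun p => ?_, fun a l j h => ?_⟩, by simp [u]⟩
  · obtain ⟨a, l, j⟩ := p
    fin_cases a <;> exact mem_insert_of_mem (rnd_mem hδ hC _)
  · obtain ⟨h1, h2, h3⟩ := exCoef_tri τ K w h
    fin_cases a <;> simp [u, rdCoef, h1, h2, h3, rnd_zero hC]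

theorem triNet_ok (hδ : 0 < δ) (hC : 0 ≤ C) {θ : Coef (ncol r)} (hθ : θ ∈ triNet δ C (ncol r)) :
    NetOK (C + δ) θ := by
  classical
  rw [triNet, mem_image] at hθ
  obtain ⟨u, hu, rfl⟩ := hθ
  rw [mem_filter] at hu
  have hb : ∀ p, |u p| ≤ C + δ := fun p => by
    rcases mem_insert.1 (Fintype.mem_piFinset.1 hu.1 p) with h | h
    · rw [h, abs_zero]; linarith
    · obtain ⟨k, hk, hk'⟩ := mem_image.1 h
      rw [← hk', abs_le]
      obtain ⟨ha, hb⟩ := mem_Icc.1 hk
      have ha' : ((⌊-C / δ⌋ : ℤ) : ℝ) ≤ k := by exact_mod_cast ha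
      have hb' : (k : ℝ) ≤ ((⌊C / δ⌋ : ℤ) : ℝ) := by exact_mod_cast hb
      have := Int.lt_floor_add_one (-C / δ)
      have := Int.floor_le (C / δ)
      constructor <;> nlinarith [mul_div_cancel₀ C hδ.ne', mul_div_cancel₀ (-C) hδ.ne']
  exact ⟨fun l j => ⟨hb _, hb _, hb _⟩, fun l j h => ⟨hu.2 _ l j h, hu.2 _ l j h, hu.2 _ l j h⟩⟩

/-- The innovations of a family of vectors. -/
noncomputable def innovOf (hτ : 0 < τ) (β : ℝ) (w : Fin M → Fin n → ℝ) (d : Dis n)
    (q : Fin M × Fin n → ℝ) (l : Fin M) : Fin n → ℝ := β • (gsSys hτ w).innov d q l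

/-- The auxiliary noise that enters the innovations of the nonzero directions. -/
noncomputable def auxErr (hτ : 0 < τ) (w : Fin M → Fin n → ℝ) (q : Fin M × Fin n → ℝ) : ℝ :=
  ∑ l, nrm ((gsSys hτ w).proj l fun i => q (l, i))

/-- The readout. -/
noncomputable def mkRead (hτ : 0 < τ) (δ C β : ℝ) (n r : ℕ) : Readout n r where
  cell d P := rdCoef τ δ C (kmat n β d) (wcols (stateAt P) (noiseAt (aop n β d) P))
  innov d P q i l := innovOf hτ β (wcols (stateAt P) (noiseAt (aop n β d) P)) d q l i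

/-- The image of a column rebuilt from coefficients and innovations. -/
noncomputable def zVec (θ : Coef M) (v : Fin M → Fin n → ℝ) (y : Fin M → Fin n → ℝ) (k : Fin M) :
    Fin n → ℝ := ∑ l, θ.al k l • (y l + ∑ c, θ.G l c • ∑ j, θ.R c j • v j)

theorem zSite_eq (θ : Coef (ncol r)) (x : Fin (r + 1) → Conf n) (e : Fin (r + 1) → Fin n → ℝ)
    (y : Fin (ncol r) → Fin n → ℝ) (k : Fin (ncol r)) (i : Fin n) :
    zSite θ (fun b => x b i, fun b => e b i, fun l => y l i) k = zVec θ (colsOf x e) y k i := by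
  simp only [zSite, zVec, colsOf, Finset.sum_apply, Pi.smul_apply, Pi.add_apply, smul_eq_mul]

/-- Constants of the approximation. -/
noncomputable def errC (M : ℕ) (L C : ℝ) : ℝ := (M + 1) ^ 3 * (C + 2) ^ 2 * (L + 3) * 16

/-- **Reconstruction.** -/
theorem zVec_err (hτ : 0 < τ) (hτ1 : τ ≤ 1) (hδ : 0 < δ) (hδ1 : δ ≤ 1) (hn : 1 ≤ n) (hβ : 0 ≤ β)
    {L : ℝ} {d : Dis n} (hL : 0 ≤ L) (hK : ∀ u, nrm (kmat n β d *ᵥ u) ≤ L * nrm u)
    {v : Fin M → Fin n → ℝ} (hv : ∀ k, nrm (v k) ≤ 2 * √n) (hC : L + 2 ≤ C)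
    (hCR : ((1 + M * 2) / τ) ^ M ≤ C) (q : Fin M × Fin n → ℝ) (k : Fin M) :
    let w := fun k => (√(n : ℝ))⁻¹ • v k
    nrm (zVec (rdCoef τ δ C (kmat n β d) w) v (innovOf hτ β w d q) k - kmat n β d *ᵥ v k)
      ≤ √n * (errC M L C * δ + L * τ) + 3 * β * auxErr hτ w q := by
  intro w
  set K := kmat n β d with hKd
  set θ := exCoef τ K w
  set θ' := rdCoef τ δ C K w
  set E := gsSys hτ w
  set e := gs τ w
  have hnp : (0 : ℝ) < n := by exact_mod_cast hn
  set sn := √(n : ℝ) with hsn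
  have hsp : 0 < sn := sqrt_pos.2 hnp
  have hC0 : 0 ≤ C := by linarith
  have hw : ∀ k, w k ⬝ᵥ w k ≤ 2 ^ 2 := fun k => by
    have h1 : nrm (w k) ≤ 2 := by
      rw [nrm_smul, abs_inv, abs_of_pos hsp, inv_mul_le_iff₀ hsp]; linarith [hv k]
    rw [nrm_dot] at h1
    exact (sqrt_le_left (by norm_num)).1 h1
  have hen : ∀ l, nrm (e l) ≤ 1 := fun l => by
    rcases gs_unit (w := w) hτ l with h | h <;> simp [e, nrm_dot, h]
  have hR : ∀ l j, |θ.R l j| ≤ C := fun l j => by
    refine (gsR_bound hτ hτ1 zero_le_two hw l j).trans (le_trans ?_ hCR)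
    exact pow_le_pow_right₀ (by rw [le_div_iff₀ hτ]; linarith [M.cast_nonneg (α := ℝ)]) l.2
  have hG : ∀ l c, |θ.G l c| ≤ L := fun l c => by
    simp only [θ, exCoef]
    split
    · refine (abs_dot_le _ _).trans ?_
      have := mul_le_mul (hen c) ((hK _).trans (mul_le_mul_of_nonneg_left (hen l) hL))
        (LL.nrm_nonneg _) zero_le_one
      simpa [e] using this
    · simpa using hL
  have hal : ∀ k l, |θ.al k l| ≤ 2 := fun k l => by
    simp only [θ, exCoef]
    split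
    · exact abs_le_of_sq_le_sq ((gs_dot_le hτ l _).trans (hw k)) (by norm_num)
    · simp
  have dR : ∀ l j, |θ'.R l j - θ.R l j| ≤ δ := fun l j => rnd_err hδ (hR l j)
  have dG : ∀ l c, |θ'.G l c - θ.G l c| ≤ δ := fun l c => rnd_err hδ ((hG l c).trans (by linarith))
  have dA : ∀ k l, |θ'.al k l - θ.al k l| ≤ δ := fun k l => rnd_err hδ ((hal k l).trans (by linarith))
  set u : Fin M → Fin n → ℝ := fun c => ∑ j, θ.R c j • v j with hu
  set u' : Fin M → Fin n → ℝ := fun c => ∑ j, θ'.R c j • v j with hu'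
  have hue : ∀ c, u c = sn • e c := fun c => by
    rw [show e c = ∑ j, gsR τ w c j • w j from gs_comb c, hu, smul_sum]
    refine sum_congr rfl fun j _ => ?_
    show gsR τ w c j • v j = sn • gsR τ w c j • ((√(n : ℝ))⁻¹ • v j)
    rw [smul_smul, smul_smul, ← hsn, mul_comm sn, mul_assoc, mul_inv_cancel₀ hsp.ne', mul_one]
  have hun : ∀ c, nrm (u c) ≤ sn := fun c => by
    rw [hue, nrm_smul, abs_of_pos hsp]; nlinarith [hen c]
  have hdu : ∀ c, nrm (u' c - u c) ≤ M * δ * (2 * sn) := fun c => by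
    rw [hu, hu', ← sum_sub_distrib]
    refine (nrm_sum _ _).trans ((sum_le_sum fun j _ => ?_).trans_eq (b := ∑ _j : Fin M, δ * (2 * sn))
      (by simp; ring))
    rw [← sub_smul, nrm_smul]
    exact mul_le_mul (dR c j) (hv j) (LL.nrm_nonneg _) hδ.le
  have hu'n : ∀ c, nrm (u' c) ≤ (1 + 2 * M) * sn := fun c => by
    have := LL.nrm_add (u' c - u c) (u c)
    rw [sub_add_cancel] at this
    nlinarith [hun c, hdu c, mul_le_mul_of_nonneg_left hδ1 (M.cast_nonneg (α := ℝ))]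
  -- zero directions
  have hz : ∀ l, e l = 0 → θ.al k l = 0 ∧ θ'.al k l = 0 := fun l h => by
    have h0 : θ.al k l = 0 := by simp [θ, exCoef, e] at *; simp [h]
    exact ⟨h0, show rnd δ C (θ.al k l) = 0 by rw [h0, rnd_zero hC0]⟩
  -- the exact image of a direction
  have himg : ∀ l, e l ≠ 0 → innovOf hτ β w d q l + ∑ c, θ.G l c • u c
      = sn • (K *ᵥ e l) + β • E.proj l (fun i => q (l, i)) := fun l h => by
    have h1 : E.e l ⬝ᵥ E.e l = 1 := (gs_unit hτ l).resolve_right h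
    have hg : ∀ a, β • (goe n d *ᵥ a) = sn • (K *ᵥ a) := fun a => by
      rw [hKd, kmat_eq, Matrix.smul_mulVec, smul_smul, ← hsn, mul_div_cancel₀ _ hsp.ne']
    have hs : ∑ c, θ.G l c • u c = β • E.proj l (goe n d *ᵥ e l) := by
      funext i
      simp only [Finset.sum_apply, Pi.smul_apply, smul_eq_mul, hue, OrthSys.proj, mul_sum]
      rw [← sum_filter_add_sum_filter_not univ (fun c => c ≤ l),
        sum_eq_zero (s := univ.filter fun c => ¬ c ≤ l) fun c hc => by
          simp [θ, exCoef, (mem_filter.1 hc).2], add_zero]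
      refine sum_congr (by ext c; simp) fun c hc => ?_
      have hcl : c ≤ l := mem_Iic.1 hc
      have : (E.e c ⬝ᵥ (K *ᵥ e l)) * sn = β * (E.e c ⬝ᵥ (goe n d *ᵥ e l)) := by
        have h2 := congrArg (fun a => E.e c ⬝ᵥ a) (hg (e l))
        simp only [dotProduct_smul, smul_eq_mul] at h2
        linarith
      simp only [θ, exCoef, hcl, if_true]
      show (E.e c ⬝ᵥ (K *ᵥ e l)) * (sn * E.e c i) = _
      linear_combination (E.e c i) * this
    rw [innovOf, OrthSys.innov, h1, sub_self, zero_smul, add_zero, hs, smul_add, add_right_comm,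
      ← smul_add β]
    show β • (E.comp l (goe n d *ᵥ e l) + E.proj l (goe n d *ᵥ e l)) + _ = _
    rw [OrthSys.comp, sub_add_cancel, hg]
  -- the exact column
  have hcol : K *ᵥ v k = ∑ l, θ.al k l • (sn • (K *ᵥ e l)) + sn • (K *ᵥ gsTail τ w k) := by
    have hd' : v k = ∑ l, θ.al k l • (sn • e l) + sn • gsTail τ w k := by
      have h1 : ∑ l, θ.al k l • (sn • e l) = sn • ∑ c ∈ Iic k, (gs τ w c ⬝ᵥ w k) • gs τ w c := by
        rw [smul_sum, ← sum_subset (subset_univ (Iic k)) fun l _ hl => by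
          simp [θ, exCoef, mt mem_Iic.2 hl]]
        exact sum_congr rfl fun l hl => by simp [θ, exCoef, mem_Iic.1 hl, e, smul_comm sn]
      rw [h1, gsTail, ← smul_add, add_sub_cancel]
      simp [w, smul_smul, hsp.ne', sn]
    conv_lhs => rw [hd']
    simp only [Matrix.mulVec_add, Matrix.mulVec_sum, Matrix.mulVec_smul]
  set err : ℝ := δ * (L + M * (L + 1) * (2 * M + 1) + (M : ℝ) ^ 2 * 8 * (L + 1) + 4 * M) with herr
  have hterm : ∀ l, nrm (θ'.al k l • (innovOf hτ β w d q l + ∑ c, θ'.G l c • u' c)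
      - θ.al k l • (sn • (K *ᵥ e l))) ≤ sn * err + 3 * β * nrm (E.proj l fun i => q (l, i)) := by
    intro l
    have hp0 : 0 ≤ nrm (E.proj l fun i => q (l, i)) := LL.nrm_nonneg _
    by_cases h : e l = 0
    · rw [(hz l h).1, (hz l h).2]
      simp only [zero_smul, sub_zero]
      rw [show nrm (0 : Fin n → ℝ) = 0 by simp [nrm], herr]
      positivity
    set p := E.proj l fun i => q (l, i)
    set D := ∑ c, θ'.G l c • u' c - ∑ c, θ.G l c • u c with hD
    have hDn : nrm D ≤ sn * (M * (δ * (1 + 2 * M) + L * (M * δ * 2))) := by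
      rw [hD, ← sum_sub_distrib]
      refine (nrm_sum _ _).trans ((sum_le_sum fun c _ => ?_).trans_eq
        (b := ∑ _c : Fin M, sn * (δ * (1 + 2 * M) + L * (M * δ * 2))) (by simp; ring))
      have : θ'.G l c • u' c - θ.G l c • u c = (θ'.G l c - θ.G l c) • u' c + θ.G l c • (u' c - u c) := by
        rw [sub_smul, smul_sub]; abel
      rw [this]
      refine (LL.nrm_add _ _).trans ?_
      rw [nrm_smul, nrm_smul]
      linarith [mul_le_mul (dG l c) (hu'n c) (LL.nrm_nonneg _) hδ.le,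
        mul_le_mul (hG l c) (hdu c) (LL.nrm_nonneg _) hL]
    have e1 : θ'.al k l • (innovOf hτ β w d q l + ∑ c, θ'.G l c • u' c) - θ.al k l • (sn • (K *ᵥ e l))
        = (θ'.al k l - θ.al k l) • (sn • (K *ᵥ e l)) + θ'.al k l • (β • p + D) := by
      have : innovOf hτ β w d q l + ∑ c, θ'.G l c • u' c = sn • (K *ᵥ e l) + β • p + D := by
        rw [← himg l h, hD]; abel
      rw [this, sub_smul, smul_add, smul_add, smul_add]
      abel
    rw [e1]
    refine (LL.nrm_add _ _).trans ?_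
    rw [nrm_smul, nrm_smul, nrm_smul]
    have a1 : |sn| * nrm (K *ᵥ e l) ≤ sn * L := by
      rw [abs_of_pos hsp]
      exact mul_le_mul_of_nonneg_left
        ((hK _).trans (mul_le_of_le_one_right hL (hen l))) hsp.le
    have a2 : nrm (β • p + D) ≤ β * nrm p + nrm D := by
      refine (LL.nrm_add _ _).trans ?_
      rw [nrm_smul, abs_of_nonneg hβ]
    have a3 : |θ'.al k l| ≤ 3 := by
      have := abs_sub_abs_le_abs_sub (θ'.al k l) (θ.al k l)
      linarith [dA k l, hal k l]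
    linarith [mul_le_mul (dA k l) a1 (mul_nonneg (abs_nonneg sn) (LL.nrm_nonneg _)) hδ.le,
      mul_le_mul a3 a2 (LL.nrm_nonneg _) (by norm_num : (0 : ℝ) ≤ 3),
      mul_nonneg hsp.le (mul_nonneg hδ.le (mul_nonneg (M.cast_nonneg (α := ℝ)) hL)),
      mul_nonneg hsp.le (mul_nonneg hδ.le (M.cast_nonneg (α := ℝ))),
      mul_nonneg hsp.le (mul_nonneg hδ.le (sq_nonneg (M : ℝ))),
      mul_nonneg hsp.le (mul_nonneg hδ.le (mul_nonneg (sq_nonneg (M : ℝ)) hL))]
  have e2 : zVec θ' v (innovOf hτ β w d q) k - K *ᵥ v k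
      = ∑ l, (θ'.al k l • (innovOf hτ β w d q l + ∑ c, θ'.G l c • u' c)
        - θ.al k l • (sn • (K *ᵥ e l))) + -(sn • (K *ᵥ gsTail τ w k)) := by
    rw [sum_sub_distrib, hcol]
    simp only [zVec, hu']
    abel
  rw [e2]
  refine (LL.nrm_add _ _).trans ((add_le_add ((nrm_sum _ _).trans (sum_le_sum fun l _ => hterm l))
    (le_of_eq (LL.nrm_neg _))).trans ?_)
  rw [sum_add_distrib, ← mul_sum univ (fun l => nrm (E.proj l fun i => q (l, i))), nrm_smul,
    abs_of_pos hsp, sum_const, card_univ, Fintype.card_fin, nsmul_eq_mul]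
  have ht : nrm (K *ᵥ gsTail τ w k) ≤ L * τ := (hK _).trans (mul_le_mul_of_nonneg_left (by
    rw [nrm_dot, sqrt_le_left hτ.le]; exact gsTail_sq hτ k) hL)
  have hc : (M : ℝ) * err ≤ errC M L C * δ := by
    have hM : (0 : ℝ) ≤ M := M.cast_nonneg
    have h4 : (4 : ℝ) ≤ (C + 2) ^ 2 := by nlinarith
    have h5 := mul_le_mul_of_nonneg_left h4
      (show 0 ≤ ((M : ℝ) + 1) ^ 3 * (L + 3) * 16 * δ by positivity)
    rw [herr, errC]
    linarith [mul_nonneg hM hL, mul_nonneg (mul_nonneg hM hM) hL,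
      mul_nonneg (mul_nonneg (mul_nonneg hM hM) hM) hL, mul_nonneg hM hM, mul_nonneg (mul_nonneg hM hM) hM,
      mul_nonneg hδ.le (mul_nonneg hM hL), mul_nonneg hδ.le hL, mul_nonneg hδ.le (mul_nonneg (mul_nonneg hM hM) hL),
      mul_nonneg hδ.le (mul_nonneg (mul_nonneg (mul_nonneg hM hM) hM) hL), mul_nonneg hδ.le hM,
      mul_nonneg hδ.le (mul_nonneg hM hM), mul_nonneg hδ.le (mul_nonneg (mul_nonneg hM hM) hM)]
  show (M : ℝ) * (sn * err) + 3 * β * auxErr hτ w q + _ ≤ _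
  linarith [mul_le_mul_of_nonneg_left ht hsp.le, mul_le_mul_of_nonneg_left hc hsp.le]

end Vale.Agent.P150.Fast.Dom
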